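import Crest.Agent.R236.OdeLocal

/-!
# Row 236, example in dimension 10: global solution of the radial ODE

For `σ > 0` put `p = σ a`, `e = 1 + σ b`, `σ = exp (2 s)`; then
`p_s = p (1 + e - p)`, `e_s = e g(p, e)`, `g = 9 (1 - e) + p + 12 p (2 e - 1) / (2 p + 9)`.
In the variables `P = log p`, `Q = log e` clamp `p̂ = min (exp P) (9/2)`, `ê = min (exp Q) (7/2)`:
the field `(1 + ê - p̂, g(p̂, ê))` is bounded and Lipschitz, so there is a global solution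
(Picard-Lindelöf on `[s₀, s₀ + T]` for all `T` plus uniqueness, or see `R285.FlowAux`). If
`P > log (9/2)` then `P' ≤ 0`, if `Q > log (7/2)` then `Q' = g(p̂, 7/2) ≤ 0`, so the clamps are never
active. Glue with the local solution by uniqueness (`ODE_solution_unique_of_mem_Icc_right` etc.) and
get smoothness by bootstrapping (a `C^k` solution of a smooth ODE is `C^{k+1}`).
One may also work directly in the variable `σ ≥ σ₀ / 2` (non-autonomous, factor `1 / (2σ)`).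
-/

set_option autoImplicit false
open scoped ContDiff

namespace Crest.Agent.R236

open Set Filter Topology in
/-- global solutions for bounded Lipschitz fields -/
theorem ode_global {V : Type*} [NormedAddCommGroup V] [NormedSpace ℝ V] [CompleteSpace V]
    {f : V → V} {K L : NNReal} (hf : LipschitzWith K f) (hL : ∀ x, ‖f x‖ ≤ L) (x₀ : V) :
    ∃ α : ℝ → V, α 0 = x₀ ∧ ∀ t, HasDerivAt α (f (α t)) t := by
  have h1 : ∀ n : ℕ, ∃ α : ℝ → V, α 0 = x₀ ∧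
      ∀ t ∈ Ioo (-(n + 1 : ℝ)) (n + 1), HasDerivAt α (f (α t)) t := by
    intro n
    have hn : (0 : ℝ) < n + 1 := by positivity
    obtain ⟨α, h0, hα⟩ := (IsPicardLindelof.of_time_independent (f := f) (tmin := -(n + 1 : ℝ))
      (tmax := n + 1) (t₀ := ⟨0, by linarith, hn.le⟩) (x₀ := x₀) (a := L * (n + 1)) (r := 0) (L := L)
      (K := K) (fun x _ => hL x) hf.lipschitzOnWith
      (by simp)).exists_eq_forall_mem_Icc_hasDerivWithinAt₀
    exact ⟨α, h0, fun t ht =>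
      (hα t (Ioo_subset_Icc_self ht)).hasDerivAt (Icc_mem_nhds ht.1 ht.2)⟩
  choose α h0 hα using h1
  have h2 : ∀ m n : ℕ, m ≤ n → EqOn (α m) (α n) (Ioo (-(m + 1 : ℝ)) (m + 1)) := by
    intro m n hmn
    have hm : (0 : ℝ) < m + 1 := by positivity
    have hmn' : (m : ℝ) ≤ n := by exact_mod_cast hmn
    exact ODE_solution_unique_of_mem_Ioo (v := fun _ => f) (s := fun _ => univ) (K := K) (t₀ := 0)
      (fun _ _ => hf.lipschitzOnWith) ⟨by linarith, hm⟩ (fun t ht => ⟨hα m t ht, trivial⟩)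
      (fun t ht => ⟨hα n t ⟨by linarith [ht.1], by linarith [ht.2]⟩, trivial⟩)
      ((h0 m).trans (h0 n).symm)
  have h3 : ∀ t : ℝ, t ∈ Ioo (-((⌊|t|⌋₊ : ℝ) + 1)) (⌊|t|⌋₊ + 1) := fun t =>
    abs_lt.1 (Nat.lt_floor_add_one _)
  refine ⟨fun t => α ⌊|t|⌋₊ t, h0 _, fun t => (hα _ t (h3 t)).congr_of_eventuallyEq ?_⟩
  filter_upwards [Ioo_mem_nhds (h3 t).1 (h3 t).2] with s hs
  rcases le_total ⌊|s|⌋₊ ⌊|t|⌋₊ with h | h
  · exact h2 _ _ h (h3 s)
  · exact (h2 _ _ h hs).symm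

theorem ode_barrier {f f' : ℝ → ℝ} {c : ℝ} (hf : ∀ t, HasDerivAt f (f' t) t) (h0 : f 0 ≤ c)
    (h : ∀ t, c < f t → f' t ≤ 0) {t : ℝ} (ht : 0 ≤ t) : f t ≤ c := by
  refine le_of_forall_pos_le_add fun ε hε => ?_
  have hδ : 0 < ε / (t + 1) := by positivity
  have := image_le_of_deriv_right_lt_deriv_boundary (f := f) (f' := f') (a := 0) (b := t)
    (fun x _ => (hf x).continuousAt.continuousWithinAt) (fun x _ => (hf x).hasDerivWithinAt)
    (B := fun x => c + ε / (t + 1) * (x + 1)) (B' := fun _ => ε / (t + 1)) (by linarith)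
    (fun x => by simpa using (((hasDerivAt_id x).add_const 1).const_mul (ε / (t + 1))).const_add c)
    (fun x hx e => (h x (by
      rw [e]
      exact lt_add_of_pos_right _ (mul_pos hδ (by linarith [hx.1])))).trans_lt hδ) ⟨ht, le_rfl⟩
  rwa [div_mul_cancel₀ _ (by positivity)] at this

theorem ode_clamp_lip (c : ℝ) :
    LipschitzWith (Real.exp c).toNNReal fun x => Real.exp (min x c) := by
  have h : LipschitzOnWith (Real.exp c).toNNReal Real.exp (Set.Iic c) :=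
    (convex_Iic c).lipschitzOnWith_of_nnnorm_hasDerivWithin_le (f' := Real.exp)
      (fun x _ => (Real.hasDerivAt_exp x).hasDerivWithinAt) fun x hx => by
        rw [← NNReal.coe_le_coe, coe_nnnorm, Real.coe_toNNReal _ (Real.exp_pos c).le,
          Real.norm_of_nonneg (Real.exp_pos x).le]
        exact Real.exp_le_exp.2 hx
  have := h.comp (LipschitzWith.id.min_const c).lipschitzOnWith (s := Set.univ)
    fun x _ => min_le_right x c
  rw [mul_one, lipschitzOnWith_univ] at this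
  exact this

theorem ode_pe {p₀ e₀ : ℝ} (hp : 0 < p₀) (hp' : p₀ ≤ 9 / 2) (he : 0 < e₀) (he' : e₀ ≤ 7 / 2) :
    ∃ p e : ℝ → ℝ, p 0 = p₀ ∧ e 0 = e₀ ∧ ∀ s, 0 ≤ s → 0 < p s ∧ 0 < e s ∧
      HasDerivAt p (p s * (1 + e s - p s)) s ∧
      HasDerivAt e (e s * (9 * (1 - e s) + p s + 12 * p s * (2 * e s - 1) / (2 * p s + 9))) s := by
  let G : ℝ × ℝ → ℝ × ℝ := fun z =>
    (1 + z.2 - z.1, 9 * (1 - z.2) + z.1 + 12 * z.1 * (2 * z.2 - 1) / (2 * z.1 + 9))
  let S : Set (ℝ × ℝ) := Set.Icc 0 (9 / 2) ×ˢ Set.Icc 0 (7 / 2)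
  have hS : IsCompact S := isCompact_Icc.prod isCompact_Icc
  have hG : ContDiffOn ℝ 1 G S := by
    refine ContDiffOn.prodMk (by fun_prop) (ContDiffOn.add (by fun_prop)
      (ContDiffOn.div (by fun_prop) (by fun_prop) fun z hz => ?_))
    have := hz.1.1
    positivity
  obtain ⟨K, hK⟩ := hG.exists_lipschitzOnWith one_ne_zero
    ((convex_Icc _ _).prod (convex_Icc _ _)) hS
  obtain ⟨L, hL⟩ := hS.exists_bound_of_continuousOn hG.continuousOn
  have e1 : Real.exp (Real.log (9 / 2)) = 9 / 2 := Real.exp_log (by norm_num)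
  have e2 : Real.exp (Real.log (7 / 2)) = 7 / 2 := Real.exp_log (by norm_num)
  let c : ℝ × ℝ → ℝ × ℝ := fun w =>
    (Real.exp (min w.1 (Real.log (9 / 2))), Real.exp (min w.2 (Real.log (7 / 2))))
  have hc : ∀ w, c w ∈ S := fun w =>
    ⟨⟨(Real.exp_pos _).le, (Real.exp_le_exp.2 (min_le_right _ _)).trans e1.le⟩,
      (Real.exp_pos _).le, (Real.exp_le_exp.2 (min_le_right _ _)).trans e2.le⟩
  have hcl : LipschitzWith _ c := ((ode_clamp_lip _).comp LipschitzWith.prod_fst).prodMk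
    ((ode_clamp_lip _).comp LipschitzWith.prod_snd)
  have hF := hK.comp hcl.lipschitzOnWith (s := Set.univ) fun w _ => hc w
  rw [lipschitzOnWith_univ] at hF
  obtain ⟨α, h0, hα⟩ := ode_global (L := L.toNNReal) hF
    (fun w => (hL _ (hc w)).trans (Real.le_coe_toNNReal L)) (Real.log p₀, Real.log e₀)
  have hP : ∀ t, HasDerivAt (fun t => (α t).1) (G (c (α t))).1 t := fun t =>
    (ContinuousLinearMap.fst ℝ ℝ ℝ).hasFDerivAt.comp_hasDerivAt t (hα t)
  have hQ : ∀ t, HasDerivAt (fun t => (α t).2) (G (c (α t))).2 t := fun t =>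
    (ContinuousLinearMap.snd ℝ ℝ ℝ).hasFDerivAt.comp_hasDerivAt t (hα t)
  have bP : ∀ s, 0 ≤ s → (α s).1 ≤ Real.log (9 / 2) := fun s hs =>
    ode_barrier hP (by rw [h0]; exact Real.log_le_log hp hp') (fun t ht => by
      have := (hc (α t)).2.2
      simp only [G, c] at this ⊢
      rw [min_eq_right ht.le, e1]
      linarith) hs
  have bQ : ∀ s, 0 ≤ s → (α s).2 ≤ Real.log (7 / 2) := fun s hs =>
    ode_barrier hQ (by rw [h0]; exact Real.log_le_log he he') (fun t ht => by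
      obtain ⟨h1, h2⟩ := (hc (α t)).1
      simp only [G, c] at h1 h2 ⊢
      rw [min_eq_right ht.le, e2]
      set x := Real.exp (min (α t).1 (Real.log (9 / 2)))
      have : 12 * x * (2 * (7 / 2) - 1) / (2 * x + 9) ≤ 18 := by
        rw [div_le_iff₀ (by positivity)]
        linarith
      linarith) hs
  refine ⟨fun s => Real.exp (α s).1, fun s => Real.exp (α s).2, by simp [h0, Real.exp_log hp],
    by simp [h0, Real.exp_log he], fun s hs => ⟨Real.exp_pos _, Real.exp_pos _, ?_, ?_⟩⟩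
  · have := (hP s).exp
    simp only [G, c, min_eq_left (bP s hs), min_eq_left (bQ s hs)] at this
    exact this
  · have := (hQ s).exp
    simp only [G, c, min_eq_left (bP s hs), min_eq_left (bQ s hs)] at this
    exact this

open Set Filter Topology in
theorem ode_glue {f₁ f₂ : ℝ → ℝ} {c σ d : ℝ} (h : f₁ c = f₂ c) (h1 : σ ≤ c → HasDerivAt f₁ d σ)
    (h2 : c ≤ σ → HasDerivAt f₂ d σ) :
    HasDerivAt (fun t => if t ≤ c then f₁ t else f₂ t) d σ := by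
  rcases lt_trichotomy σ c with hc | rfl | hc
  · refine (h1 hc.le).congr_of_eventuallyEq ?_
    filter_upwards [Iio_mem_nhds hc] with t ht
    exact if_pos (le_of_lt ht)
  · rw [← hasDerivWithinAt_univ, ← Iic_union_Ici (a := σ)]
    refine HasDerivWithinAt.union ((h1 le_rfl).hasDerivWithinAt.congr (fun t ht => if_pos ht)
      (if_pos le_rfl)) ((h2 le_rfl).hasDerivWithinAt.congr (fun t ht => ?_)
        ((if_pos le_rfl).trans h))
    split_ifs with h3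
    · rw [le_antisymm h3 ht, h]
    · rfl
  · refine (h2 hc.le).congr_of_eventuallyEq ?_
    filter_upwards [Ioi_mem_nhds hc] with t ht
    exact if_neg (not_le.2 ht)

open Set Filter Topology in
/-- the solution for `σ ≥ σ₁` -/
theorem ode_far {σ₁ a₁ b₁ : ℝ} (hσ : 0 < σ₁) (h1 : 0 < a₁) (h2 : 0 < 1 + σ₁ * b₁)
    (h3 : σ₁ * a₁ ≤ 9 / 2) (h4 : 1 + σ₁ * b₁ ≤ 7 / 2) :
    ∃ a b : ℝ → ℝ, a σ₁ = a₁ ∧ b σ₁ = b₁ ∧ ∀ σ, σ₁ ≤ σ → 0 < a σ ∧ 0 < 1 + σ * b σ ∧
      HasDerivAt a (a σ * (b σ - a σ) / 2) σ ∧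
      HasDerivAt (fun t => 1 + t * b t)
        ((1 + σ * b σ) * (-9 * b σ + a σ +
          12 * a σ * (2 * (1 + σ * b σ) - 1) / (2 * σ * a σ + 9)) / 2) σ := by
  obtain ⟨p, e, hp0, he0, h⟩ := ode_pe (mul_pos hσ h1) h3 h2 h4
  let τ : ℝ → ℝ := fun σ => (Real.log σ - Real.log σ₁) / 2
  have hτ0 : τ σ₁ = 0 := by simp [τ]
  refine ⟨fun σ => p (τ σ) / σ, fun σ => (e (τ σ) - 1) / σ, ?_, ?_, fun σ hσ' => ?_⟩
  · simp only [hτ0, hp0]
    field_simp
  · simp only [hτ0, he0]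
    field_simp
    ring
  have hσ0 : 0 < σ := hσ.trans_le hσ'
  have hτ : HasDerivAt τ (σ⁻¹ / 2) σ :=
    ((Real.hasDerivAt_log hσ0.ne').sub_const _).div_const 2
  obtain ⟨a1, a2, a3, a4⟩ := h (τ σ) (div_nonneg (sub_nonneg.2 (Real.log_le_log hσ hσ')) zero_le_two)
  have e1 : ∀ t : ℝ, t ≠ 0 → 1 + t * ((e (τ t) - 1) / t) = e (τ t) := fun t ht => by
    field_simp
    ring
  refine ⟨div_pos a1 hσ0, by rw [e1 σ hσ0.ne']; exact a2, ?_, ?_⟩
  · refine ((a3.comp σ hτ).fun_div (hasDerivAt_id σ) hσ0.ne').congr_deriv ?_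
    simp only [Function.comp, id]
    field_simp
    ring
  · refine ((a4.comp σ hτ).congr_of_eventuallyEq ?_).congr_deriv ?_
    · filter_upwards [Ioi_mem_nhds hσ0] with t ht
      exact e1 t (ne_of_gt ht)
    · simp only [e1 σ hσ0.ne']
      field_simp
      ring

open Set Filter Topology in
/-- bootstrapping -/
theorem ode_smooth {a b : ℝ → ℝ} (h : ∀ σ, 0 < σ → 0 < a σ ∧
      HasDerivAt a (a σ * (b σ - a σ) / 2) σ ∧
      HasDerivAt (fun t => 1 + t * b t)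
        ((1 + σ * b σ) * (-9 * b σ + a σ +
          12 * a σ * (2 * (1 + σ * b σ) - 1) / (2 * σ * a σ + 9)) / 2) σ) {σ : ℝ} (hσ : 0 < σ) :
    ContDiffAt ℝ ∞ a σ ∧ ContDiffAt ℝ ∞ b σ := by
  let f : ℝ → ℝ × ℝ → ℝ × ℝ := fun t z => (z.1 * ((z.2 - 1) / t - z.1) / 2,
    z.2 * (-9 * ((z.2 - 1) / t) + z.1 + 12 * z.1 * (2 * z.2 - 1) / (2 * t * z.1 + 9)) / 2)
  have hpos : ∀ t ∈ Icc (σ / 2) (2 * σ), 0 < t := fun t ht => lt_of_lt_of_le (by positivity) ht.1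
  have hf : ContDiffOn ℝ ∞ (Function.uncurry f) (Icc (σ / 2) (2 * σ) ×ˢ {z | 0 < z.1}) := by
    have h1 : ContDiffOn ℝ ∞ (fun w : ℝ × ℝ × ℝ => (w.2.2 - 1) / w.1)
        (Icc (σ / 2) (2 * σ) ×ˢ {z | 0 < z.1}) :=
      ContDiffOn.div (by fun_prop) (by fun_prop) fun w hw => (hpos _ hw.1).ne'
    have h2 : ContDiffOn ℝ ∞ (fun w : ℝ × ℝ × ℝ =>
        12 * w.2.1 * (2 * w.2.2 - 1) / (2 * w.1 * w.2.1 + 9))
        (Icc (σ / 2) (2 * σ) ×ˢ {z | 0 < z.1}) :=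
      ContDiffOn.div (by fun_prop) (by fun_prop) fun w hw => by
        have := hpos _ hw.1
        have : 0 < w.2.1 := hw.2
        positivity
    have h3 : ContDiffOn ℝ ∞ (fun w : ℝ × ℝ × ℝ => w.2.1)
        (Icc (σ / 2) (2 * σ) ×ˢ {z | 0 < z.1}) := by fun_prop
    have h4 : ContDiffOn ℝ ∞ (fun w : ℝ × ℝ × ℝ => w.2.2)
        (Icc (σ / 2) (2 * σ) ×ˢ {z | 0 < z.1}) := by fun_prop
    exact ((h3.mul (h1.sub h3)).div_const 2).prodMk
      ((h4.mul (((contDiffOn_const.mul h1).add h3).add h2)).div_const 2)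
  have hα := ODE.contDiffOn_enat_Icc_of_hasDerivWithinAt (n := ⊤)
    (α := fun t => (a t, 1 + t * b t)) hf (fun t ht => by
      obtain ⟨-, h1, h2⟩ := h t (hpos t ht)
      have e : (1 + t * b t - 1) / t = b t := by
        have := (hpos t ht).ne'
        field_simp
        ring
      simp only [f, e]
      exact (h1.prodMk h2).hasDerivWithinAt) fun t ht => (h t (hpos t ht)).1
  have hα' := hα.contDiffAt (Icc_mem_nhds (by linarith : σ / 2 < σ) (by linarith : σ < 2 * σ))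
  refine ⟨hα'.fst, ((hα'.snd.sub (contDiffAt_const (c := 1))).div contDiffAt_id
    hσ.ne').congr_of_eventuallyEq ?_⟩
  filter_upwards [Ioi_mem_nhds hσ] with t ht
  have := ne_of_gt (show 0 < t from ht)
  simp only [Pi.div_apply, id]
  field_simp
  ring

theorem exists_ode : ∃ (a b : ℝ → ℝ) (σ₀ : ℝ), 0 < σ₀ ∧
    ContDiffOn ℝ ∞ a (Set.Ioi (-σ₀)) ∧ ContDiffOn ℝ ∞ b (Set.Ioi (-σ₀)) ∧
    ∀ σ ∈ Set.Ioi (-σ₀), 0 < a σ ∧ 0 < 1 + σ * b σ ∧ 0 < 2 * σ * a σ + 9 ∧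
      HasDerivAt a (a σ * (b σ - a σ) / 2) σ ∧
      HasDerivAt (fun t => 1 + t * b t)
        ((1 + σ * b σ) * (-9 * b σ + a σ +
          12 * a σ * (2 * (1 + σ * b σ) - 1) / (2 * σ * a σ + 9)) / 2) σ := by
  obtain ⟨a₁, b₁, σ₀, h0, ha₁, hb₁, h₁⟩ := exists_ode_local
  have hm : ∀ σ, -σ₀ < σ → σ ≤ σ₀ / 2 → σ ∈ Set.Ioo (-σ₀) σ₀ := fun σ h1 h2 => ⟨h1, by linarith⟩
  obtain ⟨c1, c2, -, c3, c4, -⟩ := h₁ (σ₀ / 2) (hm _ (by linarith) le_rfl)
  obtain ⟨a₂, b₂, ea, eb, h₂⟩ := ode_far (half_pos h0) c1 c2 c3 c4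
  let a : ℝ → ℝ := fun t => if t ≤ σ₀ / 2 then a₁ t else a₂ t
  let b : ℝ → ℝ := fun t => if t ≤ σ₀ / 2 then b₁ t else b₂ t
  have l1 : ∀ t, t ≤ σ₀ / 2 → a t = a₁ t ∧ b t = b₁ t := fun t ht => ⟨if_pos ht, if_pos ht⟩
  have l2 : ∀ t, σ₀ / 2 ≤ t → a t = a₂ t ∧ b t = b₂ t := fun t ht => by
    rcases ht.eq_or_lt with rfl | ht'
    · exact ⟨(if_pos le_rfl).trans ea.symm, (if_pos le_rfl).trans eb.symm⟩
    · exact ⟨if_neg (not_le.2 ht'), if_neg (not_le.2 ht')⟩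
  have key : ∀ σ ∈ Set.Ioi (-σ₀), 0 < a σ ∧ 0 < 1 + σ * b σ ∧ 0 < 2 * σ * a σ + 9 ∧
      HasDerivAt a (a σ * (b σ - a σ) / 2) σ ∧
      HasDerivAt (fun t => 1 + t * b t)
        ((1 + σ * b σ) * (-9 * b σ + a σ +
          12 * a σ * (2 * (1 + σ * b σ) - 1) / (2 * σ * a σ + 9)) / 2) σ := by
    intro σ hσ
    have d1 : 0 < a σ ∧ 0 < 1 + σ * b σ ∧ 0 < 2 * σ * a σ + 9 := by
      rcases le_total σ (σ₀ / 2) with h | h
      · rw [(l1 σ h).1, (l1 σ h).2]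
        obtain ⟨a1, a2, a3, -⟩ := h₁ σ (hm σ hσ h)
        exact ⟨a1, a2, a3⟩
      · rw [(l2 σ h).1, (l2 σ h).2]
        obtain ⟨a1, a2, -⟩ := h₂ σ h
        have : 0 < σ := (half_pos h0).trans_le h
        exact ⟨a1, a2, by positivity⟩
    refine ⟨d1.1, d1.2.1, d1.2.2, ode_glue ea.symm (fun h => ?_) fun h => ?_, ?_⟩
    · rw [(l1 σ h).1, (l1 σ h).2]
      exact (h₁ σ (hm σ hσ h)).2.2.2.2.2.1
    · rw [(l2 σ h).1, (l2 σ h).2]
      exact (h₂ σ h).2.2.1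
    have e : (fun t => 1 + t * b t) =
        fun t => if t ≤ σ₀ / 2 then 1 + t * b₁ t else 1 + t * b₂ t := by
      funext t
      simp only [b]
      split_ifs <;> rfl
    rw [e]
    refine ode_glue (by rw [eb]) (fun h => ?_) fun h => ?_
    · rw [(l1 σ h).1, (l1 σ h).2]
      exact (h₁ σ (hm σ hσ h)).2.2.2.2.2.2
    · rw [(l2 σ h).1, (l2 σ h).2]
      exact (h₂ σ h).2.2.2
  have sm : ∀ σ ∈ Set.Ioi (-σ₀), ContDiffAt ℝ ∞ a σ ∧ ContDiffAt ℝ ∞ b σ := by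
    intro σ hσ
    rcases lt_or_ge 0 σ with h | h
    · refine ode_smooth (fun t ht => ?_) h
      obtain ⟨a1, -, -, a2⟩ := key t (show -σ₀ < t by linarith)
      exact ⟨a1, a2⟩
    · have h1 : Set.Ioo (-σ₀) σ₀ ∈ nhds σ := Ioo_mem_nhds hσ (by linarith)
      have h2 : Set.Iio (σ₀ / 2) ∈ nhds σ := Iio_mem_nhds (by linarith)
      exact ⟨(ha₁.contDiffAt h1).congr_of_eventuallyEq
          (Filter.mem_of_superset h2 fun t ht => (l1 t (le_of_lt ht)).1),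
        (hb₁.contDiffAt h1).congr_of_eventuallyEq
          (Filter.mem_of_superset h2 fun t ht => (l1 t (le_of_lt ht)).2)⟩
  exact ⟨a, b, σ₀, h0, fun σ hσ => (sm σ hσ).1.contDiffWithinAt,
    fun σ hσ => (sm σ hσ).2.contDiffWithinAt, key⟩

end Crest.Agent.R236
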