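import Crest.Agent.R236.TW

/-!
# Row 236: density lemma (ABP by sliding) and the two integral bounds

`abp_density`: let `a = 8 η`. For `‖p‖ ≤ 1/32` minimise `f + a (u - ⟪p, ·⟫)` over the compact set
`{u ≤ 1}` (`‖x‖ ≤ 4`): at `x₁` the value is `≤ 6η`, on `{u = 1}` it is `≥ 7η`, so the minimum point `x` has
`u x < 1`, `f x ≤ 7η`, `Φ x = p` for `Φ = ∇u + ∇f / a`, and `DΦ = D²u + D²f / a ⪰ 0` with
`det DΦ ≤ det D²u · (tr((D²u)⁻¹ DΦ)/n)ⁿ ≤ det D²u ≤ C`. Apply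
`addHaar_image_le_lintegral_abs_det_fderiv` on the measurable set
`Γ = {x ∈ Ω | u < 1, f ≤ 7η, |det DΦ| ≤ C}`.

`lap_bound`: `Σ_i ∂_i (((2-u)⁺)² u_i) = ((2-u)⁺)² Δu - 2 (2-u)⁺ ‖∇u‖²`, `integral_div_eq_zero`, `grad_le`.

`log_energy`: with `η = ((2-u)⁺)²`, `Dc (η² d log f) ≤ -η² |d log f|²_U + 2 η ⟨dη, d log f⟩_U` gives
`∫ η² |d log f|²_U ≤ 4 ∫ |dη|²_U = 16 ∫ ((2-u)⁺)² |du|²_U = (16 n / 3) ∫ ((2-u)⁺)³ det`
(from `Dc (((2-u)⁺)³ du)`); finally `‖ζ‖² ≤ (ζᵀ H⁻¹ ζ) tr H`, so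
`‖D log f‖ ≤ |d log f|²_U + tr H / c` pointwise.
-/

set_option autoImplicit false
open scoped ContDiff RealInnerProductSpace ENNReal Topology
open Crest.GeometryTopology.CoordMetric Crest.GeometryTopology.AffineMaximal MeasureTheory

noncomputable section

namespace Crest.Agent.R236

variable {n : ℕ}

/-- gradient map of a function -/
def abpGr (w : E n → ℝ) (x : E n) : E n := WithLp.toLp 2 fun i => pderiv i w x

lemma abp_diff {w : E n → ℝ} {x : E n} (hw : ContDiffAt ℝ 2 w x) :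
    DifferentiableAt ℝ (abpGr w) x := by
  rw [differentiableAt_euclidean]
  exact fun i => diff1_dd hw i

lemma abp_det {w : E n → ℝ} {x : E n} (hw : ContDiffAt ℝ 2 w x) :
    (fderiv ℝ (abpGr w) x).det = (hessianMat w x).det := by
  rw [← Matrix.det_transpose, ContinuousLinearMap.det,
    ← LinearMap.det_toMatrix (EuclideanSpace.basisFun (Fin n) ℝ).toBasis]
  congr 1
  ext i j
  rw [LinearMap.toMatrix_apply, Matrix.transpose_apply]
  have h := ((EuclideanSpace.proj i : E n →L[ℝ] ℝ).hasFDerivAt.comp x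
    (abp_diff hw).hasFDerivAt).fderiv
  have e : (⇑(EuclideanSpace.proj i : E n →L[ℝ] ℝ) ∘ abpGr w) = pderiv i w := rfl
  rw [e] at h
  show _ = fderiv ℝ (pderiv i w) x (EuclideanSpace.single j 1)
  rw [h]
  simp

/-- at a local minimum of `w - ⟪p, ·⟫` the gradient is `p` and the Hessian is semidefinite -/
lemma abp_min {w : E n → ℝ} {x p : E n} (hw : ContDiffAt ℝ 2 w x)
    (hm : IsLocalMin (fun z => w z - ⟪p, z⟫) x) :
    abpGr w x = p ∧ (hessianMat w x).PosSemidef := by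
  have hl : ContDiff ℝ 2 (fun z : E n => ⟪p, z⟫) := contDiff_const.inner ℝ contDiff_id
  have hg : ContDiffAt ℝ 2 (fun z => ⟪p, z⟫ - w z) x := hl.contDiffAt.sub hw
  have hm' : IsLocalMax (fun z => ⟪p, z⟫ - w z) x := by
    filter_upwards [hm] with z hz
    linarith
  obtain ⟨h1, h2⟩ := hessian_nonpos_of_isLocalMax hg hm'
  have hp : ∀ z, dd (fun z : E n => ⟪p, z⟫) z = fun i => p i := fun z => by
    funext i
    have : HasFDerivAt (fun z : E n => ⟪p, z⟫) (innerSL ℝ p) z := (innerSL ℝ p).hasFDerivAt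
    simp [dd, pderiv, this.fderiv, EuclideanSpace.inner_single_right]
  have h3 : dd (fun z => ⟪p, z⟫ - w z) =ᶠ[𝓝 x] fun z => (fun i => p i) - dd w z := by
    filter_upwards [AM.coreA_ev_diff hw] with z a
    rw [dd_sub (hl.differentiable two_ne_zero z) a, hp]
  refine ⟨?_, ?_⟩
  · rw [h3.eq_of_nhds, sub_eq_zero] at h1
    ext i
    exact (congrFun h1 i).symm
  · have h4 : ∀ i j, hessianMat (fun z => ⟪p, z⟫ - w z) x i j = -hessianMat w x i j := by
      intro i j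
      rw [AM.coreA_hess_congr h3]
      have := congrFun (dd_sub (differentiableAt_const (p j)) (diff1_dd hw j)) i
      rw [dd_const, zero_sub] at this
      exact this
    refine Matrix.PosSemidef.of_dotProduct_mulVec_nonneg ?_ fun v => ?_
    · ext i j
      simp [hessianMat_symm hw i j]
    · have h5 := h2 v
      simp only [h4, neg_mul, Finset.sum_neg_distrib, neg_nonpos] at h5
      refine h5.trans_eq ?_
      simp only [dotProduct, Matrix.mulVec, Finset.mul_sum, star_trivial]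
      refine Finset.sum_congr rfl fun i _ => Finset.sum_congr rfl fun j _ => ?_
      ring

lemma abp_Lop_nonneg (M : AM n) {w : E n → ℝ} {x : E n} (hx : x ∈ M.Ω)
    (h : (hessianMat w x).PosSemidef) : 0 ≤ M.Lop w x := by
  obtain ⟨B, hB⟩ := M.coreA_root hx
  have e : M.Lop w x = ∑ k, ∑ i, ∑ j, hessianMat w x i j * B k i * B k j := by
    unfold AM.Lop
    simp only [hB, Finset.sum_mul]
    conv_rhs => rw [Finset.sum_comm]
    refine Finset.sum_congr rfl fun i _ => ?_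
    rw [Finset.sum_comm]
    exact Finset.sum_congr rfl fun k _ => Finset.sum_congr rfl fun j _ => by ring
  rw [e]
  refine Finset.sum_nonneg fun k _ => (h.dotProduct_mulVec_nonneg (B k)).trans_eq ?_
  simp only [dotProduct, Matrix.mulVec, Finset.mul_sum, star_trivial]
  refine Finset.sum_congr rfl fun i _ => Finset.sum_congr rfl fun j _ => ?_
  ring

theorem abp_density (n : ℕ) (hn : 1 ≤ n) {C : ℝ} (hC : 0 < C) : ∃ c₁ : ℝ, 0 < c₁ ∧
    ∀ (M : AM n) (γ₁ : ℝ) (γ₂ : ℝ → ℝ), Nice M γ₁ γ₂ → (∀ x ∈ M.Ω, M.u x ≤ 2 → M.det x ≤ C) →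
      ∀ f : E n → ℝ, ContDiffOn ℝ 2 f M.Ω → (∀ x ∈ M.Ω, 0 ≤ f x) → (∀ x ∈ M.Ω, M.Lop f x ≤ 0) →
      ∀ x₁ ∈ M.Ω, M.u x₁ ≤ 1 / 2 → ∀ η : ℝ, 0 < η → f x₁ ≤ η →
        ENNReal.ofReal c₁ ≤ volume {x | x ∈ M.Ω ∧ M.u x ≤ 1 ∧ f x ≤ 7 * η} := by
  have hv0 : 0 < volume (Metric.ball (0 : E n) (1 / 32)) :=
    Metric.measure_ball_pos _ _ (by norm_num)
  have hvt : volume (Metric.ball (0 : E n) (1 / 32)) ≠ ⊤ := measure_ball_lt_top.ne
  refine ⟨(volume (Metric.ball (0 : E n) (1 / 32))).toReal / C,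
    div_pos (ENNReal.toReal_pos hv0.ne' hvt) hC, ?_⟩
  intro M γ₁ γ₂ hN hdet f hf hf0 hL x₁ hx₁ hu₁ η hη hfx₁
  set w : E n → ℝ := fun z => M.u z + (8 * η)⁻¹ * f z with hw
  have hu2 : ContDiffOn ℝ 2 M.u M.Ω := M.smooth.of_le 
    (WithTop.coe_le_coe.2 (le_top : (2 : ℕ∞) ≤ ⊤))
  have hw2 : ContDiffOn ℝ 2 w M.Ω := hu2.add (contDiffOn_const.mul hf)
  have hwa : ∀ x ∈ M.Ω, ContDiffAt ℝ 2 w x := fun x hx => hw2.contDiffAt (M.isOpen.mem_nhds hx)
  set Γ : Set (E n) := ((M.Ω ∩ M.u ⁻¹' Set.Iio 1) \ (M.Ω ∩ f ⁻¹' Set.Ioi (7 * η))) ∩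
    {x | |(fderiv ℝ (abpGr w) x).det| ≤ C} with hΓ
  have hO1 : IsOpen (M.Ω ∩ M.u ⁻¹' Set.Iio 1) :=
    hu2.continuousOn.isOpen_inter_preimage M.isOpen isOpen_Iio
  have hO2 : IsOpen (M.Ω ∩ f ⁻¹' Set.Ioi (7 * η)) :=
    hf.continuousOn.isOpen_inter_preimage M.isOpen isOpen_Ioi
  have hΓm : MeasurableSet Γ := by
    refine (hO1.measurableSet.diff hO2.measurableSet).inter ?_
    exact measurableSet_le ((ContinuousLinearMap.continuous_det.measurable.comp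
      (measurable_fderiv ℝ (abpGr w))).abs) measurable_const
  have hsub : Γ ⊆ {x | x ∈ M.Ω ∧ M.u x ≤ 1 ∧ f x ≤ 7 * η} := by
    rintro x ⟨⟨⟨hx, hu⟩, hfx⟩, -⟩
    refine ⟨hx, le_of_lt hu, not_lt.1 fun h => hfx ⟨hx, h⟩⟩
  have hcover : Metric.ball (0 : E n) (1 / 32) ⊆ abpGr w '' Γ := by
    intro p hp
    have hp' : ‖p‖ ≤ 1 / 32 := (mem_ball_zero_iff.1 hp).le
    have hK := hN.isCompact_sublevel (a := 1) (by norm_num)
    have hpz : ∀ z ∈ M.Ω, M.u z ≤ 1 → |⟪p, z⟫| ≤ 1 / 8 := fun z hz h => by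
      have h1 := hN.bdd z hz (by linarith)
      have h2 := abs_real_inner_le_norm p z
      have h3 : ‖p‖ * ‖z‖ ≤ 1 / 32 * 4 := mul_le_mul hp' h1 (norm_nonneg _) (by norm_num)
      linarith
    have hc : ContinuousOn (fun z => w z - ⟪p, z⟫) {x | x ∈ M.Ω ∧ M.u x ≤ 1} :=
      (hw2.continuousOn.mono fun z hz => hz.1).sub (by fun_prop)
    obtain ⟨x, ⟨hx, hux⟩, hmin⟩ := hK.exists_isMinOn ⟨x₁, hx₁, by linarith⟩ hc
    have h1 : w x - ⟪p, x⟫ ≤ w x₁ - ⟪p, x₁⟫ := hmin ⟨hx₁, by linarith⟩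
    have h8 : 0 < 8 * η := by positivity
    have h2 : (8 * η)⁻¹ * f x₁ ≤ 1 / 8 := by
      rw [inv_mul_le_iff₀ h8]
      linarith
    have h3 := abs_le.1 (hpz x hx hux)
    have h4 := abs_le.1 (hpz x₁ hx₁ (by linarith))
    have h5 : 0 ≤ (8 * η)⁻¹ * f x := mul_nonneg (inv_nonneg.2 h8.le) (hf0 x hx)
    have h6 := hN.nonneg x hx
    simp only [hw] at h1
    have hux' : M.u x < 1 := by linarith
    have hfx : f x ≤ 7 * η := by
      have : (8 * η)⁻¹ * f x ≤ 7 / 8 := by linarith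
      rw [inv_mul_le_iff₀ h8] at this
      linarith
    have hloc : IsLocalMin (fun z => w z - ⟪p, z⟫) x := by
      refine hmin.isLocalMin (Filter.mem_of_superset (hO1.mem_nhds ⟨hx, hux'⟩) ?_)
      rintro z ⟨hz, hz'⟩
      exact ⟨hz, le_of_lt hz'⟩
    obtain ⟨hg, hpsd⟩ := abp_min (hwa x hx) hloc
    refine ⟨x, ⟨⟨⟨hx, hux'⟩, fun h => absurd h.2 (not_lt.2 hfx)⟩, ?_⟩, hg⟩
    show |(fderiv ℝ (abpGr w) x).det| ≤ C
    rw [abp_det (hwa x hx), abs_of_nonneg hpsd.det_nonneg]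
    refine (det_le_det_mul_trace_pow hn (M.pos x hx) hpsd).trans ?_
    have hfa : ContDiffAt ℝ 2 f x := hf.contDiffAt (M.isOpen.mem_nhds hx)
    have h7 : M.Lop w x = n + (8 * η)⁻¹ * M.Lop f x := by
      rw [hw, M.Lop_add (hu2.contDiffAt (M.isOpen.mem_nhds hx)) (contDiffAt_const.mul hfa),
        M.Lop_u hx, M.Lop_const_mul _ hfa]
    have h9 : 0 ≤ M.Lop w x := abp_Lop_nonneg M hx hpsd
    have h10 : M.Lop w x ≤ n := by
      rw [h7]
      have := mul_nonpos_of_nonneg_of_nonpos (inv_nonneg.2 h8.le) (hL x hx)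
      linarith
    have hn' : (0 : ℝ) < n := by exact_mod_cast hn
    have h11 : (M.Lop w x / n) ^ n ≤ 1 :=
      pow_le_one₀ (div_nonneg h9 hn'.le) ((div_le_one hn').2 h10)
    have h12 := hdet x hx (by linarith)
    have h13 := M.det_pos hx
    calc _ = M.det x * (M.Lop w x / n) ^ n := rfl
      _ ≤ M.det x * 1 := mul_le_mul_of_nonneg_left h11 h13.le
      _ ≤ C := by linarith
  have harea := addHaar_image_le_lintegral_abs_det_fderiv (volume : Measure (E n)) hΓm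
    (f := abpGr w) (f' := fun x => fderiv ℝ (abpGr w) x)
    (fun x hx => (abp_diff (hwa x hx.1.1.1)).hasFDerivAt.hasFDerivWithinAt)
  have hint : ∫⁻ x in Γ, ENNReal.ofReal |(fderiv ℝ (abpGr w) x).det| ≤
      ENNReal.ofReal C * volume Γ := by
    rw [← setLIntegral_const]
    exact setLIntegral_mono' hΓm fun x hx => ENNReal.ofReal_le_ofReal hx.2
  have hfin := ((measure_mono hcover).trans harea).trans hint
  rw [ENNReal.ofReal_div_of_pos hC, ENNReal.ofReal_toReal hvt]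
  refine le_trans ?_ (measure_mono hsub)
  exact ENNReal.div_le_of_le_mul' hfin

end Crest.Agent.R236
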