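import Crest.Agent.R236.StepAux

/-!
# Row 236: the energy bound on a cap (gives the lower bound for the affine area)

Let `t = aff ℓ c`, `z^a = (T⁻¹ (X - P))_a` (affine functions `aff`), `q = Σ (z^a)² ≤ 4`,
`τ = Σ ip (dz^a) (dz^a)`, `Φ = (t⁺)³ (1 + q/24)`, `Λ = Lam P ≥ 0`. From `Dv_dd_aff`, `ip_dd_Lam_aff`,
`Dv_dd_Lam` one gets, with `Φ''[T] = 6 t (1+q/24) |dt|² + (t²/4) ⟨dt, dq⟩ + (t³/12) τ` and
`Φ'(P - X) = 3 t² (1+q/24) (t(P) - t) - t³ q / 12`,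
`Dv (Λ dΦ - (n+1) Φ dΛ) = Λ Φ''[T] + n Φ'(P - X) - n (n+1) Φ`.
Since `⟨dt, dq⟩ = 2 Σ z^a ⟨dt, dz^a⟩ ≥ -2 √q |dt| √τ`, `Φ''[T] ≥ t³ τ / 24`; and
`-Φ'(P - X) ≤ 4` as `t(P) ≥ 0`, `t ≤ 1`. Integrate with `integral_Dv_eq_zero` (the form is `C¹` since
`dΦ = (t⁺)² (…)`; write it explicitly with `max t 0`).
AM-GM: `τ ≥ c_n (Λ / |det T|)^{2/n}`. Indeed `τ = tr(g⁻¹ Jᵀ Q J)` with `J = dX`, `Q = T⁻ᵀ T⁻¹`,
`det g = rho^{-2}`, and the `(n+1) × (n+1)` matrix `[T⁻¹ J F | T⁻¹ (P - X)]` (`F` a frame with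
`F Fᵀ = g⁻¹`) has determinant `± rho · hP / det T = ± Λ / det T`; Hadamard's inequality
(`Orientation.abs_volumeForm_apply_le` or `Geo1.abs_det_le_of_thin`-style) bounds it by
`‖T⁻¹(P - X)‖ · Π (column norms) ≤ 2 (τ/n)^{n/2} ≤ 2 τ^{n/2}`.
-/

set_option autoImplicit false
open scoped ContDiff RealInnerProductSpace ENNReal Topology
open Crest.GeometryTopology.CoordMetric Crest.GeometryTopology.AffineMaximal MeasureTheory

noncomputable section

namespace Crest.Agent.R236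

lemma area_hadamard {ι : Type*} [Fintype ι] [DecidableEq ι] (v : ι → EuclideanSpace ℝ ι) :
    |(EuclideanSpace.basisFun ι ℝ).toBasis.det v| ≤ ∏ i, ‖v i‖ := by
  have : Fact (Module.finrank ℝ (EuclideanSpace ℝ ι) = Fintype.card ι) := ⟨by simp⟩
  let e := Fintype.equivFin ι
  let b := (EuclideanSpace.basisFun ι ℝ).reindex e
  have h := b.toBasis.orientation.abs_volumeForm_apply_le (v ∘ e.symm)
  rw [b.toBasis.orientation.volumeForm_robust' b, OrthonormalBasis.reindex_toBasis,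
    Module.Basis.det_reindex] at h
  have e1 : (v ∘ e.symm) ∘ e = v := by ext1 i; simp
  rw [e1] at h
  refine h.trans (le_of_eq ?_)
  exact Equiv.prod_comp e.symm fun i => ‖v i‖

variable {n : ℕ}

/-- the coordinates after the normalisation `T` -/
def areaL (T : A n ≃L[ℝ] A n) (a : Fin n ⊕ Unit) : A n →L[ℝ] ℝ :=
  (EuclideanSpace.proj a : A n →L[ℝ] ℝ) ∘L (T.symm : A n →L[ℝ] A n)

lemma areaL_apply (T : A n ≃L[ℝ] A n) (a : Fin n ⊕ Unit) (y : A n) :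
    areaL T a y = T.symm y a := rfl

namespace AM

variable (M : AM n) (P : A n) (T : A n ≃L[ℝ] A n)

def areaZ (a : Fin n ⊕ Unit) : E n → ℝ := M.aff (areaL T a) (-areaL T a P)

def areaQ (x : E n) : ℝ := ∑ a, M.areaZ P T a x * M.areaZ P T a x

def areaTau (x : E n) : ℝ := ∑ a, M.ip x (dd (M.areaZ P T a) x) (dd (M.areaZ P T a) x)

lemma areaZ_eq (a : Fin n ⊕ Unit) (x : E n) : M.areaZ P T a x = T.symm (M.X x - P) a := by
  rw [← areaL_apply, map_sub]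
  simp only [areaZ, aff]
  ring

lemma areaQ_eq (x : E n) : M.areaQ P T x = ‖T.symm (M.X x - P)‖ ^ 2 := by
  rw [EuclideanSpace.real_norm_sq_eq]
  simp only [areaQ, areaZ_eq, sq]

lemma cd_areaZ (a : Fin n ⊕ Unit) : ContDiffOn ℝ ∞ (M.areaZ P T a) M.Ω := M.contDiffOn_aff _ _

lemma cd_areaQ : ContDiffOn ℝ ∞ (M.areaQ P T) M.Ω :=
  ContDiffOn.sum fun a _ => (M.cd_areaZ P T a).mul (M.cd_areaZ P T a)

lemma dd_areaQ {x : E n} (hx : x ∈ M.Ω) :
    dd (M.areaQ P T) x = ∑ a, (2 * M.areaZ P T a x) • dd (M.areaZ P T a) x := by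
  have h := fun a => M.coreB_d (M.cd_areaZ P T a) hx
  unfold areaQ
  rw [dd_sum (f := fun a z => M.areaZ P T a z * M.areaZ P T a z) _ fun a _ => (h a).mul (h a)]
  refine Finset.sum_congr rfl fun a _ => ?_
  rw [dd_mul (h a) (h a), ← add_smul, two_mul]

lemma Dv_dd_areaQ {x : E n} (hx : x ∈ M.Ω) :
    M.Dv (dd (M.areaQ P T)) x =
      2 * n * ∑ a, M.areaZ P T a x * areaL T a (M.xi x) + 2 * M.areaTau P T x := by
  have h := fun a => M.coreB_d (M.cd_areaZ P T a) hx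
  have h' := fun a => diff1_dd (M.coreB_cd (M.cd_areaZ P T a) hx)
  have e : dd (M.areaQ P T) =ᶠ[𝓝 x]
      fun z => ∑ a, (2 * M.areaZ P T a z) • dd (M.areaZ P T a) z := by
    filter_upwards [M.coreB_ev hx] with z hz using M.dd_areaQ P T hz
  rw [M.Dv_congr e, M.Dv_sum (φ := fun a z => (2 * M.areaZ P T a z) • dd (M.areaZ P T a) z) _ hx
    fun a _ j => ((h a).const_mul 2).mul (h' a j), areaTau,
    Finset.mul_sum, Finset.mul_sum, ← Finset.sum_add_distrib]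
  refine Finset.sum_congr rfl fun a _ => ?_
  rw [M.Dv_smul hx ((h a).const_mul 2) (h' a), dd_const_mul _ (h a), M.ip_smul_left]
  unfold areaZ
  rw [M.Dv_dd_aff _ _ hx]
  ring

lemma ip_Lam_areaQ {x : E n} (hx : x ∈ M.Ω) :
    M.ip x (dd (M.Lam P) x) (dd (M.areaQ P T) x) =
      2 * M.Lam P x * ∑ a, M.areaZ P T a x * areaL T a (M.xi x) + 2 * M.areaQ P T x := by
  rw [M.dd_areaQ P T hx, M.ip_sum_right, areaQ, Finset.mul_sum, Finset.mul_sum,
    ← Finset.sum_add_distrib]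
  refine Finset.sum_congr rfl fun a _ => ?_
  rw [M.ip_smul_right]
  have e : areaL T a (P - M.X x) = -M.areaZ P T a x := by
    rw [map_sub]; simp only [areaZ, aff]; ring
  have e2 : M.ip x (dd (M.Lam P) x) (dd (M.areaZ P T a) x) =
      M.Lam P x * areaL T a (M.xi x) - areaL T a (P - M.X x) := M.ip_dd_Lam_aff P _ _ hx
  rw [e2, e]
  ring

lemma area_quad {x : E n} (hx : x ∈ M.Ω) (α : Fin n → ℝ) (t : ℝ) :
    0 ≤ 36 * M.areaQ P T x * M.ip x α α + 6 * t * M.ip x α (dd (M.areaQ P T) x) +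
      t ^ 2 * M.areaTau P T x := by
  rw [M.dd_areaQ P T hx, M.ip_sum_right, areaQ, areaTau, Finset.mul_sum, Finset.mul_sum,
    Finset.mul_sum, Finset.sum_mul, ← Finset.sum_add_distrib, ← Finset.sum_add_distrib]
  refine Finset.sum_nonneg fun a _ => ?_
  have h := M.ip_self_nonneg hx ((6 * M.areaZ P T a x) • α + t • dd (M.areaZ P T a) x)
  simp only [M.ip_add_left, M.ip_add_right, M.ip_smul_left, M.ip_smul_right] at h ⊢
  rw [M.ip_comm hx (dd (M.areaZ P T a) x) α] at h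
  linarith

lemma areaTau_nonneg {x : E n} (hx : x ∈ M.Ω) : 0 ≤ M.areaTau P T x :=
  Finset.sum_nonneg fun _ _ => M.ip_self_nonneg hx _

/-- the Hadamard inequality -/
lemma area_amgm {x : E n} (hx : x ∈ M.Ω) (h2 : ‖T.symm (M.X x - P)‖ ≤ 2) :
    M.Lam P x ^ 2 ≤ 4 * (T : A n →L[ℝ] A n).det ^ 2 * M.areaTau P T x ^ n := by
  obtain ⟨B, hB⟩ := M.coreA_root hx
  have hρ := M.rho_pos hx
  let w : Fin n ⊕ Unit → A n := Sum.elim
    (fun k => ∑ i, B k i • mkA (EuclideanSpace.single i 1) (pderiv i M.u x)) fun _ => P - M.X x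
  have hdet : (EuclideanSpace.basisFun (Fin n ⊕ Unit) ℝ).toBasis.det w = B.det * M.hP P x := by
    have e : (EuclideanSpace.basisFun (Fin n ⊕ Unit) ℝ).toBasis.toMatrix w =
        Matrix.fromBlocks 1 0 (Matrix.of fun _ i => pderiv i M.u x) 1 *
          Matrix.fromBlocks B.transpose (Matrix.of fun i _ => base (P - M.X x) i) 0
            (Matrix.of fun _ _ => M.hP P x) := by
      rw [Matrix.fromBlocks_multiply]
      ext a b
      rcases a with a | a <;> rcases b with b | b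
      · simp [Module.Basis.toMatrix_apply, w]
      · simp [Module.Basis.toMatrix_apply, w]
      · simp [Module.Basis.toMatrix_apply, w, Matrix.mul_apply, mul_comm]
      · have := M.coreB_N (P - M.X x) x
        simp only [Module.Basis.toMatrix_apply, w, Matrix.mul_apply, OrthonormalBasis.coe_toBasis_repr_apply,
          EuclideanSpace.basisFun_repr, Sum.elim_inr, Matrix.fromBlocks_apply₂₂, Matrix.add_apply,
          Matrix.of_apply, Matrix.one_mul, hP, this]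
        simp [ht]
    rw [Module.Basis.det_apply, e, Matrix.det_mul, Matrix.det_fromBlocks_zero₁₂,
      Matrix.det_fromBlocks_zero₂₁]
    simp
  have hB2 : B.det ^ 2 = M.rho x ^ (n + 2) := by
    have e : M.Hi x = B.transpose * B := by
      ext i j
      rw [hB, Matrix.mul_apply]
      rfl
    have e1 := congrArg Matrix.det (M.Hi_mul_H hx)
    rw [Matrix.det_mul, e, Matrix.det_mul, Matrix.det_transpose, Matrix.det_one] at e1
    have e2 := M.det_mul_rho_pow hx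
    have e3 : M.det x = (M.H x).det := rfl
    rw [← e3] at e1
    have e4 := (M.det_pos hx).ne'
    apply mul_left_cancel₀ e4
    rw [e2, ← e1]
    ring
  have hsum : ∑ k, ‖T.symm (w (Sum.inl k))‖ ^ 2 = M.rho x * M.areaTau P T x := by
    have e : ∀ k a, T.symm (w (Sum.inl k)) a = ∑ i, B k i * dd (M.areaZ P T a) x i := by
      intro k a
      rw [← areaL_apply]
      simp only [w, Sum.elim_inl, map_sum, map_smul, smul_eq_mul]
      refine Finset.sum_congr rfl fun i _ => ?_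
      unfold areaZ
      rw [M.dd_aff _ _ hx]
    simp only [EuclideanSpace.real_norm_sq_eq, e, areaTau, ip, hB, coreA_quad]
    rw [Finset.sum_comm, Finset.mul_sum]
    refine Finset.sum_congr rfl fun a _ => ?_
    rw [← mul_assoc, mul_inv_cancel₀ hρ.ne', one_mul]
    simp only [sq]
  have hH := area_hadamard fun a => T.symm (w a)
  have e5 := (EuclideanSpace.basisFun (Fin n ⊕ Unit) ℝ).toBasis.det_comp
    ((T.symm : A n →L[ℝ] A n) : A n →ₗ[ℝ] A n) w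
  have e6 : LinearMap.det ((T.symm : A n →L[ℝ] A n) : A n →ₗ[ℝ] A n) =
      ((T : A n →L[ℝ] A n).det)⁻¹ := T.det_coe_symm
  have hT : (T : A n →L[ℝ] A n).det ≠ 0 := T.toLinearEquiv.isUnit_det'.ne_zero
  rw [e6, hdet] at e5
  have e7 : (EuclideanSpace.basisFun (Fin n ⊕ Unit) ℝ).toBasis.det (fun a => T.symm (w a)) =
      ((T : A n →L[ℝ] A n).det)⁻¹ * (B.det * M.hP P x) := e5
  rw [e7, Fintype.prod_sum_type] at hH
  have h3 : (((T : A n →L[ℝ] A n).det)⁻¹ * (B.det * M.hP P x)) ^ 2 ≤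
      (M.rho x * M.areaTau P T x) ^ n * 4 := by
    rw [← sq_abs]
    refine (pow_le_pow_left₀ (abs_nonneg _) hH 2).trans ?_
    rw [mul_pow, ← Finset.prod_pow]
    refine mul_le_mul ?_ ?_ (sq_nonneg _) (pow_nonneg (mul_nonneg hρ.le (M.areaTau_nonneg P T hx)) _)
    · refine (Finset.prod_le_prod (g := fun _ => M.rho x * M.areaTau P T x)
        (fun _ _ => sq_nonneg _) fun k _ => ?_).trans (by simp)
      rw [← hsum]
      exact Finset.single_le_sum (f := fun k => ‖T.symm (w (Sum.inl k))‖ ^ 2)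
        (fun _ _ => sq_nonneg _) (Finset.mem_univ k)
    · have e8 : ‖T.symm (P - M.X x)‖ ≤ 2 := by
        rw [← neg_sub, map_neg, norm_neg]; exact h2
      simp only [w, Sum.elim_inr, Finset.univ_unique, Finset.prod_singleton]
      nlinarith [norm_nonneg (T.symm (P - M.X x))]
  rw [mul_pow, mul_pow, hB2, inv_pow, inv_mul_le_iff₀ (by positivity), mul_pow] at h3
  rw [M.Lam_eq]
  refine le_of_mul_le_mul_left ?_ (pow_pos hρ n)
  calc M.rho x ^ n * (M.rho x * M.hP P x) ^ 2 = M.rho x ^ (n + 2) * M.hP P x ^ 2 := by ring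
    _ ≤ _ := h3
    _ = _ := by ring

lemma area_amgm' (hn : 1 ≤ n) (hP : P ∈ M.K) {x : E n} (hx : x ∈ M.Ω)
    (h2 : ‖T.symm (M.X x - P)‖ ≤ 2) :
    M.Lam P x ^ (1 + 2 / (n : ℝ)) ≤
      4 * |(T : A n →L[ℝ] A n).det| ^ (2 / (n : ℝ)) * (M.Lam P x * M.areaTau P T x) := by
  have hL := M.Lam_nonneg hP hx
  have hn' : (1 : ℝ) ≤ n := by exact_mod_cast hn
  have hn0 : n ≠ 0 := by omega
  have h1 := Real.rpow_le_rpow (sq_nonneg _) (M.area_amgm P T hx h2)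
    (show (0 : ℝ) ≤ (n : ℝ)⁻¹ by positivity)
  rw [Real.mul_rpow (by positivity) (pow_nonneg (M.areaTau_nonneg P T hx) _),
    Real.pow_rpow_inv_natCast (M.areaTau_nonneg P T hx) hn0,
    Real.mul_rpow (by norm_num) (sq_nonneg _), ← sq_abs (ContinuousLinearMap.det _),
    ← Real.rpow_natCast, ← Real.rpow_natCast, ← Real.rpow_mul hL,
    ← Real.rpow_mul (abs_nonneg _)] at h1
  have h4 : (4 : ℝ) ^ (n : ℝ)⁻¹ ≤ 4 := by
    conv_rhs => rw [← Real.rpow_one 4]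
    exact Real.rpow_le_rpow_of_exponent_le (by norm_num) (inv_le_one_of_one_le₀ hn')
  rw [Real.rpow_add' hL (by positivity), Real.rpow_one]
  have e : ((2 : ℕ) : ℝ) * (n : ℝ)⁻¹ = 2 / n := by push_cast; ring
  rw [e] at h1
  have h5 : M.Lam P x ^ (2 / (n : ℝ)) ≤
      4 * |(T : A n →L[ℝ] A n).det| ^ (2 / (n : ℝ)) * M.areaTau P T x :=
    h1.trans (mul_le_mul_of_nonneg_right (mul_le_mul_of_nonneg_right h4 (by positivity))
      (M.areaTau_nonneg P T hx))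
  calc _ ≤ M.Lam P x * _ := mul_le_mul_of_nonneg_left h5 hL
    _ = _ := by ring

variable (ℓ : A n →L[ℝ] ℝ) (c : ℝ)

def areaA1 (z : E n) : ℝ := (n + 1) * (max (M.aff ℓ c z) 0 ^ 3 * (1 + 1 / 24 * M.areaQ P T z))
def areaA2 (z : E n) : ℝ :=
  3 * (M.Lam P z * (max (M.aff ℓ c z) 0 ^ 2 * (1 + 1 / 24 * M.areaQ P T z)))
def areaA3 (z : E n) : ℝ := 1 / 24 * (M.Lam P z * max (M.aff ℓ c z) 0 ^ 3)

def areaPhi : Form n := fun z =>
  M.areaA1 P T ℓ c z • dd (M.Lam P) z - M.areaA2 P T ℓ c z • dd (M.aff ℓ c) z -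
    M.areaA3 P ℓ c z • dd (M.areaQ P T) z

lemma area_cd_pow (k : ℕ) : ContDiffOn ℝ 1 (fun z => max (M.aff ℓ c z) 0 ^ (k + 2)) M.Ω :=
  (contDiff_posPart_pow k).comp_contDiffOn ((M.contDiffOn_aff ℓ c).of_le (by simp))

lemma area_cd_w : ContDiffOn ℝ 1 (fun z => 1 + 1 / 24 * M.areaQ P T z) M.Ω :=
  contDiffOn_const.add (contDiffOn_const.mul ((M.cd_areaQ P T).of_le (by simp)))

lemma area_cd_L : ContDiffOn ℝ 1 (M.Lam P) M.Ω := (M.contDiffOn_Lam P).of_le (by simp)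

lemma cd_areaA1 : ContDiffOn ℝ 1 (M.areaA1 P T ℓ c) M.Ω :=
  contDiffOn_const.mul ((M.area_cd_pow ℓ c 1).mul (M.area_cd_w P T))

lemma cd_areaA2 : ContDiffOn ℝ 1 (M.areaA2 P T ℓ c) M.Ω :=
  contDiffOn_const.mul ((M.area_cd_L P).mul ((M.area_cd_pow ℓ c 0).mul (M.area_cd_w P T)))

lemma cd_areaA3 : ContDiffOn ℝ 1 (M.areaA3 P ℓ c) M.Ω :=
  contDiffOn_const.mul ((M.area_cd_L P).mul (M.area_cd_pow ℓ c 1))

lemma cd_areaPhi (i : Fin n) : ContDiffOn ℝ 1 (fun z => M.areaPhi P T ℓ c z i) M.Ω :=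
  (((M.cd_areaA1 P T ℓ c).mul
    ((contDiffOn_dd M.isOpen (M.contDiffOn_Lam P) i).of_le (by simp))).sub
    ((M.cd_areaA2 P T ℓ c).mul
      ((contDiffOn_dd M.isOpen (M.contDiffOn_aff ℓ c) i).of_le (by simp)))).sub
    ((M.cd_areaA3 P ℓ c).mul ((contDiffOn_dd M.isOpen (M.cd_areaQ P T) i).of_le (by simp)))

lemma area_d1 {f : E n → ℝ} (hf : ContDiffOn ℝ 1 f M.Ω) {x : E n} (hx : x ∈ M.Ω) :
    DifferentiableAt ℝ f x := (hf.contDiffAt (M.isOpen.mem_nhds hx)).differentiableAt one_ne_zero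

lemma Dv_areaPhi {x : E n} (hx : x ∈ M.Ω) (ht : 0 ≤ M.aff ℓ c x) :
    M.Dv (M.areaPhi P T ℓ c) x =
      n * (n + 1) * M.aff ℓ c x ^ 3 * (1 + M.areaQ P T x / 24)
        - 3 * n * M.aff ℓ c x ^ 2 * (1 + M.areaQ P T x / 24) * (ℓ P + c - M.aff ℓ c x)
        + n * M.aff ℓ c x ^ 3 * M.areaQ P T x / 12
        - M.Lam P x * (6 * M.aff ℓ c x * (1 + M.areaQ P T x / 24) *
            M.ip x (dd (M.aff ℓ c) x) (dd (M.aff ℓ c) x)
          + M.aff ℓ c x ^ 2 / 4 * M.ip x (dd (M.aff ℓ c) x) (dd (M.areaQ P T) x)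
          + M.aff ℓ c x ^ 3 / 12 * M.areaTau P T x) := by
  have dL := M.coreB_d (M.contDiffOn_Lam P) hx
  have dt := M.coreB_d (M.contDiffOn_aff ℓ c) hx
  have dq := M.coreB_d (M.cd_areaQ P T) hx
  have DL := diff1_dd (M.coreB_cd (M.contDiffOn_Lam P) hx)
  have Dt := diff1_dd (M.coreB_cd (M.contDiffOn_aff ℓ c) hx)
  have Dq := diff1_dd (M.coreB_cd (M.cd_areaQ P T) hx)
  have d1 := M.area_d1 (M.cd_areaA1 P T ℓ c) hx
  have d2 := M.area_d1 (M.cd_areaA2 P T ℓ c) hx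
  have d3 := M.area_d1 (M.cd_areaA3 P ℓ c) hx
  have dp2 : DifferentiableAt ℝ (fun z => max (M.aff ℓ c z) 0 ^ 2) x :=
    M.area_d1 (M.area_cd_pow ℓ c 0) hx
  have dp3 : DifferentiableAt ℝ (fun z => max (M.aff ℓ c z) 0 ^ 3) x :=
    M.area_d1 (M.area_cd_pow ℓ c 1) hx
  have dw := M.area_d1 (M.area_cd_w P T) hx
  have e2 : dd (fun z => max (M.aff ℓ c z) 0 ^ 2) x = (2 * M.aff ℓ c x) • dd (M.aff ℓ c) x := by
    have := dd_comp dt (hasDerivAt_posPart_pow 0 (M.aff ℓ c x))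
    simpa [max_eq_left ht] using this
  have e3 : dd (fun z => max (M.aff ℓ c z) 0 ^ 3) x =
      (3 * M.aff ℓ c x ^ 2) • dd (M.aff ℓ c) x := by
    have := dd_comp dt (hasDerivAt_posPart_pow 1 (M.aff ℓ c x))
    rw [max_eq_left ht] at this
    norm_num at this
    exact this
  have ew : dd (fun z => 1 + 1 / 24 * M.areaQ P T z) x = (1 / 24 : ℝ) • dd (M.areaQ P T) x := by
    rw [dd_add (differentiableAt_const _) (dq.const_mul _), dd_const, dd_const_mul _ dq, zero_add]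
  have f1 : dd (M.areaA1 P T ℓ c) x = ((n : ℝ) + 1) • (M.aff ℓ c x ^ 3 • (1 / 24 : ℝ) •
      dd (M.areaQ P T) x + (1 + 1 / 24 * M.areaQ P T x) •
        (3 * M.aff ℓ c x ^ 2) • dd (M.aff ℓ c) x) := by
    unfold areaA1
    rw [dd_const_mul _ (dp3.fun_mul dw), dd_mul dp3 dw, e3, ew, max_eq_left ht]
  have f2 : dd (M.areaA2 P T ℓ c) x = (3 : ℝ) • (M.Lam P x • (M.aff ℓ c x ^ 2 • (1 / 24 : ℝ) •
      dd (M.areaQ P T) x + (1 + 1 / 24 * M.areaQ P T x) •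
        (2 * M.aff ℓ c x) • dd (M.aff ℓ c) x) +
      (M.aff ℓ c x ^ 2 * (1 + 1 / 24 * M.areaQ P T x)) • dd (M.Lam P) x) := by
    unfold areaA2
    rw [dd_const_mul _ (dL.fun_mul (dp2.fun_mul dw)), dd_mul dL (dp2.fun_mul dw), dd_mul dp2 dw, e2, ew,
      max_eq_left ht]
  have f3 : dd (M.areaA3 P ℓ c) x = (1 / 24 : ℝ) • (M.Lam P x •
      (3 * M.aff ℓ c x ^ 2) • dd (M.aff ℓ c) x + M.aff ℓ c x ^ 3 • dd (M.Lam P) x) := by
    unfold areaA3
    rw [dd_const_mul _ (dL.fun_mul dp3), dd_mul dL dp3, e3, max_eq_left ht]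
  have g1 : Diff1 (fun z => M.areaA1 P T ℓ c z • dd (M.Lam P) z) x := fun j => d1.mul (DL j)
  have g2 : Diff1 (fun z => M.areaA2 P T ℓ c z • dd (M.aff ℓ c) z) x := fun j => d2.mul (Dt j)
  have g3 : Diff1 (fun z => M.areaA3 P ℓ c z • dd (M.areaQ P T) z) x := fun j => d3.mul (Dq j)
  have eP : ℓ (P - M.X x) = ℓ P + c - M.aff ℓ c x := by
    rw [map_sub]; simp only [aff]; ring
  have g12 : Diff1 (fun z => M.areaA1 P T ℓ c z • dd (M.Lam P) z -
      M.areaA2 P T ℓ c z • dd (M.aff ℓ c) z) x := fun j => (g1 j).sub (g2 j)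
  unfold areaPhi
  rw [M.Dv_sub hx g12 g3, M.Dv_sub hx g1 g2, M.Dv_smul hx d1 DL,
    M.Dv_smul hx d2 Dt, M.Dv_smul hx d3 Dq, f1, f2, f3]
  simp only [M.ip_add_left, M.ip_smul_left]
  rw [M.ip_comm hx (dd (M.areaQ P T) x) (dd (M.Lam P) x),
    M.ip_comm hx (dd (M.aff ℓ c) x) (dd (M.Lam P) x),
    M.ip_comm hx (dd (M.areaQ P T) x) (dd (M.aff ℓ c) x), M.ip_Lam_areaQ P T hx,
    M.ip_dd_Lam_aff P ℓ c hx, M.Dv_dd_Lam P hx, M.Dv_dd_aff ℓ c hx, M.Dv_dd_areaQ P T hx, eP]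
  simp only [areaA1, areaA2, areaA3, max_eq_left ht]
  ring

end AM

theorem energy_bound (n : ℕ) (hn : 1 ≤ n) : ∃ C : ℝ, 0 < C ∧
    ∀ (M : AM n) (P : A n) (T : A n ≃L[ℝ] A n) (U Cc : Set (E n)) (ℓ : A n →L[ℝ] ℝ) (c : ℝ),
      IsOpen U → U ⊆ M.Ω → IsCompact Cc → Cc ⊆ U → (∀ x ∈ U, x ∈ Cc ↔ 0 ≤ M.aff ℓ c x) →
      (∀ x ∈ Cc, M.aff ℓ c x ≤ 1) → P ∈ M.K → 0 ≤ ℓ P + c →
      (∀ x ∈ Cc, ‖T.symm (M.X x - P)‖ ≤ 2) →
      M.mass (fun x => M.aff ℓ c x ^ 3 * M.Lam P x ^ (1 + 2 / (n : ℝ))) Cc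
        ≤ ENNReal.ofReal (C * |(T : A n →L[ℝ] A n).det| ^ (2 / (n : ℝ)))
          * M.mass (fun _ => 1) Cc := by
  refine ⟨96 * (2 * n * (n + 1) + 5 * n), by positivity, ?_⟩
  intro M P T U Cc ℓ c hU hUΩ hC hCU hmem h1 hP hP0 h2
  have hT : (T : A n →L[ℝ] A n).det ≠ 0 := T.toLinearEquiv.isUnit_det'.ne_zero
  have hD : 0 < |(T : A n →L[ℝ] A n).det| ^ (2 / (n : ℝ)) :=
    Real.rpow_pos_of_pos (abs_pos.2 hT) _
  set D := |(T : A n →L[ℝ] A n).det| ^ (2 / (n : ℝ)) with hDdef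
  have hCΩ : Cc ⊆ M.Ω := hCU.trans hUΩ
  have key := M.mass_le_of_Dv hU hUΩ hC hCU MeasurableSet.univ (M.areaPhi P T ℓ c)
    (fun i => (M.cd_areaPhi P T ℓ c i).mono hUΩ) (fun x hx hx' => by
      have : max (M.aff ℓ c x) 0 = 0 := max_eq_right (not_le.1 fun h => hx' ((hmem x hx).2 h)).le
      simp [AM.areaPhi, AM.areaA1, AM.areaA2, AM.areaA3, this])
    (f := fun x => M.aff ℓ c x ^ 3 * M.Lam P x ^ (1 + 2 / (n : ℝ))) (g := fun _ => 1)
    ((((M.contDiffOn_aff ℓ c).continuousOn.mono hCΩ).pow 3).mul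
      (((M.contDiffOn_Lam P).continuousOn.mono hCΩ).rpow_const fun _ _ => Or.inr (by positivity)))
    continuousOn_const
    (fun x hx => mul_nonneg (pow_nonneg ((hmem x (hCU hx)).1 hx) _)
      (Real.rpow_nonneg (M.Lam_nonneg hP (hCΩ hx)) _))
    (fun _ _ => zero_le_one) (a := 1 / (96 * D)) (b := 2 * n * (n + 1) + 5 * n) (by positivity)
    (by positivity) ?_
  · rw [Set.inter_univ] at key
    convert key using 3
    field_simp
  intro x hx
  have hx' := hCΩ hx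
  have ht0 := (hmem x (hCU hx)).1 hx
  have ht1 := h1 x hx
  have hL := M.Lam_nonneg hP hx'
  have hq0 : 0 ≤ M.areaQ P T x := by rw [M.areaQ_eq]; positivity
  have hq4 : M.areaQ P T x ≤ 4 := by
    rw [M.areaQ_eq]
    nlinarith [h2 x hx, norm_nonneg (T.symm (M.X x - P))]
  have hquad := M.area_quad P T hx' (dd (M.aff ℓ c) x) (M.aff ℓ c x)
  have hI := M.ip_self_nonneg hx' (dd (M.aff ℓ c) x)
  have ham := M.area_amgm' P T hn hP hx' (h2 x hx)
  rw [M.Dv_areaPhi P T ℓ c hx' ht0, Set.indicator_univ, mul_one]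
  rw [← hDdef] at ham
  set t := M.aff ℓ c x
  set q := M.areaQ P T x
  set L := M.Lam P x
  set I := M.ip x (dd (M.aff ℓ c) x) (dd (M.aff ℓ c) x)
  set J := M.ip x (dd (M.aff ℓ c) x) (dd (M.areaQ P T) x)
  set τ := M.areaTau P T x
  have hn0 : (0 : ℝ) ≤ n := Nat.cast_nonneg n
  have ht3 : t ^ 3 ≤ 1 := pow_le_one₀ ht0 ht1
  have ht30 : 0 ≤ t ^ 3 := pow_nonneg ht0 3
  have a1 : t ^ 3 * (1 + q / 24) ≤ 4 / 3 := by nlinarith
  have a2 : t ^ 3 * q ≤ 4 := by nlinarith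
  have a3 : 0 ≤ t ^ 2 * (1 + q / 24) * (ℓ P + c) := by positivity
  have a4 : t ^ 3 * τ / 24 ≤ 6 * t * (1 + q / 24) * I + t ^ 2 / 4 * J + t ^ 3 / 12 * τ := by
    have b1 := mul_nonneg ht0 hquad
    have b2 : 0 ≤ t * I * (4 - q) := mul_nonneg (mul_nonneg ht0 hI) (by linarith)
    have b3 : 0 ≤ t * I * q := mul_nonneg (mul_nonneg ht0 hI) hq0
    nlinarith
  have a5 : 1 / (96 * D) * (t ^ 3 * L ^ (1 + 2 / (n : ℝ))) ≤ L * (t ^ 3 * τ / 24) := by
    calc _ ≤ 1 / (96 * D) * (t ^ 3 * (4 * D * (L * τ))) := by gcongr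
      _ = _ := by field_simp; ring
  have a6 := mul_le_mul_of_nonneg_left a4 hL
  have a7 := mul_le_mul_of_nonneg_left a1 (show 0 ≤ (n : ℝ) * (n + 1) by positivity)
  have a8 := mul_le_mul_of_nonneg_left a1 hn0
  have a9 := mul_le_mul_of_nonneg_left a2 hn0
  have a10 := mul_nonneg hn0 a3
  have a11 : 0 ≤ (n : ℝ) * (n + 1) := by positivity
  nlinarith

end Crest.Agent.R236
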