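import Crest.Prelude.Def_AffineMaximal

/-!
# Row 236 (affine Bernstein problem): basic definitions

`E n` is the base space, `A n` the ambient space `ℝⁿ × ℝ` (as a Euclidean space).
For an affine maximal graph `M : AM n` (with closed epigraph `M.K`) we define
`rho = det(D²u)^(-1/(n+2))`, the position `X x = (x, u x)`, the normal `N x = (-∇u, 1)`, the affine
conormal `nu = rho • N`, the Blaschke metric `g = rho D²u` acting on one-forms (`ip`), its
divergence `Dv` (volume element `dV = dx / rho`) and the affine normal `xi`.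
-/

set_option autoImplicit false
open scoped ContDiff RealInnerProductSpace ENNReal
open Crest.GeometryTopology.CoordMetric Crest.GeometryTopology.AffineMaximal MeasureTheory

noncomputable section

namespace Crest.Agent.R236

abbrev E (n : ℕ) := EuclideanSpace ℝ (Fin n)
abbrev A (n : ℕ) := EuclideanSpace ℝ (Fin n ⊕ Unit)

variable {n : ℕ}

/-- the point `(x, t)` of the ambient space -/
def mkA (x : E n) (t : ℝ) : A n := WithLp.toLp 2 (Sum.elim (fun i => x i) (fun _ => t))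
/-- base component -/
def base (X : A n) : E n := WithLp.toLp 2 (fun i => X (Sum.inl i))
/-- height component -/
def ht (X : A n) : ℝ := X (Sum.inr ())

@[simp] lemma mkA_inl (x : E n) (t : ℝ) (i : Fin n) : mkA x t (Sum.inl i) = x i := rfl
@[simp] lemma mkA_inr (x : E n) (t : ℝ) (a : Unit) : mkA x t (Sum.inr a) = t := rfl
@[simp] lemma base_apply (X : A n) (i : Fin n) : base X i = X (Sum.inl i) := rfl
@[simp] lemma base_mkA (x : E n) (t : ℝ) : base (mkA x t) = x := by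
  ext i; rfl
@[simp] lemma ht_mkA (x : E n) (t : ℝ) : ht (mkA x t) = t := rfl
@[simp] lemma mkA_base_ht (X : A n) : mkA (base X) (ht X) = X := by
  ext a; rcases a with i | a <;> rfl
@[simp] lemma base_add (X Y : A n) : base (X + Y) = base X + base Y := by ext i; rfl
@[simp] lemma base_sub (X Y : A n) : base (X - Y) = base X - base Y := by ext i; rfl
@[simp] lemma base_smul (c : ℝ) (X : A n) : base (c • X) = c • base X := by ext i; rfl
@[simp] lemma ht_add (X Y : A n) : ht (X + Y) = ht X + ht Y := rfl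
@[simp] lemma ht_sub (X Y : A n) : ht (X - Y) = ht X - ht Y := rfl
@[simp] lemma ht_smul (c : ℝ) (X : A n) : ht (c • X) = c * ht X := rfl

lemma inner_A (X Y : A n) : ⟪X, Y⟫ = ⟪base X, base Y⟫ + ht X * ht Y := by
  simp [PiLp.inner_apply, Fintype.sum_sum_type, ht, mul_comm]

/-- epigraph of `u` over `Ω` -/
def epi (Ω : Set (E n)) (u : E n → ℝ) : Set (A n) := {X | base X ∈ Ω ∧ u (base X) ≤ ht X}

/-- An affine maximal graph with closed epigraph. -/
structure AM (n : ℕ) where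
  Ω : Set (E n)
  u : E n → ℝ
  isOpen : IsOpen Ω
  convex : Convex ℝ Ω
  nonempty : Ω.Nonempty
  smooth : ContDiffOn ℝ ∞ u Ω
  pos : ∀ x ∈ Ω, (hessianMat u x).PosDef
  eqn : ∀ x ∈ Ω, affineMaximalOp n u x = 0
  closed : IsClosed (epi Ω u)

/-- one-forms in coordinates -/
abbrev Form (n : ℕ) := E n → Fin n → ℝ

/-- differential of a function, as a one-form -/
def dd (f : E n → ℝ) : Form n := fun x i => pderiv i f x

/-- every component of the form is differentiable at `x` -/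
def Diff1 (φ : Form n) (x : E n) : Prop := ∀ j, DifferentiableAt ℝ (fun z => φ z j) x

namespace AM

variable (M : AM n)

def K : Set (A n) := epi M.Ω M.u
def H (x : E n) : Matrix (Fin n) (Fin n) ℝ := hessianMat M.u x
def Hi (x : E n) : Matrix (Fin n) (Fin n) ℝ := (M.H x)⁻¹
def det (x : E n) : ℝ := (M.H x).det
def rho (x : E n) : ℝ := (M.det x) ^ (-1 / ((n : ℝ) + 2))
def grad (x : E n) : E n := WithLp.toLp 2 (fun i => pderiv i M.u x)
def X (x : E n) : A n := mkA x (M.u x)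
def N (x : E n) : A n := mkA (-M.grad x) 1
def nu (x : E n) : A n := M.rho x • M.N x

/-- inner product of one-forms for the Blaschke metric `g = rho D²u` -/
def ip (x : E n) (α β : Fin n → ℝ) : ℝ := (M.rho x)⁻¹ * ∑ i, ∑ j, M.Hi x i j * α i * β j

/-- divergence of a one-form for the Blaschke metric (`Dv (dd f)` is the Laplacian of `f`) -/
def Dv (φ : Form n) (x : E n) : ℝ :=
  M.rho x * ∑ i, pderiv i (fun z => (M.rho z)⁻¹ ^ 2 * ∑ j, M.Hi z i j * φ z j) x

/-- the affine normal -/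
def xi (x : E n) : A n :=
  mkA (WithLp.toLp 2 fun i => M.ip x (dd M.rho x) (Pi.single i 1) / M.rho x)
    ((M.ip x (dd M.rho x) (dd M.u x) + 1) / M.rho x)

/-- Euclidean-type support function `N (P - X)` -/
def hP (P : A n) (x : E n) : ℝ := ⟪M.N x, P - M.X x⟫
/-- affine support function `ν (P - X) = rho * hP` -/
def Lam (P : A n) (x : E n) : ℝ := ⟪M.nu x, P - M.X x⟫
/-- component `ν(v)` of the conormal -/
def nuv (v : A n) (x : E n) : ℝ := ⟪M.nu x, v⟫
/-- restriction of an affine function of the ambient space to the graph -/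
def aff (ℓ : A n →L[ℝ] ℝ) (c : ℝ) (x : E n) : ℝ := ℓ (M.X x) + c

/-- `∫_U f dV` as a lower Lebesgue integral -/
def mass (f : E n → ℝ) (U : Set (E n)) : ℝ≥0∞ := ∫⁻ x in U, ENNReal.ofReal (f x / M.rho x)

/-- the linearised Monge-Ampère operator `u^{ij} f_{ij}` -/
def Lop (f : E n → ℝ) (x : E n) : ℝ := ∑ i, ∑ j, M.Hi x i j * hessianMat f x i j
/-- cofactor inner product `U^{ij} α_i β_j` -/
def ipc (x : E n) (α β : Fin n → ℝ) : ℝ := M.det x * ∑ i, ∑ j, M.Hi x i j * α i * β j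
/-- cofactor divergence `∂_i (U^{ij} φ_j)` -/
def Dc (φ : Form n) (x : E n) : ℝ :=
  ∑ i, pderiv i (fun z => M.det z * ∑ j, M.Hi z i j * φ z j) x
/-- the Hessian quadratic form `u_{ξξ}` -/
def qf (ξ : E n) (x : E n) : ℝ := ∑ i, ∑ j, M.H x i j * ξ i * ξ j

end AM

/-- `M'` is `M` rescaled at `x₀`, height `h`, by the linear map `S`. -/
structure Resc (M M' : AM n) (x₀ : E n) (h : ℝ) (S : E n ≃L[ℝ] E n) : Prop where
  mem : ∀ ξ, ξ ∈ M'.Ω ↔ x₀ + S ξ ∈ M.Ω
  val : ∀ ξ, M'.u ξ = (M.u (x₀ + S ξ) - M.u x₀ - ⟪M.grad x₀, S ξ⟫) / h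

/-- A normalised, uniformly strictly convex graph. -/
structure Nice (M : AM n) (γ₁ : ℝ) (γ₂ : ℝ → ℝ) : Prop where
  zero_mem : (0 : E n) ∈ M.Ω
  u_zero : M.u 0 = 0
  nonneg : ∀ x ∈ M.Ω, 0 ≤ M.u x
  bdd : ∀ x ∈ M.Ω, M.u x ≤ 4 → ‖x‖ ≤ 4
  ball : ∀ x ∈ M.Ω, M.u x ≤ 3 → ∀ v : E n, ‖v‖ ≤ γ₁ → x + v ∈ M.Ω ∧ M.u (x + v) ≤ M.u x + 1 / 2
  strict : ∀ c : ℝ, 0 < c → ∀ x ∈ M.Ω, ∀ x' ∈ M.Ω, M.u x ≤ 4 → M.u x' ≤ 4 → c ≤ ‖x - x'‖ →
    M.u ((1 / 2 : ℝ) • (x + x')) ≤ (M.u x + M.u x') / 2 - γ₂ c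

/-- Data of an orthant structure in the ambient space (with depth `d` and regularisation `δ`). -/
structure WD (n j : ℕ) where
  O : A n
  e : Fin j → A n
  y : Fin j → A n →L[ℝ] ℝ
  d : ℝ
  δ : ℝ

namespace WD

variable {j : ℕ} (W : WD n j) (M : AM n)

/-- the interior reference point `O₁ = O + d Σ e_i` -/
def O1 : A n := W.O + W.d • ∑ i, W.e i
/-- shifted coordinates `ỹ_i = y_i (X - O) + d` -/
def yt (i : Fin j) : E n → ℝ := M.aff (W.y i) (W.d - W.y i W.O)
def Lm : E n → ℝ := M.Lam W.O1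
def nui (i : Fin j) : E n → ℝ := M.nuv (W.e i)
/-- `B̃ = Σ ỹ_i ν_i + δ Λ` -/
def Bt (x : E n) : ℝ := ∑ i, W.yt M i x * W.nui M i x + W.δ * W.Lm M x
/-- `G = Λ + B̃ / 32` -/
def G (x : E n) : ℝ := W.Lm M x + (1 / 32) * W.Bt M x
def s (x : E n) : ℝ := ∑ i, W.yt M i x
/-- energy `Σ |∇ log ỹ_i|²` -/
def En (x : E n) : ℝ := ∑ i, M.ip x (dd (W.yt M i) x) (dd (W.yt M i) x) / (W.yt M i x) ^ 2
/-- the cap `{s ≤ R}` -/
def CR (R : ℝ) : Set (E n) := {x | x ∈ M.Ω ∧ W.s M x ≤ R}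

/-- the sign conditions used by the integral identities -/
structure Good (R : ℝ) : Prop where
  bio : ∀ i l, W.y i (W.e l) = if i = l then 1 else 0
  d_pos : 0 < W.d
  δ_pos : 0 < W.δ
  δ_le : W.δ ≤ 1 / 500
  compact : IsCompact (W.CR M R)
  yt_ge : ∀ x ∈ W.CR M R, ∀ i, W.d / 2 ≤ W.yt M i x
  Lm_pos : ∀ x ∈ W.CR M R, 0 < W.Lm M x
  nui_ge : ∀ x ∈ W.CR M R, ∀ i, -(W.δ * W.Lm M x / (2 * j)) ≤ W.yt M i x * W.nui M i x

end WD

end Crest.Agent.R236
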