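import Crest.Agent.R236.TW

/-!
# Row 236: density lemma (ABP by sliding) and the two integral bounds

`abp_density`: let `a = 8 η`. For `‖p‖ ≤ 1/32` minimise `f + a (u - ⟪p, ·⟫)` over the compact set
`{u ≤ 1}` (`‖x‖ ≤ 4`): at `x₁` the value is `≤ 6η`, on `{u = 1}` it is `≥ 7η`, so the minimum point `x` has
`u x < 1`, `f x ≤ 7η`, `Φ x = p` for `Φ = ∇u + ∇f / a`, and `DΦ = D²u + D²f / a ⪰ 0` with
`det DΦ ≤ det D²u · (tr((D²u)⁻¹ DΦ)/n)ⁿ ≤ det D²u ≤ C`. Apply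
`addHaar_image_le_lintegral_abs_det_fderiv` on the measurable set
`Γ = {x ∈ Ω | u < 1, f ≤ 7η, |det DΦ| ≤ C}`.

`lap_bound`: `Σ_i ∂_i (((2-u)⁺)² u_i) = ((2-u)⁺)² Δu - 2 (2-u)⁺ ‖∇u‖²`, `integral_div_eq_zero`, `grad_le`.

`log_energy`: with `η = ((2-u)⁺)²`, `Dc (η² d log f) ≤ -η² |d log f|²_U + 2 η ⟨dη, d log f⟩_U` gives
`∫ η² |d log f|²_U ≤ 4 ∫ |dη|²_U = 16 ∫ ((2-u)⁺)² |du|²_U = (16 n / 3) ∫ ((2-u)⁺)³ det`
(from `Dc (((2-u)⁺)³ du)`); finally `‖ζ‖² ≤ (ζᵀ H⁻¹ ζ) tr H`, so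
`‖D log f‖ ≤ |d log f|²_U + tr H / c` pointwise.
-/

set_option autoImplicit false
open scoped ContDiff RealInnerProductSpace ENNReal Topology
open Crest.GeometryTopology.CoordMetric Crest.GeometryTopology.AffineMaximal MeasureTheory

noncomputable section

namespace Crest.Agent.R236

section Aux
variable {n : ℕ}

/-- the volume of the ball containing all sublevel sets -/
def loge_V (n : ℕ) : ℝ := volume.real (Metric.closedBall (0 : E n) 4)

lemma loge_V_pos (n : ℕ) : 0 < loge_V n :=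
  ENNReal.toReal_pos (Metric.measure_closedBall_pos _ _ (by norm_num)).ne'
    measure_closedBall_lt_top.ne

lemma loge_int {M : AM n} {γ₁ : ℝ} {γ₂ : ℝ → ℝ} (hM : Nice M γ₁ γ₂) {h G : E n → ℝ} {K : ℝ}
    (hK : 0 ≤ K) (hG : ContinuousOn G M.Ω) (h0 : ∫ x in {x | x ∈ M.Ω ∧ M.u x ≤ 2}, G x = 0)
    (h1 : ∀ x ∈ M.Ω, M.u x ≤ 2 → 0 ≤ G x + K) (h2 : ∀ x ∈ M.Ω, M.u x ≤ 1 → h x ≤ G x + K) :
    ∫⁻ x in {x | x ∈ M.Ω ∧ M.u x ≤ 1}, ENNReal.ofReal (h x) ≤ ENNReal.ofReal (K * loge_V n) := by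
  have c1 := hM.isCompact_sublevel (a := 1) (by norm_num)
  have c2 := hM.isCompact_sublevel (a := 2) (by norm_num)
  have i1 : IntegrableOn G {x | x ∈ M.Ω ∧ M.u x ≤ 2} :=
    (hG.mono fun x hx => hx.1).integrableOn_compact c2
  have i2 : IntegrableOn (fun _ => K) {x | x ∈ M.Ω ∧ M.u x ≤ 2} :=
    continuousOn_const.integrableOn_compact c2
  calc _ ≤ ∫⁻ x in {x | x ∈ M.Ω ∧ M.u x ≤ 1}, ENNReal.ofReal (G x + K) :=
        setLIntegral_mono' c1.measurableSet fun x hx => ENNReal.ofReal_le_ofReal (h2 x hx.1 hx.2)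
    _ ≤ ∫⁻ x in {x | x ∈ M.Ω ∧ M.u x ≤ 2}, ENNReal.ofReal (G x + K) :=
        lintegral_mono_set fun x hx => ⟨hx.1, hx.2.trans (by norm_num)⟩
    _ = ENNReal.ofReal (∫ x in {x | x ∈ M.Ω ∧ M.u x ≤ 2}, (G x + K)) :=
        (ofReal_integral_eq_lintegral_ofReal (i1.add i2)
          ((ae_restrict_mem c2.measurableSet).mono fun x hx => h1 x hx.1 hx.2)).symm
    _ ≤ _ := by
        rw [integral_add i1 i2, h0, zero_add, setIntegral_const, smul_eq_mul, mul_comm]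
        refine ENNReal.ofReal_le_ofReal (mul_le_mul_of_nonneg_left (measureReal_mono
          (fun x hx => ?_) measure_closedBall_lt_top.ne) hK)
        exact mem_closedBall_zero_iff.2 (hM.bdd x hx.1 (hx.2.trans (by norm_num)))

/-- the cut-off one-form `((2-u)⁺)^(k+2) dg` -/
def loge_F (M : AM n) (k : ℕ) (g : E n → ℝ) : Form n :=
  fun z => (max (2 - M.u z) 0) ^ (k + 2) • dd g z

lemma loge_t_cd (M : AM n) (k : ℕ) :
    ContDiffOn ℝ 1 (fun z => (max (2 - M.u z) 0) ^ (k + 2)) M.Ω :=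
  (contDiff_posPart_pow k).comp_contDiffOn (contDiffOn_const.sub (M.smooth.of_le (by simp)))

lemma loge_t_d (M : AM n) (k : ℕ) {x : E n} (hx : x ∈ M.Ω) :
    DifferentiableAt ℝ (fun z => (max (2 - M.u z) 0) ^ (k + 2)) x :=
  ((loge_t_cd M k).contDiffAt (M.isOpen.mem_nhds hx)).differentiableAt one_ne_zero

lemma loge_t_dd (M : AM n) (k : ℕ) {x : E n} (hx : x ∈ M.Ω) (hu : M.u x ≤ 2) :
    dd (fun z => (max (2 - M.u z) 0) ^ (k + 2)) x
      = (-((k + 2) * (2 - M.u x) ^ (k + 1))) • dd M.u x := by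
  have h := (hasDerivAt_posPart_pow k (2 - M.u x)).comp (M.u x)
    ((hasDerivAt_id (M.u x)).const_sub 2)
  rw [max_eq_left (sub_nonneg.2 hu), mul_neg_one] at h
  exact dd_comp (F := fun r => (max (2 - r) 0) ^ (k + 2)) (M.coreB_d M.smooth hx) h

lemma loge_F_cd (M : AM n) (k : ℕ) {g : E n → ℝ} (hg : ContDiffOn ℝ 2 g M.Ω) (i : Fin n) :
    ContDiffOn ℝ 1 (fun z => loge_F M k g z i) M.Ω :=
  (loge_t_cd M k).mul ((hg.fderiv_of_isOpen M.isOpen (m := 1) le_rfl).clm_apply contDiffOn_const)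

lemma loge_F_zero (M : AM n) (k : ℕ) (g : E n → ℝ) :
    ∀ x ∈ M.Ω, x ∉ {x | x ∈ M.Ω ∧ M.u x ≤ 2} → loge_F M k g x = 0 := by
  intro x hx h
  have h1 : 2 - M.u x ≤ 0 := by linarith [not_le.1 fun h2 => h ⟨hx, h2⟩]
  rw [loge_F, max_eq_right h1, zero_pow (Nat.succ_ne_zero _), zero_smul]

lemma loge_u2 (M : AM n) : ContDiffOn ℝ 2 M.u M.Ω := M.smooth.of_le (WithTop.coe_le_coe.2 le_top)

lemma loge_Dc (M : AM n) (k : ℕ) {g : E n → ℝ} (hg : ContDiffOn ℝ 2 g M.Ω) {x : E n}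
    (hx : x ∈ M.Ω) (hu : M.u x ≤ 2) : M.Dc (loge_F M k g) x =
      (2 - M.u x) ^ (k + 2) * (M.det x * M.Lop g x) -
        (k + 2) * (2 - M.u x) ^ (k + 1) * (M.det x * M.rho x * M.ip x (dd M.u x) (dd g x)) := by
  have hg' := hg.contDiffAt (M.isOpen.mem_nhds hx)
  have h := M.Dc_smul hx (loge_t_d M k hx) (diff1_dd hg')
  rw [M.Dc_dd hx hg', loge_t_dd M k hx hu, M.ipc_eq hx, M.ip_smul_left,
    max_eq_left (sub_nonneg.2 hu)] at h
  refine Eq.trans h ?_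
  ring

/-- the Euclidean divergence of `((2-u)⁺)² du` -/
def loge_G (M : AM n) (x : E n) : ℝ := ∑ i, pderiv i (fun z => loge_F M 0 M.u z i) x

lemma loge_G_cont (M : AM n) : ContinuousOn (loge_G M) M.Ω :=
  continuousOn_finsetSum _ fun i _ => ((loge_F_cd M 0 (loge_u2 M) i).continuousOn_fderiv_of_isOpen
    M.isOpen le_rfl).clm_apply continuousOn_const

lemma loge_G_int {M : AM n} {γ₁ : ℝ} {γ₂ : ℝ → ℝ} (hM : Nice M γ₁ γ₂) :
    ∫ x in {x | x ∈ M.Ω ∧ M.u x ≤ 2}, loge_G M x = 0 :=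
  integral_div_eq_zero M.isOpen (hM.isCompact_sublevel (by norm_num)) (fun _ hx => hx.1) _
    (loge_F_cd M 0 (loge_u2 M)) (loge_F_zero M 0 M.u)

lemma loge_G_ge {M : AM n} {γ₁ : ℝ} {γ₂ : ℝ → ℝ} (hM : Nice M γ₁ γ₂) (hγ : 0 < γ₁) {x : E n}
    (hx : x ∈ M.Ω) (hu : M.u x ≤ 2) :
    (2 - M.u x) ^ 2 * (M.H x).trace ≤ loge_G M x + 1 / γ₁ ^ 2 := by
  have e : loge_G M x = (2 - M.u x) ^ 2 * (M.H x).trace - 2 * (2 - M.u x) * ‖M.grad x‖ ^ 2 := by
    rw [loge_G, EuclideanSpace.real_norm_sq_eq, Matrix.trace, Finset.mul_sum, Finset.mul_sum,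
      ← Finset.sum_sub_distrib]
    refine Finset.sum_congr rfl fun i _ => ?_
    have h := congrFun (dd_mul (loge_t_d M 0 hx) (diff1_dd (M.coreB_cd M.smooth hx) i)) i
    rw [loge_t_dd M 0 hx hu, max_eq_left (sub_nonneg.2 hu)] at h
    refine Eq.trans h ?_
    have e1 : dd (fun z => dd M.u z i) x i = (M.H x).diag i := rfl
    have e2 : M.grad x i = dd M.u x i := rfl
    simp only [Pi.add_apply, Pi.smul_apply, smul_eq_mul, e1, e2]
    push_cast
    ring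
  have h1 := pow_le_pow_left₀ (norm_nonneg _) (hM.grad_le hγ hx (hu.trans (by norm_num))) 2
  have h2 : (1 / (2 * γ₁)) ^ 2 = 1 / γ₁ ^ 2 / 4 := by field_simp; norm_num
  have h3 := hM.nonneg x hx
  have h4 := sq_nonneg ‖M.grad x‖
  rw [e]
  nlinarith

lemma loge_trace_nonneg (M : AM n) {x : E n} (hx : x ∈ M.Ω) : 0 ≤ (M.H x).trace :=
  (M.pos x hx).posSemidef.trace_nonneg

lemma loge_norm_sq (g : E n → ℝ) (x : E n) : ‖fderiv ℝ g x‖ ^ 2 ≤ ∑ i, dd g x i ^ 2 := by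
  have h : ‖fderiv ℝ g x‖ ≤ ‖(WithLp.toLp 2 (dd g x) : E n)‖ := by
    refine ContinuousLinearMap.opNorm_le_bound _ (norm_nonneg _) fun v => ?_
    refine le_trans (le_of_eq ?_) (abs_real_inner_le_norm (WithLp.toLp 2 (dd g x) : E n) v)
    rw [fderiv_apply_eq_sum, Real.norm_eq_abs]
    simp [PiLp.inner_apply, dd, mul_comm]
  refine (pow_le_pow_left₀ (norm_nonneg _) h 2).trans_eq ?_
  rw [EuclideanSpace.real_norm_sq_eq]

end Aux

theorem lap_bound (n : ℕ) {γ₁ : ℝ} (hγ : 0 < γ₁) : ∃ C' : ℝ, 0 < C' ∧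
    ∀ (M : AM n) (γ₂ : ℝ → ℝ), Nice M γ₁ γ₂ →
      ∫⁻ x in {x | x ∈ M.Ω ∧ M.u x ≤ 1}, ENNReal.ofReal (M.H x).trace ≤ ENNReal.ofReal C' := by
  have hV := loge_V_pos n
  refine ⟨1 / γ₁ ^ 2 * loge_V n, by positivity, fun M γ₂ hM => ?_⟩
  refine loge_int hM (by positivity) (loge_G_cont M) (loge_G_int hM) (fun x hx hu => ?_)
    fun x hx hu => ?_
  · exact le_trans (mul_nonneg (sq_nonneg _) (loge_trace_nonneg M hx)) (loge_G_ge hM hγ hx hu)
  · refine le_trans (le_mul_of_one_le_left (loge_trace_nonneg M hx) (one_le_pow₀ (by linarith)))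
      (loge_G_ge hM hγ hx (by linarith))

theorem log_energy (n : ℕ) {γ₁ c C : ℝ} (hγ : 0 < γ₁) (hc : 0 < c) : ∃ C' : ℝ, 0 < C' ∧
    ∀ (M : AM n) (γ₂ : ℝ → ℝ), Nice M γ₁ γ₂ →
      (∀ x ∈ M.Ω, M.u x ≤ 2 → c ≤ M.det x ∧ M.det x ≤ C) →
      ∀ f : E n → ℝ, ContDiffOn ℝ 2 f M.Ω → (∀ x ∈ M.Ω, 0 < f x) → (∀ x ∈ M.Ω, M.Lop f x ≤ 0) →
      ∫⁻ x in {x | x ∈ M.Ω ∧ M.u x ≤ 1}, ENNReal.ofReal ‖fderiv ℝ (fun z => Real.log (f z)) x‖
        ≤ ENNReal.ofReal C' := by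
  have hV := loge_V_pos n
  refine ⟨(18 * n * |C| + 1 / γ₁ ^ 2 / c) * loge_V n, by positivity,
    fun M γ₂ hM hdet f hf hf0 hL => ?_⟩
  set g := fun z => Real.log (f z) with hgdef
  have hg : ContDiffOn ℝ 2 g M.Ω := hf.log fun x hx => (hf0 x hx).ne'
  have c2 := hM.isCompact_sublevel (a := 2) (by norm_num)
  have k1 := M.continuousOn_Dc M.isOpen subset_rfl (loge_F_cd M 1 hg)
  have k2 := M.continuousOn_Dc M.isOpen subset_rfl (loge_F_cd M 0 (loge_u2 M))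
  have k3 := loge_G_cont M
  have ii : ∀ {G : E n → ℝ}, ContinuousOn G M.Ω → IntegrableOn G {x | x ∈ M.Ω ∧ M.u x ≤ 2} :=
    fun hG => (hG.mono fun x hx => hx.1).integrableOn_compact c2
  have key : ∀ x ∈ M.Ω, M.u x ≤ 2 →
      (2 - M.u x) ^ 3 * (M.det x * M.rho x * M.ip x (dd g x) (dd g x)) +
        (2 - M.u x) ^ 2 * (M.H x).trace / c ≤
      (-2 * M.Dc (loge_F M 1 g) x + -(9 / 2) * M.Dc (loge_F M 0 M.u) x + loge_G M x / c) +
        (18 * n * |C| + 1 / γ₁ ^ 2 / c) := by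
    intro x hx hu
    have hf' := hf.contDiffAt (M.isOpen.mem_nhds hx)
    have hfx := hf0 x hx
    have hd := M.det_pos hx
    have hr := M.rho_pos hx
    have e1 : dd g x = (f x)⁻¹ • dd f x :=
      dd_comp (hf'.differentiableAt (by simp)) (Real.hasDerivAt_log hfx.ne')
    have e2 : M.Lop g x ≤ -(M.rho x * M.ip x (dd g x) (dd g x)) := by
      have h1 := M.Lop_comp (F := Real.log) (F' := fun t => t⁻¹) hf'
        ((lt_mem_nhds hfx).mono fun t ht => Real.hasDerivAt_log ht.ne') (hasDerivAt_inv hfx.ne')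
      have h2 := mul_nonpos_of_nonneg_of_nonpos (inv_nonneg.2 hfx.le) (hL x hx)
      rw [e1, M.ip_smul_left, M.ip_smul_right, AM.ip, hgdef, h1]
      refine (add_le_of_nonpos_left h2).trans_eq ?_
      field_simp
    have h3 := div_le_div_of_nonneg_right (loge_G_ge hM hγ hx hu) hc.le
    have h4 := M.ip_self_nonneg hx ((2 - M.u x) • dd g x + (3 : ℝ) • dd M.u x)
    simp only [M.ip_add_left, M.ip_add_right, M.ip_smul_left, M.ip_smul_right,
      M.ip_comm hx (dd g x) (dd M.u x)] at h4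
    rw [loge_Dc M 1 hg hx hu, loge_Dc M 0 (loge_u2 M) hx hu, M.Lop_u hx]
    rw [add_div] at h3
    have ht0 : 0 ≤ 2 - M.u x := sub_nonneg.2 hu
    have ht2 : 2 - M.u x ≤ 2 := by linarith [hM.nonneg x hx]
    generalize 2 - M.u x = t at *
    have h5 : t ^ 2 * (M.det x * n) ≤ 4 * (|C| * n) :=
      mul_le_mul (by nlinarith) (mul_le_mul_of_nonneg_right
        ((hdet x hx hu).2.trans (le_abs_self C)) (Nat.cast_nonneg _)) (by positivity) (by norm_num)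
    have h6 := mul_le_mul_of_nonneg_left e2 (mul_nonneg (pow_nonneg ht0 3) hd.le)
    have h7 := mul_nonneg (mul_nonneg ht0 (mul_pos hd hr).le) h4
    push_cast
    nlinarith
  have pos : ∀ x ∈ M.Ω, 0 ≤ M.det x * M.rho x * M.ip x (dd g x) (dd g x) := fun x hx =>
    mul_nonneg (mul_pos (M.det_pos hx) (M.rho_pos hx)).le (M.ip_self_nonneg hx _)
  have j1 := (ii k1).const_mul (-2)
  have j2 := (ii k2).const_mul (-(9 / 2))
  refine loge_int hM (G := fun x => -2 * M.Dc (loge_F M 1 g) x +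
    -(9 / 2) * M.Dc (loge_F M 0 M.u) x + loge_G M x / c) (by positivity)
    (((continuousOn_const.mul k1).add (continuousOn_const.mul k2)).add (k3.div_const c)) ?_
    (fun x hx hu => le_trans ?_ (key x hx hu))
    fun x hx hu => le_trans ?_ (key x hx (by linarith))
  · rw [integral_add (j1.fun_add j2) (ii (k3.div_const c)), integral_add j1 j2,
      integral_const_mul, integral_const_mul, integral_div,
      loge_G_int hM, M.integral_Dc_eq_zero M.isOpen subset_rfl c2 (fun _ hx => hx.1) _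
        (loge_F_cd M 1 hg) (loge_F_zero M 1 g), M.integral_Dc_eq_zero M.isOpen subset_rfl c2
        (fun _ hx => hx.1) _ (loge_F_cd M 0 (loge_u2 M)) (loge_F_zero M 0 M.u)]
    simp
  · have := loge_trace_nonneg M hx
    have := pos x hx
    have := sub_nonneg.2 hu
    positivity
  · have h1 := loge_trace_nonneg M hx
    have h2 := pos x hx
    have h3 := (loge_norm_sq g x).trans (sum_sq_le_inv_mul_trace (M.pos x hx) (dd g x))
    have h4 : M.det x * M.rho x * M.ip x (dd g x) (dd g x) =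
        M.det x * ∑ i, ∑ j, (hessianMat M.u x)⁻¹ i j * dd g x i * dd g x j :=
      (M.ipc_eq hx _ _).symm
    have h5 := (hdet x hx (by linarith)).1
    have hd := M.det_pos hx
    have ht : 1 ≤ 2 - M.u x := by linarith
    rw [h4] at h2 ⊢
    set S := ∑ i, ∑ j, (hessianMat M.u x)⁻¹ i j * dd g x i * dd g x j
    have hS : 0 ≤ S := nonneg_of_mul_nonneg_right h2 hd
    have h6 : S * (M.H x).trace ≤ M.det x * S * ((M.H x).trace / c) := by
      rw [mul_comm (M.det x), mul_assoc, mul_div_assoc', mul_comm (M.det x), mul_div_assoc]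
      exact mul_le_mul_of_nonneg_left (le_mul_of_one_le_right h1 ((one_le_div hc).2 h5)) hS
    have h7 : 0 ≤ (M.H x).trace / c := by positivity
    have h8 : ‖fderiv ℝ g x‖ ≤ M.det x * S + (M.H x).trace / c :=
      abs_le_of_sq_le_sq' (by nlinarith [h3.trans h6]) (by positivity) |>.2
    refine h8.trans (add_le_add (le_mul_of_one_le_left h2 (one_le_pow₀ ht)) ?_)
    rw [mul_div_assoc]
    exact le_mul_of_one_le_left h7 (one_le_pow₀ ht)

end Crest.Agent.R236
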