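import Crest.Agent.R236.ABP
import Crest.Agent.R236.LogE

/-!
# Row 236: second derivatives when the determinant is constant

If `det` is constant on `Ω`, differentiate `log det = const` twice in the direction `ξ`
(`pderiv_det`, `pderiv_Hi`, `pderiv_H_symm`): with `S = ∂_ξ H` (symmetric),
`tr(H⁻¹ S) = 0`, `Lop (qf ξ) = tr(H⁻¹ S H⁻¹ S)`, and `d (qf ξ) = S ξ`.
For a symmetric `S` that is trace free for `H`,
`tr(H⁻¹ S H⁻¹ S) · qf ξ ≥ (n/(n-1)) (Sξ)ᵀ H⁻¹ (Sξ)` (conjugate by `H^{-1/2}`; for a symmetric trace-free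
matrix `‖S‖² ≥ (n/(n-1)) λ_max²`, or expand `‖S - σ P - (e wᵀ + w eᵀ) + σ/(n-1) (1 - P)‖² ≥ 0`). Then
`Lop_comp` shows that `(qf ξ)^{-1/(n-1)}` is a positive supersolution.
`c2_bound`: apply `abp_density` to `f = (qf ξ)^{-1/(n-1)}`, `η = f x₁`: on a set of measure `≥ c₁`,
`qf ξ ≥ 7^{-(n-1)} qf ξ x₁`, while `qf ξ ≤ ‖ξ‖² tr H` and `lap_bound`.
-/

set_option autoImplicit false
open scoped ContDiff RealInnerProductSpace ENNReal Topology
open Crest.GeometryTopology.CoordMetric Crest.GeometryTopology.AffineMaximal MeasureTheory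

noncomputable section

namespace Crest.Agent.R236

variable {n : ℕ}

/-- for a symmetric trace-free matrix, `n ‖S e‖² ≤ (n - 1) ‖S‖² ‖e‖²` -/
lemma c2_frob (hn : 2 ≤ n) {S : Matrix (Fin n) (Fin n) ℝ} (hS : ∀ i j, S i j = S j i)
    (htr : ∑ i, S i i = 0) (e : Fin n → ℝ) :
    (n : ℝ) * ∑ i, (∑ j, S i j * e j) ^ 2
      ≤ ((n : ℝ) - 1) * (∑ i, ∑ j, S i j ^ 2) * ∑ i, e i ^ 2 := by
  set v : Fin n → ℝ := fun i => ∑ j, S i j * e j with hv
  set m : ℝ := ∑ i, v i ^ 2 with hm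
  set q : ℝ := ∑ i, e i ^ 2 with hq
  set σ : ℝ := ∑ i, v i * e i with hσ
  set F : ℝ := ∑ i, ∑ j, S i j ^ 2 with hF
  have hn' : (2 : ℝ) ≤ n := by exact_mod_cast hn
  have hn0 : (0 : ℝ) < n := by linarith
  have hm0 : 0 ≤ m := Finset.sum_nonneg fun i _ => sq_nonneg _
  have hq0 : 0 ≤ q := Finset.sum_nonneg fun i _ => sq_nonneg _
  have hF0 : 0 ≤ F := Finset.sum_nonneg fun i _ => Finset.sum_nonneg fun j _ => sq_nonneg _
  have hσ2 : σ ^ 2 ≤ m * q := Finset.sum_mul_sq_le_sq_mul_sq _ _ _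
  set Z : Fin n × Fin n → ℝ := fun p =>
    (v p.1 * e p.2 + e p.1 * v p.2) / 2 - if p.1 = p.2 then σ / n else 0 with hZ
  have h1 : ∑ p : Fin n × Fin n, S p.1 p.2 * Z p = m := by
    have a1 : ∑ i, ∑ j, S i j * (v i * e j) = m := by
      refine Finset.sum_congr rfl fun i _ => ?_
      rw [sq]
      conv_rhs => rw [hv]
      rw [Finset.mul_sum]
      exact Finset.sum_congr rfl fun j _ => by ring
    have a2 : ∑ i, ∑ j, S i j * (e i * v j) = m := by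
      rw [Finset.sum_comm, ← a1]
      exact Finset.sum_congr rfl fun i _ => Finset.sum_congr rfl fun j _ => by rw [hS j i]; ring
    have a3 : ∑ i, ∑ j, S i j * (if i = j then σ / n else 0) = 0 := by
      simp only [mul_ite, mul_zero, Finset.sum_ite_eq, Finset.mem_univ, if_true]
      rw [← Finset.sum_mul, htr, zero_mul]
    rw [Fintype.sum_prod_type]
    have : ∀ i j, S i j * Z (i, j) = (S i j * (v i * e j)) / 2 + (S i j * (e i * v j)) / 2
        - S i j * (if i = j then σ / n else 0) := fun i j => by simp only [hZ]; ring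
    simp only [this, Finset.sum_sub_distrib, Finset.sum_add_distrib, ← Finset.sum_div]
    rw [a1, a2, a3]
    ring
  have h2 : ∑ p : Fin n × Fin n, Z p ^ 2 = (m * q + σ ^ 2) / 2 - σ ^ 2 / n := by
    have a1 : ∑ i, ∑ j, v i ^ 2 * e j ^ 2 = m * q := by rw [Finset.sum_mul_sum]
    have a2 : ∑ i, ∑ j, e i ^ 2 * v j ^ 2 = m * q := by rw [mul_comm, Finset.sum_mul_sum]
    have a3 : ∑ i, ∑ j, (v i * e i) * (v j * e j) = σ ^ 2 := by rw [sq, Finset.sum_mul_sum]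
    have a4 : ∑ i, ∑ j, (if i = j then v i * e i else 0) = σ := by simp [hσ]
    have a5 : ∑ i : Fin n, ∑ j : Fin n, (if i = j then (1 : ℝ) else 0) = n := by simp
    rw [Fintype.sum_prod_type]
    have : ∀ i j, Z (i, j) ^ 2 = v i ^ 2 * e j ^ 2 / 4 + e i ^ 2 * v j ^ 2 / 4
        + (v i * e i) * (v j * e j) / 2 - (2 * σ / n) * (if i = j then v i * e i else 0)
        + (σ / n) ^ 2 * (if i = j then (1 : ℝ) else 0) := fun i j => by
      simp only [hZ]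
      split_ifs with h
      · subst h; ring
      · ring
    simp only [this, Finset.sum_sub_distrib, Finset.sum_add_distrib, ← Finset.sum_div]
    rw [a1, a2, a3]
    simp only [← Finset.mul_sum]
    rw [a4, a5]
    field_simp
    ring
  have h3 : m ^ 2 ≤ F * ((m * q + σ ^ 2) / 2 - σ ^ 2 / n) := by
    have := Finset.sum_mul_sq_le_sq_mul_sq Finset.univ (fun p : Fin n × Fin n => S p.1 p.2) Z
    rwa [h1, h2, Fintype.sum_prod_type] at this
  have h4 : (n : ℝ) * ((m * q + σ ^ 2) / 2 - σ ^ 2 / n) ≤ ((n : ℝ) - 1) * (m * q) := by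
    have : (n : ℝ) * ((m * q + σ ^ 2) / 2 - σ ^ 2 / n) = n * (m * q) / 2 + (n / 2 - 1) * σ ^ 2 := by
      field_simp
      ring
    rw [this]
    nlinarith [mul_le_mul_of_nonneg_left hσ2 (show (0 : ℝ) ≤ n / 2 - 1 by linarith)]
  rcases hm0.eq_or_lt with h | h
  · rw [← h, mul_zero]
    exact mul_nonneg (mul_nonneg (by linarith) hF0) hq0
  · refine le_of_mul_le_mul_left ?_ h
    nlinarith [mul_le_mul_of_nonneg_left h3 hn0.le, mul_le_mul_of_nonneg_left h4 hF0]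

open Matrix in
lemma c2_trace_sq {G S B : Matrix (Fin n) (Fin n) ℝ} (hB : G = Bᵀ * B) (hS : Sᵀ = S) :
    (G * S * G * S).trace = ∑ i, ∑ j, (B * S * Bᵀ) i j ^ 2 := by
  have h1 : (B * S * Bᵀ)ᵀ = B * S * Bᵀ := by
    rw [transpose_mul, transpose_mul, transpose_transpose, hS, Matrix.mul_assoc]
  have h2 : (G * S * G * S).trace = ((B * S * Bᵀ) * (B * S * Bᵀ)ᵀ).trace := by
    rw [h1, hB, show Bᵀ * B * S * (Bᵀ * B) * S = Bᵀ * (B * S * Bᵀ * (B * S)) by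
      simp only [Matrix.mul_assoc], trace_mul_comm]
    simp only [Matrix.mul_assoc]
  rw [h2]
  simp only [trace, diag_apply]
  refine Finset.sum_congr rfl fun i _ => ?_
  rw [mul_apply]
  exact Finset.sum_congr rfl fun j _ => by rw [transpose_apply, sq]

open Matrix in
lemma c2_alg (hn : 2 ≤ n) {H G S B : Matrix (Fin n) (Fin n) ℝ} (hB : G = Bᵀ * B)
    (hGH : G * H = 1) (hS : Sᵀ = S) (htr : (G * S).trace = 0) (ξ : Fin n → ℝ) :
    (n : ℝ) * ((S *ᵥ ξ) ⬝ᵥ (G *ᵥ (S *ᵥ ξ)))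
      ≤ ((n : ℝ) - 1) * (G * S * G * S).trace * (ξ ⬝ᵥ H *ᵥ ξ) := by
  have h1 : (B * S * Bᵀ)ᵀ = B * S * Bᵀ := by
    rw [transpose_mul, transpose_mul, transpose_transpose, hS, Matrix.mul_assoc]
  have h2 : ∑ i, (B * S * Bᵀ) i i = 0 := by
    rw [← htr, hB, Matrix.mul_assoc Bᵀ, trace_mul_comm]
    rfl
  have hq : ∀ w : Fin n → ℝ, w ⬝ᵥ (G *ᵥ w) = ∑ i, (B *ᵥ w) i ^ 2 := fun w => by
    rw [hB, ← mulVec_mulVec, dotProduct_mulVec, vecMul_transpose]
    simp only [dotProduct, sq]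
  have he : Bᵀ *ᵥ (B *ᵥ (H *ᵥ ξ)) = ξ := by
    rw [mulVec_mulVec, mulVec_mulVec, ← hB, hGH, one_mulVec]
  have h3 := c2_frob hn (S := B * S * Bᵀ)
    (fun i j => by conv_lhs => rw [← h1, transpose_apply]) h2 (B *ᵥ (H *ᵥ ξ))
  have h4 : ∀ i, ∑ j, (B * S * Bᵀ) i j * (B *ᵥ (H *ᵥ ξ)) j = (B *ᵥ (S *ᵥ ξ)) i := fun i => by
    change ((B * S * Bᵀ) *ᵥ (B *ᵥ (H *ᵥ ξ))) i = _
    rw [← mulVec_mulVec, he, ← mulVec_mulVec]
  have h5 : ∑ i, (B *ᵥ (H *ᵥ ξ)) i ^ 2 = ξ ⬝ᵥ H *ᵥ ξ := by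
    rw [← hq, mulVec_mulVec, hGH, one_mulVec, dotProduct_comm]
  simp only [h4] at h3
  rw [hq, c2_trace_sq hB hS, ← h5]
  exact h3

lemma c2_sum4 (f : Fin n → Fin n → Fin n → Fin n → ℝ) :
    ∑ i, ∑ j, ∑ k, ∑ l, f i j k l = ∑ k, ∑ l, ∑ i, ∑ j, f i j k l :=
  calc ∑ i, ∑ j, ∑ k, ∑ l, f i j k l = ∑ i, ∑ k, ∑ l, ∑ j, f i j k l :=
        Finset.sum_congr rfl fun i _ => by
          rw [Finset.sum_comm]
          exact Finset.sum_congr rfl fun k _ => Finset.sum_comm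
    _ = _ := by
        rw [Finset.sum_comm]
        exact Finset.sum_congr rfl fun k _ => Finset.sum_comm

namespace AM

variable (M : AM n)

/-- derivative of the Hessian in the direction `ξ` -/
def c2S (ξ : E n) (x : E n) : Matrix (Fin n) (Fin n) ℝ :=
  Matrix.of fun i j => ∑ k, ξ k * pderiv k (fun z => M.H z i j) x

lemma c2_sm (k i j : Fin n) : ContDiffOn ℝ ∞ (pderiv k fun z => M.H z i j) M.Ω :=
  contDiffOn_pderiv M.isOpen (M.contDiffOn_H i j) k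

lemma c2S_symm (ξ : E n) {x : E n} (hx : x ∈ M.Ω) : (M.c2S ξ x).transpose = M.c2S ξ x := by
  ext i j
  simp only [c2S, Matrix.transpose_apply, Matrix.of_apply]
  exact Finset.sum_congr rfl fun k _ => by rw [M.coreB_H_symm hx k j i]

lemma c2_tr0 {D : ℝ} (hD : ∀ x ∈ M.Ω, M.det x = D) {x : E n} (hx : x ∈ M.Ω) (k : Fin n) :
    ∑ i, ∑ j, M.Hi x i j * pderiv k (fun z => M.H z i j) x = 0 := by
  have h1 : pderiv k M.det x = 0 := by
    rw [coreB_pderiv_congr (g := fun _ => D) ((M.coreB_ev hx).mono fun z hz => hD z hz),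
      coreB_pderiv_const]
  rw [M.pderiv_det hx] at h1
  exact (mul_eq_zero.1 h1).resolve_left (M.det_pos hx).ne'

lemma c2S_trace {D : ℝ} (hD : ∀ x ∈ M.Ω, M.det x = D) (ξ : E n) {x : E n} (hx : x ∈ M.Ω) :
    (M.Hi x * M.c2S ξ x).trace = 0 := by
  have h : (M.Hi x * M.c2S ξ x).trace
      = ∑ k, ξ k * ∑ i, ∑ j, M.Hi x i j * pderiv k (fun z => M.H z i j) x := by
    simp only [Matrix.trace, Matrix.diag_apply, Matrix.mul_apply, c2S, Matrix.of_apply,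
      Finset.mul_sum]
    symm
    rw [Finset.sum_comm]
    refine Finset.sum_congr rfl fun i _ => ?_
    rw [Finset.sum_comm]
    refine Finset.sum_congr rfl fun j _ => Finset.sum_congr rfl fun k _ => ?_
    rw [M.coreB_H_symm hx k j i]
    ring
  rw [h]
  exact Finset.sum_eq_zero fun k _ => by rw [M.c2_tr0 hD hx k, mul_zero]

lemma c2_second {D : ℝ} (hD : ∀ x ∈ M.Ω, M.det x = D) {x : E n} (hx : x ∈ M.Ω) (k l : Fin n) :
    ∑ i, ∑ j, M.Hi x i j * pderiv k (pderiv l fun z => M.H z i j) x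
      = ∑ i, ∑ j, pderiv l (fun z => M.H z i j) x *
          ∑ a, ∑ b, M.Hi x i a * pderiv k (fun z => M.H z a b) x * M.Hi x b j := by
  have h1 : (fun z => ∑ i, ∑ j, M.Hi z i j * pderiv l (fun y => M.H y i j) z) =ᶠ[𝓝 x]
      fun _ => 0 := (M.coreB_ev hx).mono fun z hz => M.c2_tr0 hD hz l
  have h2 := coreB_pderiv_congr h1 k
  have d1 := fun i j => M.coreB_d (M.c2_sm l i j) hx
  have d2 := fun i j => M.coreB_d (M.contDiffOn_Hi i j) hx
  rw [coreB_pderiv_const, coreB_pderiv_sum _ fun i _ =>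
    DifferentiableAt.fun_sum fun j _ => (d2 i j).fun_mul (d1 i j)] at h2
  have h3 : ∀ i, pderiv k (fun z => ∑ j, M.Hi z i j * pderiv l (fun y => M.H y i j) z) x
      = ∑ j, M.Hi x i j * pderiv k (pderiv l fun z => M.H z i j) x
        - ∑ j, pderiv l (fun z => M.H z i j) x *
          ∑ a, ∑ b, M.Hi x i a * pderiv k (fun z => M.H z a b) x * M.Hi x b j := fun i => by
    rw [coreB_pderiv_sum _ fun j _ => (d2 i j).fun_mul (d1 i j), ← Finset.sum_sub_distrib]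
    refine Finset.sum_congr rfl fun j _ => ?_
    rw [coreB_pderiv_mul (d2 i j) (d1 i j), M.pderiv_Hi hx]
    ring
  simp only [h3, Finset.sum_sub_distrib] at h2
  exact sub_eq_zero.1 h2

lemma c2_dd_qf (ξ : E n) {x : E n} (hx : x ∈ M.Ω) (i : Fin n) :
    pderiv i (M.qf ξ) x = ∑ k, ∑ l, ξ k * ξ l * pderiv i (fun z => M.H z k l) x := by
  have d1 := fun k l => M.coreB_d (M.contDiffOn_H k l) hx
  have e : M.qf ξ = fun z => ∑ k, ∑ l, ξ k * ξ l * M.H z k l := by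
    funext z
    exact Finset.sum_congr rfl fun k _ => Finset.sum_congr rfl fun l _ => by ring
  rw [e, coreB_pderiv_sum _ fun k _ =>
    DifferentiableAt.fun_sum fun l _ => (d1 k l).const_mul _]
  refine Finset.sum_congr rfl fun k _ => ?_
  rw [coreB_pderiv_sum _ fun l _ => (d1 k l).const_mul _]
  refine Finset.sum_congr rfl fun l _ => ?_
  rw [coreB_pderiv_mul (differentiableAt_const _) (d1 k l), coreB_pderiv_const, mul_zero, add_zero]

lemma c2_dd_qf' (ξ : E n) {x : E n} (hx : x ∈ M.Ω) :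
    dd (M.qf ξ) x = (M.c2S ξ x).mulVec (fun k => ξ k) := by
  funext i
  rw [dd, M.c2_dd_qf ξ hx]
  simp only [Matrix.mulVec, dotProduct, c2S, Matrix.of_apply, Finset.sum_mul]
  rw [Finset.sum_comm]
  refine Finset.sum_congr rfl fun l _ => Finset.sum_congr rfl fun k _ => ?_
  rw [M.pderiv_H_symm hx i k l]
  ring

lemma c2_fourth {x : E n} (hx : x ∈ M.Ω) (i j k l : Fin n) :
    pderiv i (pderiv j fun z => M.H z k l) x = pderiv k (pderiv l fun z => M.H z i j) x := by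
  have h1 : (pderiv j fun z => M.H z k l) =ᶠ[𝓝 x] pderiv k fun z => M.H z j l :=
    (M.coreB_ev hx).mono fun z hz => M.pderiv_H_symm hz j k l
  have h2 : (pderiv i fun z => M.H z j l) =ᶠ[𝓝 x] pderiv l fun z => M.H z i j :=
    (M.coreB_ev hx).mono fun z hz => (M.coreB_H_symm hz i j l).trans (M.pderiv_H_symm hz i l j)
  rw [coreB_pderiv_congr h1, ← coreB_pderiv_congr h2]
  exact hessianMat_symm (M.coreB_cd (M.contDiffOn_H j l) hx) i k

lemma c2_hess_qf (ξ : E n) {x : E n} (hx : x ∈ M.Ω) (i j : Fin n) :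
    hessianMat (M.qf ξ) x i j
      = ∑ k, ∑ l, ξ k * ξ l * pderiv k (pderiv l fun z => M.H z i j) x := by
  have h1 : (fun z => pderiv j (M.qf ξ) z) =ᶠ[𝓝 x]
      fun z => ∑ k, ∑ l, ξ k * ξ l * pderiv j (fun y => M.H y k l) z :=
    (M.coreB_ev hx).mono fun z hz => M.c2_dd_qf ξ hz j
  have d1 := fun k l => M.coreB_d (M.c2_sm j k l) hx
  rw [hessianMat, coreB_pderiv_congr h1, coreB_pderiv_sum _ fun k _ =>
    DifferentiableAt.fun_sum fun l _ => (d1 k l).const_mul _]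
  refine Finset.sum_congr rfl fun k _ => ?_
  rw [coreB_pderiv_sum _ fun l _ => (d1 k l).const_mul _]
  refine Finset.sum_congr rfl fun l _ => ?_
  rw [coreB_pderiv_mul (differentiableAt_const _) (d1 k l), coreB_pderiv_const, mul_zero, add_zero,
    ← M.c2_fourth hx i j k l]

lemma c2_Lop_qf {D : ℝ} (hD : ∀ x ∈ M.Ω, M.det x = D) (ξ : E n) {x : E n} (hx : x ∈ M.Ω) :
    M.Lop (M.qf ξ) x = (M.Hi x * M.c2S ξ x * M.Hi x * M.c2S ξ x).trace := by
  set T : Fin n → Matrix (Fin n) (Fin n) ℝ :=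
    fun k => Matrix.of fun i j => pderiv k (fun z => M.H z i j) x with hT
  have hS : M.c2S ξ x = ∑ k, ξ k • T k := by
    ext i j
    simp [c2S, hT, Matrix.sum_apply]
  have h1 : M.Lop (M.qf ξ) x = ∑ k, ∑ l, ξ k * ξ l *
      ∑ i, ∑ j, M.Hi x i j * pderiv k (pderiv l fun z => M.H z i j) x := by
    simp only [Lop, M.c2_hess_qf ξ hx, Finset.mul_sum]
    rw [c2_sum4]
    exact Finset.sum_congr rfl fun k _ => Finset.sum_congr rfl fun l _ =>
      Finset.sum_congr rfl fun i _ => Finset.sum_congr rfl fun j _ => by ring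
  have h2 : ∀ k l, ∑ i, ∑ j, M.Hi x i j * pderiv k (pderiv l fun z => M.H z i j) x
      = (M.Hi x * T k * M.Hi x * T l).trace := fun k l => by
    rw [M.c2_second hD hx k l]
    simp only [Matrix.trace, Matrix.diag_apply]
    refine Finset.sum_congr rfl fun i _ => ?_
    rw [Matrix.mul_apply]
    refine Finset.sum_congr rfl fun j _ => ?_
    rw [mul_comm, M.coreB_H_symm hx l i j]
    congr 1
    simp only [Matrix.mul_apply, Finset.sum_mul, hT, Matrix.of_apply]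
    rw [Finset.sum_comm]
  rw [h1, hS]
  simp only [h2, Matrix.mul_sum, Matrix.sum_mul, Matrix.trace_sum, Matrix.mul_smul,
    Matrix.smul_mul, Matrix.trace_smul, smul_eq_mul, Finset.mul_sum]
  rw [Finset.sum_comm]
  exact Finset.sum_congr rfl fun k _ => Finset.sum_congr rfl fun l _ => by ring

lemma c2_root {x : E n} (hx : x ∈ M.Ω) :
    ∃ B : Matrix (Fin n) (Fin n) ℝ, M.Hi x = B.transpose * B := by
  obtain ⟨B, hB⟩ := M.coreA_root hx
  exact ⟨B, by ext i j; rw [hB, Matrix.mul_apply]; rfl⟩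

end AM

theorem Lop_qf_nonneg (M : AM n) {D : ℝ} (hD : ∀ x ∈ M.Ω, M.det x = D) (ξ : E n) {x : E n}
    (hx : x ∈ M.Ω) : 0 ≤ M.Lop (M.qf ξ) x := by
  obtain ⟨B, hB⟩ := M.c2_root hx
  rw [M.c2_Lop_qf hD ξ hx, c2_trace_sq hB (M.c2S_symm ξ hx)]
  exact Finset.sum_nonneg fun i _ => Finset.sum_nonneg fun j _ => sq_nonneg _

theorem Lop_qf_rpow_nonpos (hn : 2 ≤ n) (M : AM n) {D : ℝ} (hD : ∀ x ∈ M.Ω, M.det x = D)
    {ξ : E n} (hξ : ξ ≠ 0) {x : E n} (hx : x ∈ M.Ω) :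
    M.Lop (fun z => M.qf ξ z ^ (-1 / ((n : ℝ) - 1))) x ≤ 0 := by
  obtain ⟨B, hB⟩ := M.c2_root hx
  have hn' : (2 : ℝ) ≤ n := by exact_mod_cast hn
  have hn1 : (0 : ℝ) < (n : ℝ) - 1 := by linarith
  set p : ℝ := -1 / ((n : ℝ) - 1) with hp
  have ht : 0 < M.qf ξ x := M.a1_qf_pos hx hξ
  have hF : ∀ᶠ t in 𝓝 (M.qf ξ x), HasDerivAt (fun t : ℝ => t ^ p) (p * t ^ (p - 1)) t :=
    (lt_mem_nhds ht).mono fun t h => Real.hasDerivAt_rpow_const (Or.inl h.ne')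
  have hF' : HasDerivAt (fun t : ℝ => p * t ^ (p - 1)) (p * ((p - 1) * M.qf ξ x ^ (p - 1 - 1)))
      (M.qf ξ x) := (Real.hasDerivAt_rpow_const (Or.inl ht.ne')).const_mul p
  rw [M.Lop_comp (M.coreB_cd (M.contDiffOn_qf ξ) hx) hF hF']
  have h1 := c2_alg hn hB (M.Hi_mul_H hx) (M.c2S_symm ξ hx) (M.c2S_trace hD ξ hx) fun k => ξ k
  rw [← M.c2_Lop_qf hD ξ hx, ← M.c2_dd_qf' ξ hx] at h1
  have h2 : dd (M.qf ξ) x ⬝ᵥ (M.Hi x).mulVec (dd (M.qf ξ) x)
      = ∑ i, ∑ j, M.Hi x i j * dd (M.qf ξ) x i * dd (M.qf ξ) x j := by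
    simp only [Matrix.mulVec, dotProduct, Finset.mul_sum]
    exact Finset.sum_congr rfl fun i _ => Finset.sum_congr rfl fun j _ => by ring
  have h3 : (fun k => ξ k) ⬝ᵥ (M.H x).mulVec (fun k => ξ k) = M.qf ξ x := by
    simp only [Matrix.mulVec, dotProduct, Finset.mul_sum, AM.qf]
    exact Finset.sum_congr rfl fun i _ => Finset.sum_congr rfl fun j _ => by ring
  rw [h2, h3] at h1
  set m := ∑ i, ∑ j, M.Hi x i j * dd (M.qf ξ) x i * dd (M.qf ξ) x j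
  set L := M.Lop (M.qf ξ) x
  set t := M.qf ξ x
  have h4 : t ^ (p - 1) = t ^ (p - 1 - 1) * t := by
    rw [← Real.rpow_add_one ht.ne']
    congr 1
    ring
  have h5 : p * t ^ (p - 1) * L + p * ((p - 1) * t ^ (p - 1 - 1)) * m
      = -(t ^ (p - 1 - 1) / ((n : ℝ) - 1) ^ 2 * (((n : ℝ) - 1) * L * t - n * m)) := by
    rw [h4, hp]
    field_simp
    ring
  rw [h5, neg_nonpos]
  exact mul_nonneg (div_nonneg (Real.rpow_nonneg ht.le _) (sq_nonneg _)) (sub_nonneg.2 h1)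

theorem c2_bound (n : ℕ) (hn : 2 ≤ n) {γ₁ C : ℝ} (hγ : 0 < γ₁) (hC : 0 < C) : ∃ C' : ℝ, 0 < C' ∧
    ∀ (M : AM n) (γ₂ : ℝ → ℝ) (D : ℝ), Nice M γ₁ γ₂ → (∀ x ∈ M.Ω, M.det x = D) → D ≤ C →
      ∀ x ∈ M.Ω, M.u x ≤ 1 / 2 → ∀ ξ : E n, M.qf ξ x ≤ C' * ‖ξ‖ ^ 2 := by
  obtain ⟨c₁, hc₁, habp⟩ := abp_density n (by omega) hC
  obtain ⟨C₁, hC₁, hlap⟩ := lap_bound n hγ
  have hn' : (2 : ℝ) ≤ n := by exact_mod_cast hn
  have hn1 : (0 : ℝ) < (n : ℝ) - 1 := by linarith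
  refine ⟨(7 : ℝ) ^ ((n : ℝ) - 1) * C₁ / c₁, by positivity, fun M γ₂ D hN hD hDC x hx hu ξ => ?_⟩
  rcases eq_or_ne ξ 0 with rfl | hξ
  · simp [AM.qf]
  set p : ℝ := -1 / ((n : ℝ) - 1) with hp
  set f : E n → ℝ := fun z => M.qf ξ z ^ p with hf
  have hq : ∀ z ∈ M.Ω, 0 < M.qf ξ z := fun z hz => M.a1_qf_pos hz hξ
  have hf2 : ContDiffOn ℝ 2 f M.Ω :=
    ((M.contDiffOn_qf ξ).of_le (WithTop.coe_le_coe.2 le_top)).rpow_const_of_ne
      fun z hz => (hq z hz).ne'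
  have hA := habp M γ₁ γ₂ hN (fun z hz _ => (hD z hz).trans_le hDC) f hf2
    (fun z hz => Real.rpow_nonneg (hq z hz).le _)
    (fun z hz => Lop_qf_rpow_nonpos hn M hD hξ hz) x hx hu (f x)
    (Real.rpow_pos_of_pos (hq x hx) _) le_rfl
  set A : Set (E n) := {z | z ∈ M.Ω ∧ M.u z ≤ 1 ∧ f z ≤ 7 * f x} with hAdef
  have hAm : MeasurableSet A := by
    have e : A = M.Ω \ ((M.Ω ∩ M.u ⁻¹' Set.Ioi 1) ∪ (M.Ω ∩ f ⁻¹' Set.Ioi (7 * f x))) := by
      ext z
      simp only [hAdef, Set.mem_ofPred_eq, Set.mem_sdiff, Set.mem_union, Set.mem_inter_iff,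
        Set.mem_preimage, Set.mem_Ioi, not_or, not_and, not_lt]
      tauto
    rw [e]
    exact M.isOpen.measurableSet.diff
      ((M.smooth.continuousOn.isOpen_inter_preimage M.isOpen isOpen_Ioi).union
        (hf2.continuousOn.isOpen_inter_preimage M.isOpen isOpen_Ioi)).measurableSet
  have hξ0 : 0 < ‖ξ‖ ^ 2 := by positivity
  have h7 : (0 : ℝ) < (7 : ℝ) ^ ((n : ℝ) - 1) := by positivity
  set κ : ℝ := M.qf ξ x / ((7 : ℝ) ^ ((n : ℝ) - 1) * ‖ξ‖ ^ 2) with hκ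
  have hκ0 : 0 < κ := div_pos (hq x hx) (mul_pos h7 hξ0)
  have hpt : ∀ z ∈ A, κ ≤ (M.H z).trace := by
    rintro z ⟨hz, -, hfz⟩
    have e : ∀ t : ℝ, 0 < t → (t ^ p) ^ (-((n : ℝ) - 1)) = t := fun t ht => by
      rw [← Real.rpow_mul ht.le, hp, show -1 / ((n : ℝ) - 1) * -((n : ℝ) - 1) = 1 by field_simp,
        Real.rpow_one]
    have h1 := Real.rpow_le_rpow_of_nonpos (Real.rpow_pos_of_pos (hq z hz) p) hfz
      (neg_nonpos.2 hn1.le)
    rw [Real.mul_rpow (by norm_num) (Real.rpow_nonneg (hq x hx).le _), e _ (hq x hx), e _ (hq z hz),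
      Real.rpow_neg (by norm_num)] at h1
    have h2 : M.qf ξ z ≤ ‖ξ‖ ^ 2 * (M.H z).trace := by
      rw [EuclideanSpace.real_norm_sq_eq]
      exact quad_le_trace (M.pos z hz).posSemidef fun k => ξ k
    rw [hκ, div_le_iff₀ (mul_pos h7 hξ0)]
    rw [inv_mul_le_iff₀ h7] at h1
    nlinarith [mul_le_mul_of_nonneg_left h2 h7.le]
  have h3 : ENNReal.ofReal (κ * c₁) ≤ ENNReal.ofReal C₁ :=
    calc ENNReal.ofReal (κ * c₁) = ENNReal.ofReal κ * ENNReal.ofReal c₁ :=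
          ENNReal.ofReal_mul hκ0.le
      _ ≤ ENNReal.ofReal κ * volume A := by gcongr
      _ = ∫⁻ _ in A, ENNReal.ofReal κ := (setLIntegral_const _ _).symm
      _ ≤ ∫⁻ z in A, ENNReal.ofReal (M.H z).trace :=
          setLIntegral_mono' hAm fun z hz => ENNReal.ofReal_le_ofReal (hpt z hz)
      _ ≤ ∫⁻ z in {z | z ∈ M.Ω ∧ M.u z ≤ 1}, ENNReal.ofReal (M.H z).trace :=
          lintegral_mono_set fun z hz => ⟨hz.1, hz.2.1⟩
      _ ≤ ENNReal.ofReal C₁ := hlap M γ₂ hN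
  rw [ENNReal.ofReal_le_ofReal_iff hC₁.le, hκ, div_mul_eq_mul_div,
    div_le_iff₀ (mul_pos h7 hξ0)] at h3
  rw [div_mul_eq_mul_div, le_div_iff₀ hc₁]
  linarith

end Crest.Agent.R236
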