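import Mathlib

/-!
# Row 236: convex geometry definitions (limits of affine images, orthant structures)
-/

set_option autoImplicit false
open scoped Topology

noncomputable section

namespace Crest.Agent.R236

variable {V : Type*} [NormedAddCommGroup V] [InnerProductSpace ℝ V] [FiniteDimensional ℝ V]

/-- `K'` is an affine image of `K`. -/
def Img (K K' : Set V) : Prop := ∃ (T : V ≃L[ℝ] V) (O : V), ∀ X, X ∈ K' ↔ O + T X ∈ K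

/-- the two sets are `ε`-close inside the ball of radius `R` -/
def Near (K₁ K₂ : Set V) (R ε : ℝ) : Prop :=
  (∀ X ∈ K₁, ‖X‖ ≤ R → ∃ X' ∈ K₂, ‖X - X'‖ ≤ ε) ∧ (∀ X ∈ K₂, ‖X‖ ≤ R → ∃ X' ∈ K₁, ‖X - X'‖ ≤ ε)

/-- `K'` is a closed convex local Hausdorff limit of affine images of `K`. -/
def Lim (K K' : Set V) : Prop :=
  IsClosed K' ∧ Convex ℝ K' ∧ ∀ R ε : ℝ, 0 < ε → ∃ K₁, Img K K₁ ∧ Near K₁ K' R ε

/-- ultralimit of a sequence of sets -/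
def ulim (𝒰 : Ultrafilter ℕ) (Ks : ℕ → Set V) : Set V :=
  {X | ∀ ε : ℝ, 0 < ε → ∀ᶠ k in (𝒰 : Filter ℕ), ∃ X' ∈ Ks k, ‖X - X'‖ ≤ ε}

/-- exact orthant structure `W_j` -/
structure ExactW (K : Set V) {j : ℕ} (O : V) (e : Fin j → V) (y : Fin j → V →L[ℝ] ℝ) : Prop where
  bio : ∀ i l, y i (e l) = if i = l then 1 else 0
  ray : ∀ c : Fin j → ℝ, (∀ i, 0 ≤ c i) → O + ∑ i, c i • e i ∈ K
  pos : ∀ X ∈ K, ∀ i, 0 ≤ y i (X - O)
  bdd : ∃ r : ℝ, ∀ X ∈ K, (∀ i, y i (X - O) ≤ 1) → ‖X - O‖ ≤ r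
  int : (interior K).Nonempty

/-- `η`-approximate orthant structure used to produce exact ones in the limit -/
structure PreW (K : Set V) {j : ℕ} (O : V) (e : Fin j → V) (y : Fin j → V →L[ℝ] ℝ) (η : ℝ) :
    Prop where
  bio : ∀ i l, |y i (e l) - if i = l then 1 else 0| ≤ η
  ray : ∀ c : Fin j → ℝ, (∀ i, 0 ≤ c i ∧ c i ≤ 1 / η) → O + ∑ i, c i • e i ∈ K
  pos : ∀ X ∈ K, (∀ l, y l (X - O) ≤ 1 / η) → ∀ i, -η ≤ y i (X - O)
  bdd : ∃ r : ℝ, ∀ X ∈ K, (∀ i, y i (X - O) ≤ 1) → ‖X - O‖ ≤ r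
  int : (interior K).Nonempty

/-- centred approximate orthant structure on the scales `[d, R]`; this is what the analytic part
excludes -/
structure ApproxW (K : Set V) {j : ℕ} (O : V) (e : Fin j → V) (y : Fin j → V →L[ℝ] ℝ)
    (κ d R : ℝ) : Prop where
  bio : ∀ i l, y i (e l) = if i = l then 1 else 0
  pos : ∀ X ∈ K, ∑ i, y i (X - O) ≤ R → ∀ i, -(d / 2) ≤ y i (X - O)
  cell : ∀ a : Fin j → ℝ, (∀ i, d ≤ a i ∧ a i ≤ R) → ∃ T : V ≃L[ℝ] V,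
    (∀ X ∈ K, (∀ i, y i (X - O) ≤ a i) → ‖T.symm (X - O)‖ ≤ 1) ∧
    (∀ v : V, ‖v‖ ≤ 1 → O + ∑ i, a i • e i + κ • T v ∈ K ∧ ∀ i, |y i (κ • T v)| ≤ a i)

end Crest.Agent.R236
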