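import Crest.Agent.R236.Mass
import Crest.Agent.R236.GeoDefs

/-!
# Row 236: mass of the cells

Throughout `W : WD n j` has `ApproxW M.K W.O W.e W.y κ W.d R₂`.

* `good_of_approx`: `CR R` is compact by `isCompact_preimage` (on it `-d/2 ≤ y_i ≤ R`);
  `O₁ = O + d Σ e_i` has a ball `κ T B` in `K` (`Lam_pos_of_ball`); `O₁ + (2 j ỹ_i / δ) e_i ∈ K`
  (the `cell` field with `v = 0`) gives `nui_ge`.
* `dyadic_upper`: with `A_i = 2 a_i`, `T = T_A`, `P = O + Σ A_i e_i`; on the cell `G = ν(Z - X)`,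
  `Z = O₁ + ε Σ ỹ_i e_i + ε δ (O₁ - X) = (1 - c) O' + c (P + κ T v)`, `c = ε/2 = 1/64`,
  `O' = O + Σ ((d + ε ỹ_i - c A_i)/(1-c)) e_i ∈ K`, `‖v‖ ≤ 1/2` (as `δ ≤ κ/8` and `O₁ - X ∈ 2 T B`), so
  `G ≥ (c/2) Λ_P` (`ν(P + κ T v - X) ≥ Λ_P / 2` by `nuv_le_Lam`), then `mass_bounds`.
* `cell_lower`: `A = 2 j a`, `T = T_A`, `P = O + Σ a_i e_i` (ball `κ/(4j)`: convex combination of
  `O + Σ A_i e_i + κ T v` with weight `1/(4j)` and a point `O + Σ a'_i e_i`), `t = 1 - Σ ỹ_i/(2 j a_i)`,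
  `U = {Σ y_i (X - O) < R₂}`, `Cc = {Σ y_i ≤ R₂, t ≥ 0}`; `energy_bound` and `mass_bounds`.
  The ball `W₀ + (κ/(8j)) T B`, `W₀ = O + Σ (a_i/2) e_i`, lies in `K` and has `y_i ≤ 3 a_i / 4`, so
  rays from `P` through it leave `K` at graph points of `U₀ = {x ∈ Cc | ∀ i, y_i ≤ a_i}`
  (`eq_X_of_not_interior`; there `t ≥ 1/4`), and `cone_lower` gives `∫_{U₀} Λ_P dV ≥ c |det T|`.
  With `Λ̂ = Λ_P / |det T|^{2/(n+2)}` and `Λ̂ ≤ K^{-2/n} Λ̂^{1+2/n} + K` we get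
  `area(U₀) ≥ c |det T|^{n/(n+2)}`. The thin parts `U₀ ∩ {ỹ_i ≤ ε₀ a_i}` lie in the cap of
  `a' = update a i (ε₀ a_i)`, `|det T_{a'}| ≤ C ε₀ |det T|` by `abs_det_le_of_thin` (applied to
  `T⁻¹ T_{a'}` and `y_i ∘ T`; `(a_i/2) e_i ∈ 2 T B`), so their area is small by `mass_bounds`.
  On the rest use `1 ≤ Λ̂/K + K^{n/2} Λ̂^{-n/2}` and `G ≤ C Λ_P` (`nuv_le_Lam`).
-/

set_option autoImplicit false
open scoped ContDiff RealInnerProductSpace ENNReal Topology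
open Crest.GeometryTopology.CoordMetric Crest.GeometryTopology.AffineMaximal MeasureTheory

noncomputable section

namespace Crest.Agent.R236

section aux

variable {n j : ℕ} {M : AM n} {W : WD n j} {κ R R₂ : ℝ}

lemma cell_yt (M : AM n) (W : WD n j) (i : Fin j) (x : E n) :
    W.yt M i x = W.y i (M.X x - W.O) + W.d := by
  simp only [WD.yt, AM.aff, map_sub]
  ring

lemma cell_ray (hA : ApproxW M.K W.O W.e W.y κ W.d R₂) {a : Fin j → ℝ}
    (ha : ∀ i, W.d ≤ a i ∧ a i ≤ R₂) : W.O + ∑ i, a i • W.e i ∈ M.K := by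
  obtain ⟨T, -, hT⟩ := hA.cell a ha
  simpa using (hT 0 (by simp)).1

lemma cell_y_sum (hA : ApproxW M.K W.O W.e W.y κ W.d R₂) (a : Fin j → ℝ) (i : Fin j) :
    W.y i (∑ l, a l • W.e l) = a i := by
  simp [map_sum, hA.bio]

lemma cell_Lam (M : AM n) (W : WD n j) (a : Fin j → ℝ) (x : E n) :
    M.Lam (W.O + ∑ i, a i • W.e i) x = M.Lam W.O x + ∑ i, a i * W.nui M i x := by
  simp only [AM.Lam, WD.nui, AM.nuv]
  rw [add_sub_right_comm, inner_add_right, inner_sum]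
  simp only [real_inner_smul_right]

lemma cell_O1 (W : WD n j) : W.O1 = W.O + ∑ i, W.d • W.e i := by
  rw [WD.O1, Finset.smul_sum]

lemma cell_Lm (M : AM n) (W : WD n j) (x : E n) :
    W.Lm M x = M.Lam W.O x + ∑ i, W.d * W.nui M i x := by
  rw [WD.Lm, cell_O1, cell_Lam]

lemma cell_bounds (hA : ApproxW M.K W.O W.e W.y κ W.d R₂) (hd : 0 < W.d) (hR : R ≤ R₂) {X : A n}
    (hX : X ∈ M.K) (hs : ∑ i, (W.y i (X - W.O) + W.d) ≤ R) (i : Fin j) :
    W.d / 2 ≤ W.y i (X - W.O) + W.d ∧ W.y i (X - W.O) + W.d ≤ R := by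
  have h1 : ∑ i, W.y i (X - W.O) ≤ R₂ :=
    (Finset.sum_le_sum fun i _ => le_add_of_nonneg_right hd.le).trans (hs.trans hR)
  have h2 := hA.pos X hX h1
  refine ⟨by linarith [h2 i], le_trans ?_ hs⟩
  exact Finset.single_le_sum (f := fun i => W.y i (X - W.O) + W.d)
    (fun l _ => by linarith [h2 l]) (Finset.mem_univ i)

lemma cell_mass_le (M : AM n) {f g : E n → ℝ} {U : Set (E n)} (hU : MeasurableSet U)
    (hUΩ : U ⊆ M.Ω) {c : ℝ} (hc : 0 ≤ c) (h : ∀ x ∈ U, f x ≤ c * g x) :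
    M.mass f U ≤ ENNReal.ofReal c * M.mass g U := by
  unfold AM.mass
  rw [← lintegral_const_mul' _ _ ENNReal.ofReal_ne_top]
  refine setLIntegral_mono' hU fun x hx => ?_
  rw [← ENNReal.ofReal_mul hc, ← mul_div_assoc]
  exact ENNReal.ofReal_le_ofReal
    (div_le_div_of_nonneg_right (h x hx) (M.rho_pos (hUΩ hx)).le)

end aux

theorem good_of_approx {n j : ℕ} (hj : 1 ≤ j) {M : AM n} {W : WD n j} {κ R R₂ : ℝ} (hκ : 0 < κ)
    (hA : ApproxW M.K W.O W.e W.y κ W.d R₂) (hd : 0 < W.d) (hδ : 0 < W.δ) (hδ' : W.δ ≤ 1 / 500)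
    (hdR : W.d ≤ R) (hR : W.d + 2 * j * R / W.δ ≤ R₂) : W.Good M R := by
  have hj' : (1 : ℝ) ≤ j := by exact_mod_cast hj
  have hR0 : 0 < R := hd.trans_le hdR
  have hRR : R ≤ 2 * j * R / W.δ := by
    rw [le_div_iff₀ hδ]
    nlinarith
  have hR2 : R ≤ R₂ := by linarith
  have hb : ∀ x ∈ W.CR M R, ∀ i, W.d / 2 ≤ W.yt M i x ∧ W.yt M i x ≤ R := fun x hx i => by
    have h1 := hx.2
    simp only [WD.s, cell_yt] at h1
    rw [cell_yt]
    exact cell_bounds hA hd hR2 (M.X_mem_K hx.1) h1 i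
  refine ⟨hA.bio, hd, hδ, hδ', ?_, fun x hx i => (hb x hx i).1, fun x hx => ?_, fun x hx i => ?_⟩
  · have h1 : IsClosed {X : A n | ∑ i, (W.y i (X - W.O) + W.d) ≤ R} :=
      isClosed_le (by fun_prop) continuous_const
    obtain ⟨T, hT, -⟩ := hA.cell (fun _ => R) fun _ => ⟨hdR, hR2⟩
    have h2 := M.isCompact_preimage h1 (by
      refine (Metric.isBounded_closedBall (x := W.O) (r := ‖(T : A n →L[ℝ] A n)‖)).subset ?_
      rintro X ⟨hX, hs⟩
      have h3 := hT X hX fun i => by linarith [(cell_bounds hA hd hR2 hX hs i).2]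
      rw [mem_closedBall_iff_norm, ← T.apply_symm_apply (X - W.O)]
      exact ((T : A n →L[ℝ] A n).le_opNorm _).trans
        (mul_le_of_le_one_right (norm_nonneg _) h3))
    simpa only [WD.CR, WD.s, cell_yt, Set.mem_setOf_eq] using h2
  · obtain ⟨T, -, hT⟩ := hA.cell (fun _ => W.d) fun _ => ⟨le_rfl, hdR.trans hR2⟩
    rw [WD.Lm, cell_O1]
    exact M.Lam_pos_of_ball hκ (fun v hv => (hT v hv).1) hx.1
  · have h0 : 0 ≤ 2 * j * W.yt M i x / W.δ := by
      have := (hb x hx i).1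
      have : 0 ≤ W.yt M i x := by linarith
      positivity
    have h1 : 2 * j * W.yt M i x / W.δ ≤ 2 * j * R / W.δ := by
      have := (hb x hx i).2
      gcongr
    have h2 := M.Lam_nonneg (cell_ray hA
      (a := fun l => W.d + if l = i then 2 * j * W.yt M i x / W.δ else 0) fun l => by
        split_ifs <;> constructor <;> linarith) hx.1
    rw [cell_Lam] at h2
    simp only [add_mul, Finset.sum_add_distrib, ite_mul, zero_mul, Finset.sum_ite_eq',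
      Finset.mem_univ, if_true] at h2
    rw [← add_assoc, ← cell_Lm] at h2
    have h3 := mul_nonneg (by positivity : 0 ≤ W.δ / (2 * j)) h2
    have e : W.δ / (2 * j) * (W.Lm M x + 2 * j * W.yt M i x / W.δ * W.nui M i x)
        = W.δ * W.Lm M x / (2 * j) + W.yt M i x * W.nui M i x := by
      field_simp
    linarith

theorem dyadic_upper (n j : ℕ) (hj : 1 ≤ j) {κ : ℝ} (hκ : 0 < κ) : ∃ C : ℝ, 0 < C ∧
    ∀ (M : AM n) (W : WD n j) (R R₂ : ℝ), ApproxW M.K W.O W.e W.y κ W.d R₂ → W.Good M R →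
      W.δ ≤ κ / 8 → 4 * R ≤ R₂ → ∀ a : Fin j → ℝ, (∀ i, W.d / 2 ≤ a i ∧ a i ≤ R) →
      M.mass (fun x => W.G M x ^ (-(n : ℝ) / 2))
        (W.CR M R ∩ {x | ∀ i, a i ≤ W.yt M i x ∧ W.yt M i x ≤ 2 * a i}) ≤ ENNReal.ofReal C := by
  obtain ⟨C, hC, hm⟩ := mass_bounds n hκ
  refine ⟨(1 / 64 : ℝ) ^ (-(n : ℝ) / 2) * C, by positivity, ?_⟩
  intro M W R R₂ hA hG _ hR a ha
  have hd := hG.d_pos
  have hA2 : ∀ i, W.d ≤ 2 * a i ∧ 2 * a i ≤ R₂ := fun i => by
    constructor <;> linarith [(ha i).1, (ha i).2]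
  obtain ⟨T, hT1, hT2⟩ := hA.cell (fun i => 2 * a i) hA2
  set P : A n := W.O + ∑ i, (2 * a i) • W.e i with hP
  set U := W.CR M R ∩ {x | ∀ i, a i ≤ W.yt M i x ∧ W.yt M i x ≤ 2 * a i} with hU
  have hUΩ : U ⊆ M.Ω := fun x hx => hx.1.1
  have hUm : MeasurableSet U := by
    have h1 : ContinuousOn (fun x => fun i => W.yt M i x) (W.CR M R) :=
      continuousOn_pi.2 fun i => (M.contDiffOn_aff _ _).continuousOn.mono fun x hx => hx.1
    exact (h1.preimage_isClosed_of_isClosed hG.compact.isClosed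
      (t := Set.Icc a fun i => 2 * a i) isClosed_Icc).measurableSet.congr (by
        ext x
        simp only [hU, Set.mem_inter_iff, Set.mem_preimage, Set.mem_Icc, Pi.le_def,
          Set.mem_setOf_eq, forall_and])
  have hcap : M.Cap P T κ U := by
    refine ⟨hUm, hUΩ, fun x hx => ?_, fun v hv => (hT2 v hv).1⟩
    have h1 := hT1 (M.X x) (M.X_mem_K (hUΩ hx)) fun i => by
      have := (hx.2 i).2
      rw [cell_yt] at this
      linarith
    have h2 := hT1 P (cell_ray hA hA2) fun i => by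
      rw [hP, add_sub_cancel_left, cell_y_sum hA]
    rw [show M.X x - P = (M.X x - W.O) - (P - W.O) by abel, map_sub]
    linarith [norm_sub_le (T.symm (M.X x - W.O)) (T.symm (P - W.O))]
  rw [ENNReal.ofReal_mul (by positivity)]
  refine le_trans (cell_mass_le M hUm hUΩ (by positivity) fun x hx => ?_)
    (mul_le_mul_right (hm M P T U hcap).1 _)
  have hL := M.Lam_pos_of_ball hκ hcap.ball (hUΩ hx)
  rw [← Real.mul_rpow (by norm_num) hL.le]
  refine Real.rpow_le_rpow_of_nonpos (by positivity) ?_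
    (div_nonpos_of_nonpos_of_nonneg (neg_nonpos.2 (Nat.cast_nonneg n)) (by norm_num))
  have h1 := M.Lam_nonneg (cell_ray hA
    (a := fun i => 64 / 63 * W.d + 2 / 63 * W.yt M i x - 1 / 63 * (2 * a i)) fun i => by
      constructor <;> linarith [(ha i).1, (ha i).2, (hx.2 i).1, (hx.2 i).2]) (hUΩ hx)
  have h2 := mul_pos hG.δ_pos (hG.Lm_pos x hx.1)
  have h3 := cell_Lm M W x
  rw [cell_Lam] at h1
  rw [hP, cell_Lam, WD.G, WD.Bt]
  simp only [add_mul, sub_mul, mul_assoc, Finset.sum_add_distrib, Finset.sum_sub_distrib,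
    ← Finset.mul_sum] at h1 h3 ⊢
  linarith

end Crest.Agent.R236
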