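import Crest.Agent.R236.GeoDefs

/-!
# Row 236: limits of convex sets, John-type normalisation
-/

set_option autoImplicit false
set_option linter.unusedSectionVars false
open scoped Topology RealInnerProductSpace

noncomputable section

namespace Crest.Agent.R236

variable {V : Type*} [NormedAddCommGroup V] [InnerProductSpace ℝ V] [FiniteDimensional ℝ V]

lemma Img.refl (K : Set V) : Img K K :=
  ⟨ContinuousLinearEquiv.refl ℝ V, 0, fun X => by simp⟩
lemma Img.trans {K K' K'' : Set V} (h : Img K K') (h' : Img K' K'') : Img K K'' := by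
  obtain ⟨T, O, h⟩ := h
  obtain ⟨T', O', h'⟩ := h'
  refine ⟨T'.trans T, O + T O', fun X => ?_⟩
  rw [h', h, map_add, ← add_assoc]
  rfl
lemma Img.isClosed {K K' : Set V} (h : Img K K') (hK : IsClosed K) : IsClosed K' := by
  obtain ⟨T, O, h⟩ := h
  have h1 : K' = (fun X => O + T X) ⁻¹' K := Set.ext h
  rw [h1]
  exact hK.preimage (by fun_prop)
lemma Img.convex {K K' : Set V} (h : Img K K') (hK : Convex ℝ K) : Convex ℝ K' := by
  obtain ⟨T, O, h⟩ := h
  intro X hX Y hY a b ha hb hab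
  rw [h] at hX hY ⊢
  have h1 : O + T (a • X + b • Y) = a • (O + T X) + b • (O + T Y) := by
    rw [map_add, map_smul, map_smul, smul_add, smul_add, add_add_add_comm, ← add_smul, hab,
      one_smul]
  rw [h1]
  exact hK hX hY ha hb hab
lemma Lim.of_img {K K' : Set V} (hc : IsClosed K) (hv : Convex ℝ K) (h : Img K K') :
    Lim K K' :=
  ⟨h.isClosed hc, h.convex hv, fun _ _ hε => ⟨K', h,
    fun X hX _ => ⟨X, hX, by simpa using hε.le⟩, fun X hX _ => ⟨X, hX, by simpa using hε.le⟩⟩⟩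

lemma geo1_half (T : V ≃L[ℝ] V) (O : V) {A B : Set V} {R ε : ℝ} (hε : 0 < ε)
    (h : ∀ X ∈ A, ‖X‖ ≤ ‖O‖ + ‖(T : V →L[ℝ] V)‖ * R → ∃ X' ∈ B,
      ‖X - X'‖ ≤ ε / (‖(T.symm : V →L[ℝ] V)‖ + 1)) {X : V} (hX : O + T X ∈ A) (hR : ‖X‖ ≤ R) :
    ∃ X', O + T X' ∈ B ∧ ‖X - X'‖ ≤ ε := by
  obtain ⟨X', h1, h2⟩ := h _ hX ((norm_add_le _ _).trans (add_le_add le_rfl
    (((T : V →L[ℝ] V).le_opNorm X).trans (mul_le_mul_of_nonneg_left hR (norm_nonneg _)))))
  refine ⟨T.symm (X' - O), by simpa using h1, ?_⟩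
  have h3 : X - T.symm (X' - O) = (T.symm : V →L[ℝ] V) (O + T X - X') := by
    simp only [ContinuousLinearEquiv.coe_coe, map_sub, map_add,
      ContinuousLinearEquiv.symm_apply_apply]
    abel
  rw [h3]
  refine ((T.symm : V →L[ℝ] V).le_opNorm _).trans
    ((mul_le_mul_of_nonneg_left h2 (norm_nonneg _)).trans ?_)
  rw [← mul_div_assoc, div_le_iff₀ (by positivity)]
  nlinarith

lemma Lim.img {K K' K'' : Set V} (h : Lim K K') (h' : Img K' K'') : Lim K K'' := by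
  refine ⟨h'.isClosed h.1, h'.convex h.2.1, fun R ε hε => ?_⟩
  obtain ⟨T, O, h'⟩ := h'
  obtain ⟨K₁, h1, h2⟩ := h.2.2 (‖O‖ + ‖(T : V →L[ℝ] V)‖ * R) (ε / (‖(T.symm : V →L[ℝ] V)‖ + 1))
    (by positivity)
  refine ⟨{X | O + T X ∈ K₁}, h1.trans ⟨T, O, fun _ => Iff.rfl⟩, fun X hX hR => ?_,
    fun X hX hR => geo1_half T O hε h2.2 ((h' X).1 hX) hR⟩
  obtain ⟨X', h3, h4⟩ := geo1_half T O hε h2.1 hX hR
  exact ⟨X', (h' X').2 h3, h4⟩

lemma isClosed_ulim (𝒰 : Ultrafilter ℕ) (Ks : ℕ → Set V) : IsClosed (ulim 𝒰 Ks) := by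
  refine isClosed_of_closure_subset fun X hX ε hε => ?_
  obtain ⟨Y, hY, h1⟩ := Metric.mem_closure_iff.1 hX (ε / 2) (half_pos hε)
  filter_upwards [hY (ε / 2) (half_pos hε)] with k ⟨X', h2, h3⟩
  rw [dist_eq_norm] at h1
  exact ⟨X', h2, by linarith [norm_sub_le_norm_sub_add_norm_sub X Y X']⟩
lemma convex_ulim (𝒰 : Ultrafilter ℕ) {Ks : ℕ → Set V} (h : ∀ k, Convex ℝ (Ks k)) :
    Convex ℝ (ulim 𝒰 Ks) := by
  intro X hX Y hY a b ha hb hab ε hε
  filter_upwards [hX ε hε, hY ε hε] with k ⟨X', h1, h2⟩ ⟨Y', h3, h4⟩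
  refine ⟨a • X' + b • Y', h k h1 h3 ha hb hab, ?_⟩
  have h5 : a • X + b • Y - (a • X' + b • Y') = a • (X - X') + b • (Y - Y') := by
    rw [smul_sub, smul_sub]
    abel
  rw [h5]
  refine (norm_add_le _ _).trans ?_
  rw [norm_smul, norm_smul, Real.norm_of_nonneg ha, Real.norm_of_nonneg hb]
  calc a * ‖X - X'‖ + b * ‖Y - Y'‖ ≤ a * ε + b * ε :=
        add_le_add (mul_le_mul_of_nonneg_left h2 ha) (mul_le_mul_of_nonneg_left h4 hb)
    _ = ε := by rw [← add_mul, hab, one_mul]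
lemma mem_ulim_of_tendsto (𝒰 : Ultrafilter ℕ) {Ks : ℕ → Set V} {X : ℕ → V} {Y : V}
    (hX : ∀ᶠ k in (𝒰 : Filter ℕ), X k ∈ Ks k) (ht : Filter.Tendsto X 𝒰 (𝓝 Y)) :
    Y ∈ ulim 𝒰 Ks := by
  intro ε hε
  filter_upwards [hX, Metric.tendsto_nhds.1 ht ε hε] with k h1 h2
  rw [dist_comm, dist_eq_norm] at h2
  exact ⟨X k, h1, h2.le⟩

lemma geo1_tendsto (𝒰 : Ultrafilter ℕ) {Ks : ℕ → Set V} {η : ℕ → ℝ}
    (hη0 : Filter.Tendsto η 𝒰 (𝓝 0)) {Y : V} (hY : Y ∈ ulim 𝒰 Ks) {X : ℕ → V}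
    (hX : ∀ k, dist Y (X k) ≤ Metric.infDist Y (Ks k) + η k) : Filter.Tendsto X 𝒰 (𝓝 Y) := by
  refine Metric.tendsto_nhds.2 fun ε hε => ?_
  filter_upwards [hY (ε / 2) (half_pos hε), hη0.eventually (gt_mem_nhds (half_pos hε))]
    with k ⟨X', h1, h2⟩ h3
  have h4 := Metric.infDist_le_dist_of_mem (x := Y) h1
  rw [dist_eq_norm] at h4
  rw [dist_comm]
  linarith [hX k]

/-- a point of the ultralimit is a limit of points `X k ∈ Ks k` (take almost nearest points); the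
sequence `η` witnesses that the ultrafilter is not principal -/
lemma exists_tendsto_of_mem_ulim (𝒰 : Ultrafilter ℕ) {Ks : ℕ → Set V}
    (hne : ∀ k, (Ks k).Nonempty) {η : ℕ → ℝ} (hη : ∀ k, 0 < η k)
    (hη0 : Filter.Tendsto η 𝒰 (𝓝 0)) {Y : V} (hY : Y ∈ ulim 𝒰 Ks) :
    ∃ X : ℕ → V, (∀ k, X k ∈ Ks k) ∧ Filter.Tendsto X 𝒰 (𝓝 Y) := by
  have h : ∀ k, ∃ X ∈ Ks k, dist Y X < Metric.infDist Y (Ks k) + η k := fun k =>
    (Metric.infDist_lt_iff (hne k)).1 (lt_add_of_pos_right _ (hη k))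
  choose X h1 h2 using h
  exact ⟨X, h1, geo1_tendsto 𝒰 hη0 hY fun k => (h2 k).le⟩

lemma exists_tendsto_of_mem_ulim_atTop (𝒰 : Ultrafilter ℕ) (hU : (𝒰 : Filter ℕ) ≤ Filter.atTop)
    {Ks : ℕ → Set V} (hne : ∀ k, (Ks k).Nonempty) {Y : V} (hY : Y ∈ ulim 𝒰 Ks) :
    ∃ X : ℕ → V, (∀ k, X k ∈ Ks k) ∧ Filter.Tendsto X 𝒰 (𝓝 Y) :=
  exists_tendsto_of_mem_ulim 𝒰 hne (η := fun k => 1 / ((k : ℝ) + 1)) (fun k => by positivity)
    (tendsto_one_div_add_atTop_nhds_zero_nat.mono_left hU) hY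

lemma exists_tendsto_of_mem_ulim_closed (𝒰 : Ultrafilter ℕ) {Ks : ℕ → Set V}
    (hne : ∀ k, (Ks k).Nonempty) (hcl : ∀ k, IsClosed (Ks k)) {Y : V} (hY : Y ∈ ulim 𝒰 Ks) :
    ∃ X : ℕ → V, (∀ k, X k ∈ Ks k) ∧ Filter.Tendsto X 𝒰 (𝓝 Y) := by
  have := FiniteDimensional.proper_real V
  have h : ∀ k, ∃ X ∈ Ks k, Metric.infDist Y (Ks k) = dist Y X := fun k =>
    (hcl k).exists_infDist_eq_dist (hne k) Y
  choose X h1 h2 using h
  exact ⟨X, h1, geo1_tendsto 𝒰 (η := fun _ => 0) tendsto_const_nhds hY fun k => by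
    rw [h2, add_zero]⟩

/-- bounded sequences converge along an ultrafilter (any finite-dimensional space) -/
lemma exists_ultra_tendsto {F : Type*} [NormedAddCommGroup F] [NormedSpace ℝ F]
    [FiniteDimensional ℝ F] (𝒰 : Ultrafilter ℕ) {X : ℕ → F} {r : ℝ}
    (h : ∀ᶠ k in (𝒰 : Filter ℕ), ‖X k‖ ≤ r) : ∃ Y, ‖Y‖ ≤ r ∧ Filter.Tendsto X 𝒰 (𝓝 Y) := by
  have := FiniteDimensional.proper_real F
  obtain ⟨Y, h1, h2⟩ := (isCompact_closedBall (0 : F) r).ultrafilter_le_nhds (𝒰.map X) (by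
    rw [Filter.le_principal_iff]
    exact h.mono fun k hk => mem_closedBall_zero_iff.2 hk)
  exact ⟨Y, mem_closedBall_zero_iff.1 h1, h2⟩
/-- local Hausdorff convergence to the ultralimit (compactness of balls) -/
lemma near_ulim (𝒰 : Ultrafilter ℕ) (Ks : ℕ → Set V) (R ε : ℝ) (hε : 0 < ε) :
    ∀ᶠ k in (𝒰 : Filter ℕ), Near (Ks k) (ulim 𝒰 Ks) R ε := by
  refine Filter.Eventually.and ?_ ?_
  · by_contra hcon
    rw [← Ultrafilter.eventually_not] at hcon
    push Not at hcon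
    obtain ⟨X, hX⟩ := hcon.choice
    obtain ⟨Y, -, hY⟩ := exists_ultra_tendsto 𝒰 (hX.mono fun k hk => hk.2.1)
    have h1 := mem_ulim_of_tendsto 𝒰 (hX.mono fun k hk => hk.1) hY
    obtain ⟨k, h2, h3⟩ := (hX.and (Metric.tendsto_nhds.1 hY ε hε)).exists
    rw [dist_eq_norm] at h3
    linarith [h2.2.2 Y h1]
  · by_contra hcon
    rw [← Ultrafilter.eventually_not] at hcon
    push Not at hcon
    obtain ⟨X, hX⟩ := hcon.choice
    obtain ⟨Y, -, hY⟩ := exists_ultra_tendsto 𝒰 (hX.mono fun k hk => hk.2.1)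
    have h1 : Y ∈ ulim 𝒰 Ks := (isClosed_ulim 𝒰 Ks).mem_of_tendsto hY (hX.mono fun k hk => hk.1)
    obtain ⟨k, h2, h3, X', h4, h5⟩ := (hX.and ((Metric.tendsto_nhds.1 hY (ε / 2) (half_pos hε)).and
      (h1 (ε / 2) (half_pos hε)))).exists
    rw [dist_eq_norm] at h3
    linarith [h2.2.2 X' h4, norm_sub_le_norm_sub_add_norm_sub (X k) Y X']
lemma lim_ulim (𝒰 : Ultrafilter ℕ) {K : Set V} {Ks : ℕ → Set V} (h : ∀ k, Lim K (Ks k)) :
    Lim K (ulim 𝒰 Ks) := by
  refine ⟨isClosed_ulim 𝒰 Ks, convex_ulim 𝒰 fun k => (h k).2.1, fun R ε hε => ?_⟩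
  obtain ⟨k, hk⟩ := (near_ulim 𝒰 Ks (R + ε / 2) (ε / 2) (half_pos hε)).exists
  obtain ⟨K₁, h1, h2⟩ := (h k).2.2 (R + ε / 2) (ε / 2) (half_pos hε)
  have key : ∀ {A B C : Set V}, (∀ X ∈ A, ‖X‖ ≤ R + ε / 2 → ∃ X' ∈ B, ‖X - X'‖ ≤ ε / 2) →
      (∀ X ∈ B, ‖X‖ ≤ R + ε / 2 → ∃ X' ∈ C, ‖X - X'‖ ≤ ε / 2) →
      ∀ X ∈ A, ‖X‖ ≤ R → ∃ X' ∈ C, ‖X - X'‖ ≤ ε := by
    intro A B C hA hB X hX hR
    obtain ⟨X', h3, h4⟩ := hA X hX (by linarith)
    obtain ⟨X'', h5, h6⟩ := hB X' h3 (by linarith [norm_sub_norm_le X' X, norm_sub_rev X X'])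
    exact ⟨X'', h5, by linarith [norm_sub_le_norm_sub_add_norm_sub X X' X'']⟩
  exact ⟨K₁, h1, key h2.1 hk.1, key hk.2 h2.2⟩

/-- balls survive in nearby closed convex sets (separate a missing point by a hyperplane, or use
the nearest point projection) -/
lemma ball_of_near {K₁ K₂ : Set V} (hc : IsClosed K₁) (hv : Convex ℝ K₁) {R ε r : ℝ}
    (hε : 0 ≤ ε) (hn : Near K₁ K₂ R ε) {Z : V} (hZ : ∀ v : V, ‖v‖ ≤ r → Z + v ∈ K₂)
    (hR : ‖Z‖ + r ≤ R) : ∀ v : V, ‖v‖ ≤ r - 2 * ε → Z + v ∈ K₁ := by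
  intro v hv'
  by_contra hP
  have := FiniteDimensional.complete ℝ V
  obtain ⟨f, u, h1, h2⟩ := geometric_hahn_banach_closed_point hv hc hP
  set a := (InnerProductSpace.toDual ℝ V).symm f with ha
  have hf : ∀ x, f x = ⟪a, x⟫ := fun x => by rw [ha, InnerProductSpace.toDual_symm_apply]
  have h3 : ‖(ε / ‖a‖) • a‖ ≤ ε := by
    rw [norm_smul, Real.norm_of_nonneg (by positivity)]
    rcases eq_or_ne ‖a‖ 0 with h | h
    · rw [h, mul_zero]
      exact hε
    · rw [div_mul_cancel₀ _ h]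
  have h4 : ‖v + (ε / ‖a‖) • a‖ ≤ r := by linarith [norm_add_le v ((ε / ‖a‖) • a)]
  obtain ⟨X', h5, h6⟩ := hn.2 _ (hZ _ h4) (by linarith [norm_add_le Z (v + (ε / ‖a‖) • a)])
  have h7 : f ((ε / ‖a‖) • a) = ε * ‖a‖ := by
    rw [hf, real_inner_smul_right, real_inner_self_eq_norm_mul_norm]
    rcases eq_or_ne ‖a‖ 0 with h | h
    · rw [h, mul_zero, mul_zero, mul_zero]
    · field_simp
  have h8 : f (Z + (v + (ε / ‖a‖) • a) - X') ≤ ‖a‖ * ε := by
    rw [hf]
    exact (real_inner_le_norm _ _).trans (mul_le_mul_of_nonneg_left h6 (norm_nonneg _))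
  rw [← add_assoc, map_sub, map_add, h7] at h8
  linarith [h1 X' h5]

lemma geo1_hadamard {N : ℕ} (hN : Module.finrank ℝ V = N) (b : OrthonormalBasis (Fin N) ℝ V)
    (v : Fin N → V) : |b.toBasis.det v| ≤ ∏ i, ‖v i‖ := by
  have : Fact (Module.finrank ℝ V = N) := ⟨hN⟩
  rw [← b.toBasis.orientation.volumeForm_robust' b v]
  exact b.toBasis.orientation.abs_volumeForm_apply_le v

lemma geo1_sum_mem {N : ℕ} {C : Set V} (hC : Convex ℝ C) {O : V} (hO : O ∈ C) {v : Fin N → V}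
    (hv : ∀ i, O + v i ∈ C) {μ : Fin N → ℝ} (h0 : ∀ i, 0 ≤ μ i) (h1 : ∑ i, μ i ≤ 1) :
    O + ∑ i, μ i • v i ∈ C := by
  have h := hC.sum_mem (t := Finset.univ) (w := fun o : Option (Fin N) => o.elim (1 - ∑ i, μ i) μ)
    (z := fun o : Option (Fin N) => o.elim O fun i => O + v i)
    (fun o _ => by
      cases o with
      | none => exact sub_nonneg.2 h1
      | some i => exact h0 i)
    (by simp [Fintype.sum_option])
    (fun o _ => by
      cases o with
      | none => exact hO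
      | some i => exact hv i)
  convert h using 1
  simp only [Fintype.sum_option, Option.elim_none, Option.elim_some, smul_add,
    Finset.sum_add_distrib, ← Finset.sum_smul, sub_smul, one_smul]
  abel

/-- John-type normalisation with a dimensional constant: take vectors `v_i ∈ C - O` with almost
maximal determinant (with respect to an orthonormal basis), `T b_i = 2 N v_i`. -/
theorem john : ∃ c : ℝ, 0 < c ∧ ∀ (C : Set V) (O : V), Convex ℝ C → O ∈ C →
    Bornology.IsBounded C → (interior C).Nonempty →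
    ∃ (T : V ≃L[ℝ] V) (Z : V), (∀ X ∈ C, ‖T.symm (X - O)‖ ≤ 1) ∧
      ∀ v : V, ‖v‖ ≤ c → O + T (Z + v) ∈ C := by
  set s : ℝ := 2 * (Module.finrank ℝ V : ℝ) + 1 with hs
  have hs0 : 0 < s := by positivity
  refine ⟨1 / s ^ 2, by positivity, fun C O hC hO hb hi => ?_⟩
  set b := stdOrthonormalBasis ℝ V with hbdef
  set S : Set ℝ := {t | ∃ v : Fin (Module.finrank ℝ V) → V, (∀ i, O + v i ∈ C) ∧
    t = |b.toBasis.det v|} with hS
  have hbdd : BddAbove S := by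
    obtain ⟨r, hr⟩ := hb.exists_norm_le
    refine ⟨∏ _i : Fin (Module.finrank ℝ V), (r + ‖O‖), ?_⟩
    rintro _ ⟨v, hv, rfl⟩
    refine (geo1_hadamard rfl b v).trans (Finset.prod_le_prod (fun i _ => norm_nonneg _)
      fun i _ => ?_)
    have h1 := norm_sub_le (O + v i) O
    rw [add_sub_cancel_left] at h1
    linarith [hr _ (hv i)]
  have hpos : ∃ t ∈ S, 0 < t := by
    have h1 : Submodule.span ℝ {x | O + x ∈ C} = ⊤ := by
      refine Submodule.eq_top_of_nonempty_interior' _ ?_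
      obtain ⟨Z, hZ⟩ := hi
      refine ⟨Z - O, interior_mono Submodule.subset_span ?_⟩
      have h2 : (fun x => O + x) ⁻¹' interior C ⊆ interior {x | O + x ∈ C} :=
        preimage_interior_subset_interior_preimage (f := fun x => O + x) (by fun_prop)
      exact h2 (by simpa using hZ)
    obtain ⟨t, ht, h2, h3⟩ := exists_linearIndependent ℝ {x | O + x ∈ C}
    let B : Module.Basis t ℝ V := Module.Basis.mk h3 (by
      rw [Subtype.range_coe_subtype, Set.ofPred_mem_eq, h2, h1])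
    refine ⟨_, ⟨B.reindex (B.indexEquiv b.toBasis), fun i => ?_, rfl⟩,
      abs_pos.2 (b.toBasis.isUnit_det _).ne_zero⟩
    rw [Module.Basis.reindex_apply, Module.Basis.mk_apply]
    exact ht (Subtype.coe_prop _)
  obtain ⟨t₀, ht₀, ht₀'⟩ := hpos
  have hM : 0 < sSup S := ht₀'.trans_le (le_csSup hbdd ht₀)
  obtain ⟨_, ⟨v, hv, rfl⟩, hv'⟩ := exists_lt_of_lt_csSup ⟨t₀, ht₀⟩ (half_lt_self hM)
  have hd : 0 < |b.toBasis.det v| := (half_pos hM).trans hv'
  obtain ⟨hli, hsp⟩ := b.toBasis.is_basis_iff_det.2 (IsUnit.mk0 _ (abs_pos.1 hd))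
  let B := Module.Basis.mk hli hsp.ge
  have hco : ∀ X ∈ C, ∀ i, |B.repr (X - O) i| ≤ 2 := by
    intro X hX i
    have h1 := LinearMap.congr_fun (b.toBasis.det_smul_mk_coord_eq_det_update hli hsp.ge i) (X - O)
    have h2 : b.toBasis.det v * B.repr (X - O) i = b.toBasis.det (Function.update v i (X - O)) := h1
    have h3 : |b.toBasis.det (Function.update v i (X - O))| ≤ sSup S := by
      refine le_csSup hbdd ⟨_, fun j => ?_, rfl⟩
      rcases eq_or_ne j i with rfl | hj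
      · simpa using hX
      · rw [Function.update_of_ne hj]
        exact hv j
    rw [← h2, abs_mul] at h3
    nlinarith [abs_nonneg (B.repr (X - O) i)]
  let T : V ≃L[ℝ] V := ((b.toBasis.equiv B (Equiv.refl _)).trans
    (LinearEquiv.smulOfNeZero ℝ V s hs0.ne')).toContinuousLinearEquiv
  have hT : ∀ μ : Fin (Module.finrank ℝ V) → ℝ, T (∑ i, μ i • b i) = ∑ i, (s * μ i) • v i := by
    intro μ
    rw [map_sum]
    refine Finset.sum_congr rfl fun i _ => ?_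
    have h1 : T (b i) = s • v i := by
      change s • b.toBasis.equiv B (Equiv.refl _) (b.toBasis i) = _
      rw [Module.Basis.equiv_apply, Equiv.refl_apply, Module.Basis.mk_apply]
    rw [map_smul, h1, smul_smul, mul_comm]
  refine ⟨T, ∑ i, (1 / s ^ 2) • b i, fun X hX => ?_, fun w hw => ?_⟩
  · have h1 : T.symm (X - O) = ∑ i, (B.repr (X - O) i / s) • b i := by
      rw [ContinuousLinearEquiv.symm_apply_eq, hT]
      conv_lhs => rw [← B.sum_repr (X - O)]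
      refine Finset.sum_congr rfl fun i _ => ?_
      rw [mul_div_cancel₀ _ hs0.ne', Module.Basis.mk_apply]
    rw [h1]
    refine (norm_sum_le _ _).trans ((Finset.sum_le_sum (g := fun _ => 2 / s) fun i _ => ?_).trans ?_)
    · rw [norm_smul, b.orthonormal.1 i, mul_one, Real.norm_eq_abs, abs_div, abs_of_pos hs0]
      exact div_le_div_of_nonneg_right (hco X hX i) hs0.le
    · rw [Finset.sum_const, Finset.card_univ, Fintype.card_fin, nsmul_eq_mul, ← mul_div_assoc,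
        div_le_one hs0]
      linarith
  · have h1 : ∑ i, (1 / s ^ 2) • b i + w = ∑ i, (1 / s ^ 2 + b.repr w i) • b i := by
      simp only [add_smul, Finset.sum_add_distrib, b.sum_repr]
    have h2 : ∀ i, |b.repr w i| ≤ 1 / s ^ 2 := fun i => by
      rw [b.repr_apply_apply]
      refine (abs_real_inner_le_norm _ _).trans ?_
      rw [b.orthonormal.1 i, one_mul]
      exact hw
    rw [h1, hT]
    refine geo1_sum_mem hC hO hv (fun i => mul_nonneg hs0.le (by linarith [(abs_le.1 (h2 i)).1])) ?_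
    refine (Finset.sum_le_sum (g := fun _ => 2 / s) fun i _ => ?_).trans ?_
    · have h3 : s * (1 / s ^ 2 + 1 / s ^ 2) = 2 / s := by
        field_simp
        ring
      rw [← h3]
      exact mul_le_mul_of_nonneg_left (by linarith [(abs_le.1 (h2 i)).2]) hs0.le
    · rw [Finset.sum_const, Finset.card_univ, Fintype.card_fin, nsmul_eq_mul, ← mul_div_assoc,
        div_le_one hs0]
      linarith

lemma geo1_adjoint_le (L : V →ₗ[ℝ] V) {x : V} {γ : ℝ} (hγ : 0 ≤ γ)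
    (h : ∀ v, ⟪x, L v⟫ ≤ γ * ‖v‖) : ‖LinearMap.adjoint L x‖ ≤ γ := by
  have h1 := h (LinearMap.adjoint L x)
  rw [← LinearMap.adjoint_inner_left, real_inner_self_eq_norm_mul_norm] at h1
  by_contra hcon
  rw [not_le] at hcon
  nlinarith

/-- Hadamard-type bound: a map that is small in one direction has small determinant
(`Orientation.abs_volumeForm_apply_le` applied to the adjoint, with an orthonormal basis whose
first vector is the normalised Riesz representative of `f`). -/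
theorem abs_det_le_of_thin (L : V →L[ℝ] V) (f : V →L[ℝ] ℝ) {c α β : ℝ} (hc : 0 ≤ c)
    (hα : 0 < α) (hβ : 0 ≤ β) (hL : ∀ v, ‖L v‖ ≤ c * ‖v‖)
    (hf : ∃ w : V, ‖w‖ ≤ 1 ∧ α ≤ f w) (hfL : ∀ v, |f (L v)| ≤ β * ‖v‖) :
    |L.det| ≤ c ^ (Module.finrank ℝ V - 1) * (β / α) := by
  have := FiniteDimensional.complete ℝ V
  set a := (InnerProductSpace.toDual ℝ V).symm f with ha
  have hfa : ∀ x, f x = ⟪a, x⟫ := fun x => by rw [ha, InnerProductSpace.toDual_symm_apply]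
  obtain ⟨w, hw, hw'⟩ := hf
  have hαa : α ≤ ‖a‖ := by
    rw [hfa] at hw'
    exact hw'.trans ((real_inner_le_norm _ _).trans (mul_le_of_le_one_right (norm_nonneg _) hw))
  have ha0 : 0 < ‖a‖ := hα.trans_le hαa
  have : Nontrivial V := ⟨a, 0, norm_pos_iff.1 ha0⟩
  let i₀ : Fin (Module.finrank ℝ V) := ⟨0, Module.finrank_pos⟩
  have hon : Orthonormal ℝ (({i₀} : Set (Fin (Module.finrank ℝ V))).domRestrict
      fun _ => ‖a‖⁻¹ • a) := by
    refine ⟨fun _ => ?_, fun i j hij => (hij (Subsingleton.elim i j)).elim⟩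
    rw [Set.domRestrict_apply, norm_smul, norm_inv, norm_norm, inv_mul_cancel₀ ha0.ne']
  obtain ⟨b, hb⟩ := hon.exists_orthonormalBasis_extension_of_card_eq (Fintype.card_fin _).symm
  have h1 : L.det = b.toBasis.det fun i => LinearMap.adjoint (L : V →ₗ[ℝ] V) (b i) := by
    have h2 := b.toBasis.det_comp (LinearMap.adjoint (L : V →ₗ[ℝ] V)) b.toBasis
    rw [Module.Basis.det_self, mul_one, ← LinearMap.det_toMatrix b.toBasis,
      LinearMap.toMatrix_adjoint, Matrix.det_conjTranspose, LinearMap.det_toMatrix] at h2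
    exact h2.symm
  rw [h1]
  refine (geo1_hadamard rfl b _).trans ?_
  rw [← Finset.prod_erase_mul _ _ (Finset.mem_univ i₀)]
  refine mul_le_mul ?_ ?_ (norm_nonneg _) (by positivity)
  · refine (Finset.prod_le_prod (g := fun _ => c) (fun i _ => norm_nonneg _) fun i _ =>
      geo1_adjoint_le _ hc fun v => ?_).trans (le_of_eq ?_)
    · refine (real_inner_le_norm _ _).trans ?_
      rw [b.orthonormal.1 i, one_mul]
      exact hL v
    · rw [Finset.prod_const, Finset.card_erase_of_mem (Finset.mem_univ _), Finset.card_univ,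
        Fintype.card_fin]
  · refine geo1_adjoint_le _ (by positivity) fun v => ?_
    rw [hb i₀ rfl, real_inner_smul_left, ← hfa]
    have h2 : f (L v) ≤ β * ‖v‖ := (le_abs_self _).trans (hfL v)
    calc ‖a‖⁻¹ * f (L v) ≤ ‖a‖⁻¹ * (β * ‖v‖) := mul_le_mul_of_nonneg_left h2 (by positivity)
      _ ≤ α⁻¹ * (β * ‖v‖) := mul_le_mul_of_nonneg_right (inv_anti₀ hα hαa) (by positivity)
      _ = β / α * ‖v‖ := by ring

end Crest.Agent.R236
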