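import Crest.Agent.R236.Cell
import Crest.Agent.R236.Area
import Crest.Agent.R236.Geo1

/-!
# Row 236: auxiliary lemmas for `cell_lower`
-/

set_option autoImplicit false
set_option linter.unusedSectionVars false
open scoped ContDiff RealInnerProductSpace ENNReal Topology
open Crest.GeometryTopology.CoordMetric Crest.GeometryTopology.AffineMaximal MeasureTheory

noncomputable section

namespace Crest.Agent.R236

section geo

variable {V : Type*} [NormedAddCommGroup V] [InnerProductSpace ℝ V] [FiniteDimensional ℝ V]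
  {K : Set V} {j : ℕ} {O : V} {e : Fin j → V} {y : Fin j → V →L[ℝ] ℝ} {κ d R : ℝ}

lemma cl_y (hA : ApproxW K O e y κ d R) (c : Fin j → ℝ) (i : Fin j) :
    y i (∑ l, c l • e l) = c i := by
  simp [map_sum, hA.bio]

lemma cl_ray (hA : ApproxW K O e y κ d R) {c : Fin j → ℝ} (hc : ∀ i, d ≤ c i ∧ c i ≤ R) :
    O + ∑ i, c i • e i ∈ K := by
  obtain ⟨T, -, h⟩ := hA.cell c hc
  simpa using (h 0 (by simp)).1

lemma cl_ball (hK : Convex ℝ K) (hA : ApproxW K O e y κ d R) (hj : 1 ≤ j) {a : Fin j → ℝ}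
    (ha0 : ∀ i, 0 ≤ a i) (had : ∀ i, d ≤ a i / 4) (haR : ∀ i, 2 * a i ≤ R) {w : V}
    (hw : O + ∑ i, (2 * j * a i) • e i + κ • w ∈ K) {c : Fin j → ℝ}
    (hc : ∀ i, a i / 2 ≤ c i ∧ c i ≤ a i) : O + ∑ i, c i • e i + (κ / (8 * j)) • w ∈ K := by
  have hj' : (1 : ℝ) ≤ j := by exact_mod_cast hj
  have θ0 : (0 : ℝ) < 1 / (8 * j) := by positivity
  have θ1 : (1 : ℝ) / (8 * j) ≤ 1 / 8 := one_div_le_one_div_of_le (by norm_num) (by linarith)
  have θ2 : ∀ i, 1 / (8 * j) * (2 * j * a i) = a i / 4 := fun i => by field_simp; ring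
  have θ3 : κ / (8 * j) = 1 / (8 * j) * κ := by ring
  rw [θ3]
  generalize (1 : ℝ) / (8 * j) = θ at θ0 θ1 θ2 ⊢
  have h1 : 0 < 1 - θ := by linarith
  have h2 := cl_ray hA (c := fun i => (c i - a i / 4) / (1 - θ)) fun i => by
    have := hc i
    have := ha0 i
    have := had i
    have := haR i
    constructor
    · rw [le_div_iff₀ h1]
      rcases le_total 0 d with h | h <;> nlinarith
    · rw [div_le_iff₀ h1]
      nlinarith
  have h3 := hK h2 hw h1.le θ0.le (by ring)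
  have h4 : ∑ i, c i • e i = (1 - θ) • ∑ i, ((c i - a i / 4) / (1 - θ)) • e i +
      θ • ∑ i, (2 * j * a i) • e i := by
    rw [Finset.smul_sum, Finset.smul_sum, ← Finset.sum_add_distrib]
    refine Finset.sum_congr rfl fun i _ => ?_
    rw [smul_smul, smul_smul, ← add_smul, θ2, mul_div_cancel₀ _ h1.ne', sub_add_cancel]
  rw [h4]
  convert h3 using 1
  module

lemma cl_exit (hK : IsClosed K) {P Y : V} (hY : Y ∈ K) {B : ℝ}
    (hB : ∀ σ : ℝ, 1 ≤ σ → P + σ • (Y - P) ∈ K → σ ≤ B) :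
    ∃ σ : ℝ, 1 ≤ σ ∧ P + σ • (Y - P) ∈ K ∧ P + σ • (Y - P) ∉ interior K := by
  have hc : Continuous fun σ : ℝ => P + σ • (Y - P) := by fun_prop
  have hS : IsCompact {σ : ℝ | 1 ≤ σ ∧ P + σ • (Y - P) ∈ K} :=
    (isCompact_Icc (a := 1) (b := B)).of_isClosed_subset
      (isClosed_Ici.inter (hK.preimage hc)) fun σ h => ⟨h.1, hB σ h.1 h.2⟩
  obtain ⟨σ, ⟨h1, h2⟩, h3⟩ := hS.exists_isGreatest ⟨1, le_rfl, by simpa using hY⟩
  refine ⟨σ, h1, h2, fun hi => ?_⟩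
  have h4 : ∀ᶠ τ in 𝓝[>] σ, P + τ • (Y - P) ∈ K :=
    nhdsWithin_le_nhds (hc.continuousAt.preimage_mem_nhds (mem_interior_iff_mem_nhds.1 hi))
  obtain ⟨τ, h5, h6⟩ := (h4.and self_mem_nhdsWithin).exists
  exact absurd (h3 ⟨h1.trans (le_of_lt h6), h5⟩) (not_le.2 h6)

lemma cl_hom {F : Type*} [NormedAddCommGroup F] [NormedSpace ℝ F] (L : V →L[ℝ] F) {c : ℝ}
    (hc : 0 ≤ c) (h : ∀ v, ‖v‖ ≤ 1 → ‖L v‖ ≤ c) (v : V) : ‖L v‖ ≤ c * ‖v‖ :=
  L.le_of_opNorm_le (L.opNorm_le_of_unit_norm hc fun x hx => h x hx.le) v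

lemma cl_det (T T' : V ≃L[ℝ] V) (f : V →L[ℝ] ℝ) (hκ : 0 < κ) {α ε : ℝ} (hα : 0 < α) (hε : 0 ≤ ε)
    (h1 : ∀ v, ‖v‖ ≤ 1 → ‖T.symm (κ • T' v)‖ ≤ 2) {w : V} (hw : ‖T.symm w‖ ≤ 1) (hw' : f w = α)
    (h2 : ∀ v, ‖v‖ ≤ 1 → |f (κ • T' v)| ≤ ε * α) :
    |(T' : V →L[ℝ] V).det| ≤
      (2 / κ) ^ (Module.finrank ℝ V - 1) / κ * ε * |(T : V →L[ℝ] V).det| := by
  have key := abs_det_le_of_thin ((T.symm : V →L[ℝ] V) ∘L (T' : V →L[ℝ] V))
    (f ∘L (T : V →L[ℝ] V)) (c := 2 / κ) (α := α) (β := ε * α / κ) (by positivity) hα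
    (by positivity) (cl_hom _ (by positivity) fun v hv => ?_) ⟨T.symm w, hw, by simp [hw']⟩
    fun v => ?_
  · have e : (T' : V →L[ℝ] V).det = (T : V →L[ℝ] V).det *
        ((T.symm : V →L[ℝ] V) ∘L (T' : V →L[ℝ] V)).det := by
      rw [ContinuousLinearMap.det, ContinuousLinearMap.det, ContinuousLinearMap.det,
        ← LinearMap.det_comp]
      congr 1
      ext v
      simp
    rw [e, abs_mul, mul_comm]
    refine mul_le_mul_of_nonneg_right (key.trans (le_of_eq ?_)) (abs_nonneg _)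
    field_simp
  · have := h1 v hv
    rw [map_smul, norm_smul, Real.norm_of_nonneg hκ.le] at this
    rw [le_div_iff₀ hκ, mul_comm]
    exact this
  · have := cl_hom (f ∘L (T' : V →L[ℝ] V)) (c := ε * α / κ) (by positivity) (fun v hv => by
      have := h2 v hv
      rw [map_smul, smul_eq_mul, abs_mul, abs_of_pos hκ] at this
      rw [le_div_iff₀ hκ, mul_comm]
      exact this) v
    simpa using this

lemma cl_det_pos (T : V ≃L[ℝ] V) : 0 < |(T : V →L[ℝ] V).det| :=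
  abs_pos.2 (T.toLinearEquiv.isUnit_det').ne_zero

end geo

lemma cl_num {n : ℕ} (hn : 1 ≤ n) {η : ℝ} (hη : 0 < η) : ∃ K K' : ℝ, 0 < K ∧ 0 < K' ∧
    ∀ D : ℝ, 0 < D → ∃ α β : ℝ, 0 ≤ α ∧ 0 ≤ β ∧
      α * (D ^ (2 / (n : ℝ)) * D ^ ((n : ℝ) / (n + 2))) = η * D ∧
      β * D ^ ((n : ℝ) / (n + 2)) = K * D ∧ ∀ z : ℝ, 0 < z →
        z ≤ α * z ^ (1 + 2 / (n : ℝ)) + β ∧
        z ≤ α * z ^ (1 + 2 / (n : ℝ)) + K' * D * z ^ (-(n : ℝ) / 2) := by
  have n0 : (0 : ℝ) < n := by exact_mod_cast hn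
  have hK : 0 < η ^ (-(n : ℝ) / 2) := Real.rpow_pos_of_pos hη _
  have hK1 : (η ^ (-(n : ℝ) / 2)) ^ (-(2 / (n : ℝ))) = η := by
    rw [← Real.rpow_mul hη.le, show -(n : ℝ) / 2 * -(2 / (n : ℝ)) = 1 by field_simp,
      Real.rpow_one]
  generalize η ^ (-(n : ℝ) / 2) = K at hK hK1
  refine ⟨K, K ^ (1 + (n : ℝ) / 2), hK, Real.rpow_pos_of_pos hK _, fun D hD => ?_⟩
  have hl : 0 < D ^ (2 / ((n : ℝ) + 2)) := Real.rpow_pos_of_pos hD _
  have hβ : 0 < K * D ^ (2 / ((n : ℝ) + 2)) := mul_pos hK hl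
  have hβ1 : (K * D ^ (2 / ((n : ℝ) + 2))) ^ (1 + (n : ℝ) / 2) = K ^ (1 + (n : ℝ) / 2) * D := by
    rw [Real.mul_rpow hK.le hl.le, ← Real.rpow_mul hD.le,
      show 2 / ((n : ℝ) + 2) * (1 + (n : ℝ) / 2) = 1 by field_simp; ring, Real.rpow_one]
  refine ⟨(K * D ^ (2 / ((n : ℝ) + 2))) ^ (-(2 / (n : ℝ))), K * D ^ (2 / ((n : ℝ) + 2)),
    (Real.rpow_pos_of_pos hβ _).le, hβ.le, ?_, ?_, fun z hz => ?_⟩
  · rw [Real.mul_rpow hK.le hl.le, hK1, mul_assoc, ← Real.rpow_mul hD.le, ← Real.rpow_add hD,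
      ← Real.rpow_add hD, show 2 / ((n : ℝ) + 2) * -(2 / (n : ℝ)) +
        (2 / (n : ℝ) + (n : ℝ) / (n + 2)) = 1 by field_simp; ring, Real.rpow_one]
  · rw [mul_assoc, ← Real.rpow_add hD,
      show 2 / ((n : ℝ) + 2) + (n : ℝ) / (n + 2) = 1 by field_simp; ring, Real.rpow_one]
  rw [← hβ1]
  generalize K * D ^ (2 / ((n : ℝ) + 2)) = β at hβ
  have p1 : 0 ≤ β ^ (-(2 / (n : ℝ))) * z ^ (1 + 2 / (n : ℝ)) := by positivity
  have p2 : 0 ≤ β ^ (1 + (n : ℝ) / 2) * z ^ (-(n : ℝ) / 2) := by positivity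
  rcases le_total β z with h | h
  · have h1 : z ≤ β ^ (-(2 / (n : ℝ))) * z ^ (1 + 2 / (n : ℝ)) := by
      have h2 : z ^ (-(2 / (n : ℝ))) ≤ β ^ (-(2 / (n : ℝ))) :=
        Real.rpow_le_rpow_of_nonpos hβ h (neg_nonpos.2 (by positivity))
      refine le_trans (le_of_eq ?_) (mul_le_mul_of_nonneg_right h2 (by positivity))
      rw [← Real.rpow_add hz]
      simp
    constructor <;> linarith
  · have h1 : β ≤ β ^ (1 + (n : ℝ) / 2) * z ^ (-(n : ℝ) / 2) := by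
      have h2 : β ^ (-(n : ℝ) / 2) ≤ z ^ (-(n : ℝ) / 2) :=
        Real.rpow_le_rpow_of_nonpos hz h (by linarith)
      refine le_trans (le_of_eq ?_) (mul_le_mul_of_nonneg_left h2 (by positivity))
      rw [← Real.rpow_add hβ, show 1 + (n : ℝ) / 2 + -(n : ℝ) / 2 = 1 by ring, Real.rpow_one]
    constructor <;> linarith

lemma cl_eps {p C η : ℝ} (hp : 0 < p) (hC : 0 < C) (hη : 0 < η) :
    ∃ ε : ℝ, 0 < ε ∧ ε ≤ 1 / 4 ∧ (C * ε) ^ p ≤ η := by
  refine ⟨min (1 / 4) (η ^ p⁻¹ / C), by positivity, min_le_left _ _, ?_⟩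
  have h : C * min (1 / 4) (η ^ p⁻¹ / C) ≤ η ^ p⁻¹ := by
    rw [mul_comm, ← le_div_iff₀ hC]
    exact min_le_right _ _
  refine (Real.rpow_le_rpow (by positivity) h hp.le).trans (le_of_eq ?_)
  exact Real.rpow_inv_rpow hη.le hp.ne'

variable {n : ℕ}

lemma cl_mass_mono (M : AM n) (f : E n → ℝ) {Q Q' : Set (E n)} (h : Q ⊆ Q') :
    M.mass f Q ≤ M.mass f Q' := lintegral_mono_set h

lemma cl_mass_le (M : AM n) {Q : Set (E n)} (hQ : MeasurableSet Q) (hΩ : Q ⊆ M.Ω)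
    {f g h : E n → ℝ} (hg : ContinuousOn g Q) {α β : ℝ} (hα : 0 ≤ α) (hβ : 0 ≤ β)
    (hle : ∀ x ∈ Q, f x ≤ α * g x + β * h x) :
    M.mass f Q ≤ ENNReal.ofReal α * M.mass g Q + ENNReal.ofReal β * M.mass h Q := by
  have hm : AEMeasurable (fun x => ENNReal.ofReal α * ENNReal.ofReal (g x / M.rho x))
      (volume.restrict Q) :=
    (((hg.div (M.contDiffOn_rho.continuousOn.mono hΩ) fun x hx =>
      (M.rho_pos (hΩ hx)).ne').aemeasurable hQ).ennreal_ofReal).const_mul _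
  unfold AM.mass
  rw [← lintegral_const_mul' _ _ ENNReal.ofReal_ne_top,
    ← lintegral_const_mul' _ _ ENNReal.ofReal_ne_top, ← lintegral_add_left' hm]
  refine setLIntegral_mono' hQ fun x hx => ?_
  rw [← ENNReal.ofReal_mul hα, ← ENNReal.ofReal_mul hβ]
  refine le_trans (ENNReal.ofReal_le_ofReal ?_) ENNReal.ofReal_add_le
  rw [← mul_div_assoc, ← mul_div_assoc, ← add_div]
  exact div_le_div_of_nonneg_right (hle x hx) (M.rho_pos (hΩ hx)).le

lemma cl_mass_cover (M : AM n) (f : E n → ℝ) {j : ℕ} {U : Set (E n)} (Q : Fin j → Set (E n)) :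
    M.mass f U ≤ M.mass f (U \ ⋃ i, Q i) + ∑ i, M.mass f (Q i) := by
  have h : U ⊆ (U \ ⋃ i, Q i) ∪ ⋃ i, Q i := by
    rw [Set.sdiff_union_self]
    exact Set.subset_union_left
  refine (cl_mass_mono M f h).trans ((lintegral_union_le _ _ _).trans (add_le_add le_rfl ?_))
  refine (lintegral_iUnion_le _ _).trans (le_of_eq ?_)
  rw [tsum_fintype]
  rfl

lemma cl_vol (n : ℕ) {r : ℝ} (hr : 0 < r) : ∃ c : ℝ, 0 < c ∧ ∀ (T : A n ≃L[ℝ] A n) (Z : A n),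
    ENNReal.ofReal (c * |(T : A n →L[ℝ] A n).det|) ≤
      volume ((fun v => Z + v) '' (T '' Metric.closedBall 0 r)) := by
  have h1 : volume (Metric.closedBall (0 : A n) r) ≠ ⊤ := measure_closedBall_lt_top.ne
  have h2 : volume (Metric.closedBall (0 : A n) r) ≠ 0 :=
    (Metric.measure_closedBall_pos volume _ hr).ne'
  refine ⟨(volume (Metric.closedBall (0 : A n) r)).toReal, ENNReal.toReal_pos h2 h1,
    fun T Z => le_of_eq ?_⟩
  rw [Set.image_add_left, measure_preimage_add, Measure.addHaar_image_continuousLinearEquiv,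
    ENNReal.ofReal_mul ENNReal.toReal_nonneg, ENNReal.ofReal_toReal h1, mul_comm]
  rfl

lemma cl_final {j : ℕ} {c D η θ k : ℝ} (hD : 0 < D) (hk : 0 < k) (hη : 0 ≤ η)
    (hθ : 0 ≤ θ) (h1 : (j + 1) * η ≤ c / 3) (h2 : j * θ ≤ c / 3) {m : ℝ≥0∞}
    (h : ENNReal.ofReal (c * D) ≤ ENNReal.ofReal (η * D) + ENNReal.ofReal (k * D) * m +
      ∑ _i : Fin j, (ENNReal.ofReal (η * D) + ENNReal.ofReal (θ * D))) :
    ENNReal.ofReal (c / (3 * k)) ≤ m := by
  induction m with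
  | top => exact le_top
  | coe m =>
    rw [← ENNReal.ofReal_coe_nnreal] at h ⊢
    have m0 : (0 : ℝ) ≤ m := m.2
    rw [← ENNReal.ofReal_mul (by positivity), ← ENNReal.ofReal_add (by positivity) (by positivity),
      ← ENNReal.ofReal_add (by positivity) (by positivity),
      ← ENNReal.ofReal_sum_of_nonneg fun _ _ => by positivity,
      ← ENNReal.ofReal_add (by positivity) (by positivity),
      ENNReal.ofReal_le_ofReal_iff (by positivity), Finset.sum_const, Finset.card_univ,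
      Fintype.card_fin, nsmul_eq_mul] at h
    refine ENNReal.ofReal_le_ofReal ?_
    rw [div_le_iff₀ (by positivity)]
    refine le_of_mul_le_mul_right ?_ hD
    nlinarith [mul_le_mul_of_nonneg_right h1 hD.le, mul_le_mul_of_nonneg_right h2 hD.le]

end Crest.Agent.R236
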