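import Crest.Agent.R236.Cell
import Crest.Agent.R236.Area
import Crest.Agent.R236.Geo1
import Crest.Agent.R236.CellLowerAux

/-!
# Row 236: mass of the cells

Throughout `W : WD n j` has `ApproxW M.K W.O W.e W.y κ W.d R₂`.

* `good_of_approx`: `CR R` is compact by `isCompact_preimage` (on it `-d/2 ≤ y_i ≤ R`);
  `O₁ = O + d Σ e_i` has a ball `κ T B` in `K` (`Lam_pos_of_ball`); `O₁ + (2 j ỹ_i / δ) e_i ∈ K`
  (the `cell` field with `v = 0`) gives `nui_ge`.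
* `dyadic_upper`: with `A_i = 2 a_i`, `T = T_A`, `P = O + Σ A_i e_i`; on the cell `G = ν(Z - X)`,
  `Z = O₁ + ε Σ ỹ_i e_i + ε δ (O₁ - X) = (1 - c) O' + c (P + κ T v)`, `c = ε/2 = 1/64`,
  `O' = O + Σ ((d + ε ỹ_i - c A_i)/(1-c)) e_i ∈ K`, `‖v‖ ≤ 1/2` (as `δ ≤ κ/8` and `O₁ - X ∈ 2 T B`), so
  `G ≥ (c/2) Λ_P` (`ν(P + κ T v - X) ≥ Λ_P / 2` by `nuv_le_Lam`), then `mass_bounds`.
* `cell_lower`: `A = 2 j a`, `T = T_A`, `P = O + Σ a_i e_i` (ball `κ/(4j)`: convex combination of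
  `O + Σ A_i e_i + κ T v` with weight `1/(4j)` and a point `O + Σ a'_i e_i`), `t = 1 - Σ ỹ_i/(2 j a_i)`,
  `U = {Σ y_i (X - O) < R₂}`, `Cc = {Σ y_i ≤ R₂, t ≥ 0}`; `energy_bound` and `mass_bounds`.
  The ball `W₀ + (κ/(8j)) T B`, `W₀ = O + Σ (a_i/2) e_i`, lies in `K` and has `y_i ≤ 3 a_i / 4`, so
  rays from `P` through it leave `K` at graph points of `U₀ = {x ∈ Cc | ∀ i, y_i ≤ a_i}`
  (`eq_X_of_not_interior`; there `t ≥ 1/4`), and `cone_lower` gives `∫_{U₀} Λ_P dV ≥ c |det T|`.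
  With `Λ̂ = Λ_P / |det T|^{2/(n+2)}` and `Λ̂ ≤ K^{-2/n} Λ̂^{1+2/n} + K` we get
  `area(U₀) ≥ c |det T|^{n/(n+2)}`. The thin parts `U₀ ∩ {ỹ_i ≤ ε₀ a_i}` lie in the cap of
  `a' = update a i (ε₀ a_i)`, `|det T_{a'}| ≤ C ε₀ |det T|` by `abs_det_le_of_thin` (applied to
  `T⁻¹ T_{a'}` and `y_i ∘ T`; `(a_i/2) e_i ∈ 2 T B`), so their area is small by `mass_bounds`.
  On the rest use `1 ≤ Λ̂/K + K^{n/2} Λ̂^{-n/2}` and `G ≤ C Λ_P` (`nuv_le_Lam`).
-/

set_option autoImplicit false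
set_option linter.unusedVariables false
open scoped ContDiff RealInnerProductSpace ENNReal Topology
open Crest.GeometryTopology.CoordMetric Crest.GeometryTopology.AffineMaximal MeasureTheory

noncomputable section

namespace Crest.Agent.R236

section aux

variable {n j : ℕ} {M : AM n} {W : WD n j} {κ R R₂ : ℝ}

lemma cl_yt (i : Fin j) (x : E n) : W.yt M i x = W.y i (M.X x - W.O) + W.d := by
  simp only [WD.yt, AM.aff, map_sub]
  ring

/-- the part of the cap below the corner `b` -/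
def cl_box (M : AM n) (W : WD n j) (R : ℝ) (b : Fin j → ℝ) : Set (E n) :=
  W.CR M R ∩ {x | ∀ i, W.y i (M.X x - W.O) ≤ b i}

lemma cl_box_sub (b : Fin j → ℝ) : cl_box M W R b ⊆ M.Ω := fun _ hx => hx.1.1

lemma cl_box_meas (hG : W.Good M R) (b : Fin j → ℝ) : MeasurableSet (cl_box M W R b) := by
  have h : ContinuousOn (fun x i => W.y i (M.X x - W.O)) (W.CR M R) :=
    continuousOn_pi.2 fun i => (W.y i).continuous.comp_continuousOn
      ((M.contDiffOn_X.continuousOn.mono fun _ hx => hx.1).sub continuousOn_const)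
  exact (h.preimage_isClosed_of_isClosed hG.compact.isClosed (isClosed_Iic (a := b))).measurableSet

lemma cl_near {T : A n ≃L[ℝ] A n} {O X P : A n} (h1 : ‖T.symm (X - O)‖ ≤ 1)
    (h2 : ‖T.symm (P - O)‖ ≤ 1) : ‖T.symm (X - P)‖ ≤ 2 := by
  rw [show X - P = (X - O) - (P - O) by abel, map_sub]
  linarith [norm_sub_le (T.symm (X - O)) (T.symm (P - O))]

variable (hj : 1 ≤ j) (hκ : 0 < κ) (hA : ApproxW M.K W.O W.e W.y κ W.d R₂)
  (hG : W.Good M R) (hR : R ≤ R₂) {a : Fin j → ℝ} (ha : ∀ i, W.d ≤ a i / 4)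
  (hs : 4 * j * ∑ i, a i ≤ R) {T : A n ≃L[ℝ] A n}
  (hT1 : ∀ X ∈ M.K, (∀ i, W.y i (X - W.O) ≤ 2 * j * a i) → ‖T.symm (X - W.O)‖ ≤ 1)
  (hT2 : ∀ v : A n, ‖v‖ ≤ 1 → W.O + ∑ i, (2 * j * a i) • W.e i + κ • T v ∈ M.K ∧
    ∀ i, |W.y i (κ • T v)| ≤ 2 * j * a i)

include hG ha in
lemma cl_a_pos (i : Fin j) : 0 < a i := by linarith [hG.d_pos, ha i]

include hj hG ha hs in
lemma cl_a_le (i : Fin j) : 2 * a i ≤ 2 * j * a i ∧ 4 * j * a i ≤ R ∧ 4 * ∑ i, a i ≤ R := by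
  have hj' : (1 : ℝ) ≤ j := by exact_mod_cast hj
  have h0 := cl_a_pos hG ha
  have h1 : a i ≤ ∑ i, a i := Finset.single_le_sum (fun l _ => (h0 l).le) (Finset.mem_univ i)
  have h2 := h0 i
  refine ⟨by nlinarith, by nlinarith, by nlinarith⟩

include hj hA hG hR ha hs hT2 in
lemma cl_ball' {c : Fin j → ℝ} (hc : ∀ i, a i / 2 ≤ c i ∧ c i ≤ a i) (v : A n) (hv : ‖v‖ ≤ 1) :
    W.O + ∑ i, c i • W.e i + (κ / (8 * j)) • T v ∈ M.K :=
  cl_ball M.convex_K hA hj (fun i => (cl_a_pos hG ha i).le) ha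
    (fun i => by linarith [cl_a_le hj hG ha hs i, cl_a_pos hG ha i]) (hT2 v hv).1 hc

include hj hA hG hR ha hs hT1 in
lemma cl_T_ray {c : Fin j → ℝ} (hc : ∀ i, W.d ≤ c i ∧ c i ≤ 2 * a i) :
    W.O + ∑ i, c i • W.e i ∈ M.K ∧ ‖T.symm (∑ i, c i • W.e i)‖ ≤ 1 := by
  have h := cl_ray hA (c := c) fun i =>
    ⟨(hc i).1, by linarith [cl_a_le hj hG ha hs i, cl_a_pos hG ha i, hc i]⟩
  refine ⟨h, ?_⟩
  simpa using hT1 _ h fun i => by
    rw [add_sub_cancel_left, cl_y hA]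
    linarith [cl_a_le hj hG ha hs i, hc i]

include hj hκ hA hG hR ha hs hT2 in
lemma cl_cone {c : ℝ} (hc : ∀ (T : A n ≃L[ℝ] A n) (Z : A n),
      ENNReal.ofReal (c * |(T : A n →L[ℝ] A n).det|) ≤
        volume ((fun v => Z + v) '' (T '' Metric.closedBall 0 (κ / (8 * j))))) :
    ENNReal.ofReal (c * |(T : A n →L[ℝ] A n).det|) ≤
      M.mass (M.Lam (W.O + ∑ i, a i • W.e i)) (cl_box M W R a) := by
  have hj' : (1 : ℝ) ≤ j := by exact_mod_cast hj
  have h0 := cl_a_pos hG ha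
  have hle := cl_a_le hj hG ha hs
  have hκ' : 0 < κ / (8 * j) := by positivity
  set P := W.O + ∑ i, a i • W.e i with hP
  have hPK : P ∈ M.K := cl_ray hA fun i => ⟨by linarith [ha i, h0 i], by linarith [hle i, h0 i]⟩
  have key := M.cone_lower (cl_box_meas hG a) (cl_box_sub a) (P := P)
    (fun x hx => M.hP_nonneg hPK (cl_box_sub a hx))
    (S := (fun v => (W.O + ∑ i, (a i / 2) • W.e i) + v) '' (T '' Metric.closedBall 0 (κ / (8 * j))))
    ?_
  · refine (hc T _).trans (le_trans (le_mul_of_one_le_left' le_add_self) (key.trans (le_of_eq ?_)))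
    refine setLIntegral_congr_fun (cl_box_meas hG a) fun x hx => ?_
    simp only [M.Lam_eq, mul_div_cancel_left₀ _ (M.rho_pos (cl_box_sub a hx)).ne']
  rintro _ ⟨_, ⟨w, hw, rfl⟩, rfl⟩
  obtain ⟨v, hv, rfl⟩ : ∃ v : A n, ‖v‖ ≤ 1 ∧ w = (κ / (8 * j)) • v := by
    refine ⟨(κ / (8 * j))⁻¹ • w, ?_, (smul_inv_smul₀ hκ'.ne' w).symm⟩
    rw [norm_smul, Real.norm_of_nonneg (inv_nonneg.2 hκ'.le), inv_mul_le_iff₀ hκ', mul_one]
    exact mem_closedBall_zero_iff.1 hw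
  rw [map_smul]
  beta_reduce
  set Y := W.O + ∑ i, (a i / 2) • W.e i + (κ / (8 * j)) • T v with hY
  have hYK : Y ∈ M.K := cl_ball' hj hA hG hR ha hs hT2
    (fun i => ⟨le_rfl, by linarith [h0 i]⟩) v hv
  have hy : ∀ (σ : ℝ) i, 0 ≤ σ → W.y i (P + σ • (Y - P) - W.O) ≤ a i - σ * (a i / 4) := by
    intro σ i hσ
    have h1 : W.y i ((κ / (8 * j)) • T v) ≤ a i / 4 := by
      have h2 := (abs_le.1 ((hT2 v hv).2 i)).2
      rw [map_smul, smul_eq_mul] at h2 ⊢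
      rw [div_mul_eq_mul_div, div_le_iff₀ (by positivity)]
      linarith
    have h3 : P + σ • (Y - P) - W.O = ∑ i, a i • W.e i + σ • (∑ i, (a i / 2) • W.e i +
        (κ / (8 * j)) • T v - ∑ i, a i • W.e i) := by
      rw [hP, hY]
      module
    rw [h3, map_add, map_smul, map_sub, map_add, cl_y hA, cl_y hA, smul_eq_mul]
    nlinarith [mul_le_mul_of_nonneg_left h1 hσ]
  have hy' : ∀ (σ : ℝ) i, 1 ≤ σ → W.y i (P + σ • (Y - P) - W.O) ≤ a i := fun σ i hσ => by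
    nlinarith [hy σ i (by linarith), h0 i]
  obtain ⟨σ, h1, h2, h3⟩ := cl_exit M.closed_K (P := P) hYK (B := 5) fun σ h1 h2 => by
    have i : Fin j := ⟨0, hj⟩
    have h4 := hA.pos _ h2 ((Finset.sum_le_sum fun i _ => hy' σ i h1).trans (by
      have : 0 ≤ ∑ i, a i := Finset.sum_nonneg fun i _ => (h0 i).le
      linarith [hle i])) i
    have h5 := hy σ i (by linarith)
    by_contra h6
    nlinarith [ha i, h0 i]
  obtain ⟨h4, h5⟩ := M.eq_X_of_not_interior h2 h3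
  have σ0 : 0 < σ := by linarith
  refine ⟨_, ⟨⟨h4, ?_⟩, fun i => ?_⟩, σ⁻¹, ⟨by positivity, inv_le_one_of_one_le₀ h1⟩, ?_⟩
  · refine (Finset.sum_le_sum (g := fun i => 2 * a i) fun i _ => ?_).trans ?_
    · rw [cl_yt, ← h5]
      linarith [hy' σ i h1, ha i, h0 i]
    · have : 0 ≤ ∑ i, a i := Finset.sum_nonneg fun i _ => (h0 i).le
      rw [← Finset.mul_sum]
      linarith [hle ⟨0, hj⟩]
  · rw [← h5]
    exact hy' σ i h1
  · rw [← h5, add_sub_cancel_left, inv_smul_smul₀ σ0.ne', add_sub_cancel]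

include hj hA hG hR ha hs hT1 hT2 in
lemma cl_energy {C₁ C₂ D₁ D₂ : ℝ} (hC₁ : 0 ≤ C₁ * D₁)
    (h₁ : ∀ (U Cc : Set (E n)) (ℓ : A n →L[ℝ] ℝ) (c : ℝ),
      IsOpen U → U ⊆ M.Ω → IsCompact Cc → Cc ⊆ U → (∀ x ∈ U, x ∈ Cc ↔ 0 ≤ M.aff ℓ c x) →
      (∀ x ∈ Cc, M.aff ℓ c x ≤ 1) → W.O + ∑ i, a i • W.e i ∈ M.K →
      0 ≤ ℓ (W.O + ∑ i, a i • W.e i) + c →
      (∀ x ∈ Cc, ‖T.symm (M.X x - (W.O + ∑ i, a i • W.e i))‖ ≤ 2) →
      M.mass (fun x => M.aff ℓ c x ^ 3 * M.Lam (W.O + ∑ i, a i • W.e i) x ^ (1 + 2 / (n : ℝ))) Cc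
        ≤ ENNReal.ofReal (C₁ * D₁) * M.mass (fun _ => 1) Cc)
    (h₂ : ∀ U, M.Cap (W.O + ∑ i, a i • W.e i) T (κ / (8 * j)) U →
      M.mass (fun _ => 1) U ≤ ENNReal.ofReal (C₂ * D₂)) :
    M.mass (fun x => M.Lam (W.O + ∑ i, a i • W.e i) x ^ (1 + 2 / (n : ℝ))) (cl_box M W R a) ≤
      ENNReal.ofReal (64 * (C₁ * C₂) * (D₁ * D₂)) := by
  have hj' : (1 : ℝ) ≤ j := by exact_mod_cast hj
  have h0 := cl_a_pos hG ha
  have hle := cl_a_le hj hG ha hs
  have hd := hG.d_pos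
  obtain ⟨hPK, hPT⟩ := cl_T_ray hj hA hG hR ha hs hT1 (c := a)
    fun i => ⟨by linarith [ha i], by linarith [h0 i]⟩
  set P := W.O + ∑ i, a i • W.e i with hP
  set ℓ : A n →L[ℝ] ℝ := -∑ i, (2 * j * a i)⁻¹ • W.y i with hℓ
  set c : ℝ := 1 - ∑ i, (2 * j * a i)⁻¹ * (W.d - W.y i W.O) with hc
  have ht : ∀ X, ℓ X + c = 1 - ∑ i, (2 * j * a i)⁻¹ * (W.y i (X - W.O) + W.d) := by
    intro X
    have e : ∀ i, (2 * j * a i)⁻¹ * (W.y i (X - W.O) + W.d) =
        (2 * j * a i)⁻¹ * W.y i X + (2 * j * a i)⁻¹ * (W.d - W.y i W.O) := fun i => by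
      rw [map_sub]; ring
    simp only [e, Finset.sum_add_distrib, hℓ, hc, neg_apply, FunLike.coe_sum, Finset.sum_apply,
      smul_apply, smul_eq_mul]
    ring
  have ht1 : ∀ X, (∀ i, W.y i (X - W.O) ≤ a i) → 1 / 4 ≤ ℓ X + c := by
    intro X hX
    have h1 : ∑ i, (2 * j * a i)⁻¹ * (W.y i (X - W.O) + W.d) ≤ ∑ _i : Fin j, 3 / (4 * (j : ℝ)) := by
      refine Finset.sum_le_sum fun i _ => ?_
      have := h0 i
      rw [inv_mul_eq_div, div_le_div_iff₀ (by positivity) (by positivity)]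
      nlinarith [hX i, ha i]
    rw [Finset.sum_const, Finset.card_univ, Fintype.card_fin, nsmul_eq_mul,
      show (j : ℝ) * (3 / (4 * j)) = 3 / 4 by field_simp] at h1
    rw [ht]
    linarith
  have hyt : ∀ x ∈ W.CR M R, ∀ i, 0 ≤ (2 * j * a i)⁻¹ * (W.y i (M.X x - W.O) + W.d) := by
    intro x hx i
    have := h0 i
    have := hG.yt_ge x hx i
    rw [cl_yt] at this
    exact mul_nonneg (by positivity) (by linarith)
  set Cc : Set (E n) := W.CR M R ∩ M.aff ℓ c ⁻¹' Set.Ici 0 with hCc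
  have hin : ∀ x ∈ Cc, ∀ i, W.y i (M.X x - W.O) + W.d ≤ 2 * j * a i := by
    intro x hx i
    have h1 : 0 ≤ ℓ (M.X x) + c := hx.2
    have h2 := Finset.single_le_sum (fun l _ => hyt x hx.1 l) (Finset.mem_univ i)
    have := h0 i
    rw [ht] at h1
    have h3 : (2 * j * a i)⁻¹ * (W.y i (M.X x - W.O) + W.d) ≤ 1 := by linarith
    rwa [inv_mul_le_iff₀ (by positivity), mul_one] at h3
  have hcl : IsClosed Cc :=
    ((M.contDiffOn_aff ℓ c).continuousOn.mono fun _ hx => hx.1).preimage_isClosed_of_isClosed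
      hG.compact.isClosed isClosed_Ici
  have hnear : ∀ x ∈ Cc, ‖T.symm (M.X x - P)‖ ≤ 2 := fun x hx =>
    cl_near (O := W.O) (hT1 _ (M.X_mem_K hx.1.1) fun i => by linarith [hin x hx i])
      (by rwa [hP, add_sub_cancel_left])
  have hsc : ContinuousOn (W.s M) M.Ω :=
    continuousOn_finsetSum _ fun i _ => (M.contDiffOn_aff _ _).continuousOn
  have k1 := h₁ (M.Ω ∩ W.s M ⁻¹' Set.Iio R) Cc ℓ c
    (hsc.isOpen_inter_preimage M.isOpen isOpen_Iio) Set.inter_subset_left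
    (hG.compact.of_isClosed_subset hcl Set.inter_subset_left) (fun x hx => ⟨hx.1.1, ?_⟩)
    (fun x hx => ⟨fun h => h.2, fun h => ⟨⟨hx.1, le_of_lt hx.2⟩, h⟩⟩) (fun x hx => ?_) hPK
    (by linarith [ht1 P fun i => by rw [hP, add_sub_cancel_left, cl_y hA]]) hnear
  · have k2 := h₂ Cc ⟨hcl.measurableSet, fun _ hx => hx.1.1, hnear,
      cl_ball' hj hA hG hR ha hs hT2 fun i => ⟨by linarith [h0 i], le_rfl⟩⟩
    have hsub : cl_box M W R a ⊆ Cc := fun x hx =>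
      ⟨hx.1, le_trans (by norm_num) (ht1 _ hx.2)⟩
    have hg : ContinuousOn (fun x => M.aff ℓ c x ^ 3 * M.Lam P x ^ (1 + 2 / (n : ℝ)))
        (cl_box M W R a) :=
      (((M.contDiffOn_aff ℓ c).continuousOn.pow 3).mul ((M.contDiffOn_Lam P).continuousOn.rpow_const
        fun _ _ => Or.inr (by positivity))).mono (cl_box_sub a)
    refine (cl_mass_le M (cl_box_meas hG a) (cl_box_sub a) (h := fun _ => 0) hg (α := 64) (β := 0)
      (by norm_num) le_rfl fun x hx => ?_).trans ?_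
    · have h1 : (1 / 4) ^ 3 ≤ M.aff ℓ c x ^ 3 := pow_le_pow_left₀ (by norm_num) (ht1 _ hx.2) 3
      have h2 : 0 ≤ M.Lam P x ^ (1 + 2 / (n : ℝ)) :=
        Real.rpow_nonneg (M.Lam_nonneg hPK (cl_box_sub a hx)) _
      nlinarith [mul_le_mul_of_nonneg_right h1 h2]
    · rw [ENNReal.ofReal_zero, zero_mul, add_zero,
        show 64 * (C₁ * C₂) * (D₁ * D₂) = 64 * (C₁ * D₁ * (C₂ * D₂)) by ring,
        ENNReal.ofReal_mul (by norm_num), ENNReal.ofReal_mul hC₁]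
      exact mul_le_mul_right ((cl_mass_mono M _ hsub).trans (k1.trans (mul_le_mul_right k2 _))) _
  · refine lt_of_le_of_lt (Finset.sum_le_sum (g := fun i => 2 * j * a i) fun i _ => ?_) ?_
    · rw [cl_yt]
      exact hin x hx i
    · have : 0 < ∑ i, a i := Finset.sum_pos (fun i _ => h0 i) ⟨⟨0, hj⟩, Finset.mem_univ _⟩
      rw [← Finset.mul_sum]
      nlinarith
  · have h1 := Finset.sum_nonneg fun l (_ : l ∈ Finset.univ) => hyt x hx.1 l
    have h2 := ht (M.X x)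
    change ℓ (M.X x) + c ≤ 1
    linarith

include hj hκ hA hG hR ha hs hT1 in
lemma cl_thin {ε : ℝ} (hε : 0 < ε) (hε1 : ε ≤ 1) (i : Fin j) (hd : W.d ≤ ε * a i) :
    ∃ (P' : A n) (T' : A n ≃L[ℝ] A n),
      M.Cap P' T' κ (cl_box M W R (Function.update a i (ε * a i))) ∧
      |(T' : A n →L[ℝ] A n).det| ≤
        (2 / κ) ^ (Module.finrank ℝ (A n) - 1) / κ * ε * |(T : A n →L[ℝ] A n).det| := by
  have h0 := cl_a_pos hG ha
  have hle := cl_a_le hj hG ha hs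
  have hb : ∀ l, W.d ≤ Function.update a i (ε * a i) l ∧ Function.update a i (ε * a i) l ≤ a l := by
    intro l
    by_cases hl : l = i
    · rw [hl, Function.update_self]
      exact ⟨hd, mul_le_of_le_one_left (h0 i).le hε1⟩
    · rw [Function.update_of_ne hl]
      exact ⟨by linarith [ha l, h0 l], le_rfl⟩
  have hbi : Function.update a i (ε * a i) i = ε * a i := Function.update_self _ _ _
  generalize Function.update a i (ε * a i) = b at hb hbi ⊢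
  obtain ⟨T', h1, h2⟩ := hA.cell b fun l => ⟨(hb l).1, by linarith [hb l, hle l, h0 l]⟩
  obtain ⟨hPK, hPT⟩ := cl_T_ray hj hA hG hR ha hs hT1 (c := b)
    fun l => ⟨(hb l).1, by linarith [hb l, h0 l]⟩
  obtain ⟨-, hPT'⟩ := cl_T_ray hj hA hG hR ha hs hT1 (c := a)
    fun i => ⟨by linarith [ha i, h0 i], by linarith [h0 i]⟩
  refine ⟨W.O + ∑ l, b l • W.e l, T', ⟨cl_box_meas hG b, cl_box_sub b, fun x hx =>
    cl_near (O := W.O) (h1 _ (M.X_mem_K hx.1.1) hx.2) (h1 _ hPK fun l => ?_),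
    fun v hv => (h2 v hv).1⟩, cl_det T T' (W.y i) hκ (h0 i) hε.le (fun v hv => ?_) hPT'
      (cl_y hA a i) fun v hv => hbi ▸ (h2 v hv).2 i⟩
  · rw [add_sub_cancel_left, cl_y hA]
  · have h3 := hT1 _ (h2 v hv).1 fun l => by
      rw [add_assoc, add_sub_cancel_left, map_add, cl_y hA]
      linarith [hb l, hle l, (abs_le.1 ((h2 v hv).2 l)).2]
    have := cl_near (P := W.O + ∑ l, b l • W.e l) h3 (by rwa [add_sub_cancel_left])
    rwa [add_sub_cancel_left] at this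

include hj hκ hA hG hR ha hs hT1 hT2 in
lemma cl_G {x : E n} (hx : x ∈ cl_box M W R a) (hd : ∀ i, W.d ≤ W.yt M i x) :
    0 < W.G M x ∧ W.G M x ≤ 5 / (κ / (8 * j)) * M.Lam (W.O + ∑ i, a i • W.e i) x := by
  have hj' : (1 : ℝ) ≤ j := by exact_mod_cast hj
  have h0 := cl_a_pos hG ha
  have hle := cl_a_le hj hG ha hs
  have hκ' : 0 < κ / (8 * j) := by positivity
  have hb := cl_ball' hj hA hG hR ha hs hT2 (c := a) fun i => ⟨by linarith [h0 i], le_rfl⟩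
  have hL := M.Lam_pos_of_ball hκ' hb hx.1.1
  have hν : ∀ (w : A n) (r : ℝ), ‖T.symm w‖ ≤ r →
      M.nuv w x ≤ r * ((κ / (8 * j))⁻¹ * M.Lam (W.O + ∑ i, a i • W.e i) x) := by
    intro w r hw
    have h1 := M.nuv_le_Lam hκ' hb hx.1.1 (T.symm w)
    rw [T.apply_symm_apply, div_eq_mul_inv, mul_assoc] at h1
    exact (le_abs_self _).trans (h1.trans (mul_le_mul_of_nonneg_right hw (by positivity)))
  have h1 : W.Lm M x ≤ 2 * ((κ / (8 * j))⁻¹ * M.Lam (W.O + ∑ i, a i • W.e i) x) := by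
    refine hν (W.O1 - M.X x) 2 (cl_near (O := W.O) ?_ (hT1 _ (M.X_mem_K hx.1.1) fun i => by
      linarith [hx.2 i, hle i, h0 i]))
    rw [WD.O1, add_sub_cancel_left, Finset.smul_sum]
    exact (cl_T_ray hj hA hG hR ha hs hT1 (c := fun _ => W.d)
      fun i => ⟨le_rfl, by linarith [ha i, h0 i]⟩).2
  have h2 : ∑ i, W.yt M i x * W.nui M i x ≤
      1 * ((κ / (8 * j))⁻¹ * M.Lam (W.O + ∑ i, a i • W.e i) x) := by
    refine le_trans (le_of_eq ?_) (hν (∑ i, W.yt M i x • W.e i) 1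
      (cl_T_ray hj hA hG hR ha hs hT1 (c := fun i => W.yt M i x) fun i => ⟨hd i, ?_⟩).2)
    · simp only [WD.nui, AM.nuv, inner_sum, real_inner_smul_right]
    · rw [cl_yt]
      linarith [hx.2 i, ha i, h0 i]
  have h3 : -(W.δ * W.Lm M x / 2) ≤ ∑ i, W.yt M i x * W.nui M i x := by
    refine le_trans (le_of_eq ?_) (Finset.sum_le_sum fun i _ => hG.nui_ge x hx.1 i)
    rw [Finset.sum_const, Finset.card_univ, Fintype.card_fin, nsmul_eq_mul]
    field_simp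
  have h4 := hG.Lm_pos x hx.1
  have h5 := mul_pos hG.δ_pos h4
  have h6 := mul_le_mul_of_nonneg_right hG.δ_le h4.le
  have h7 : 0 < (κ / (8 * j))⁻¹ * M.Lam (W.O + ∑ i, a i • W.e i) x := by positivity
  rw [div_eq_mul_inv 5, mul_assoc]
  unfold WD.G WD.Bt
  constructor <;> linarith

end aux

theorem cell_lower (n j : ℕ) (hn : 1 ≤ n) (hj : 1 ≤ j) {κ : ℝ} (hκ : 0 < κ) (hκ1 : κ ≤ 1) :
    ∃ ε₀ c₀ : ℝ, 0 < ε₀ ∧ ε₀ ≤ 1 / 4 ∧ 0 < c₀ ∧
    ∀ (M : AM n) (W : WD n j) (R R₂ : ℝ), ApproxW M.K W.O W.e W.y κ W.d R₂ → W.Good M R →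
      R ≤ R₂ → ∀ a : Fin j → ℝ, (∀ i, W.d ≤ ε₀ * a i) → 4 * j * ∑ i, a i ≤ R →
      ENNReal.ofReal c₀ ≤ M.mass (fun x => W.G M x ^ (-(n : ℝ) / 2))
        (W.CR M R ∩ {x | ∀ i, ε₀ * a i < W.yt M i x ∧ W.yt M i x ≤ 2 * a i}) := by
  have hj' : (1 : ℝ) ≤ j := by exact_mod_cast hj
  have n0 : (0 : ℝ) < n := by exact_mod_cast hn
  have hκ' : 0 < κ / (8 * j) := by positivity
  obtain ⟨CE, hCE, hE⟩ := energy_bound n hn
  obtain ⟨C₁, hC₁, hM₁⟩ := mass_bounds n hκ'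
  obtain ⟨C₂, hC₂, hM₂⟩ := mass_bounds n hκ
  obtain ⟨c, hc, hvol⟩ := cl_vol n hκ'
  obtain ⟨K, K', hK, hK', hnum⟩ := cl_num hn (η := c / (3 * (j + 1) * (64 * (CE * C₁))))
    (by positivity)
  obtain ⟨ε, hε, hε1, hε2⟩ := cl_eps (p := (n : ℝ) / (n + 2))
    (C := (2 / κ) ^ (Module.finrank ℝ (A n) - 1) / κ) (η := c / (3 * j * (K * C₂)))
    (by positivity) (by positivity) (by positivity)
  have hk : 0 < K' * (5 / (κ / (8 * j))) ^ ((n : ℝ) / 2) := by positivity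
  refine ⟨ε, c / (3 * (K' * (5 / (κ / (8 * j))) ^ ((n : ℝ) / 2))), hε, hε1, by positivity,
    fun M W R R₂ hA hG hR a hd hs => ?_⟩
  have h0 : ∀ i, 0 < a i := fun i => (mul_pos_iff_of_pos_left hε).1 (hG.d_pos.trans_le (hd i))
  have ha : ∀ i, W.d ≤ a i / 4 := fun i => by nlinarith [hd i, h0 i]
  have hle := cl_a_le hj hG ha hs
  obtain ⟨T, hT1, hT2⟩ := hA.cell (fun i => 2 * j * a i) fun i =>
    ⟨by linarith [ha i, h0 i, hle i], by linarith [h0 i, hle i]⟩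
  have hD := cl_det_pos T
  have k1 := cl_cone hj hκ hA hG hR ha hs hT2 hvol
  have k2 := cl_energy hj hA hG hR ha hs hT1 hT2 (by positivity) (hE M _ T)
    fun U hU => (hM₁ M _ T U hU).2.2
  have k3 := fun i => cl_thin hj hκ hA hG hR ha hs hT1 hε (by linarith) i (hd i)
  have k4 := fun x hx => cl_G hj hκ hA hG hR ha hs hT1 hT2 (x := x) hx
  have hL : ∀ x ∈ M.Ω, 0 < M.Lam (W.O + ∑ i, a i • W.e i) x := fun x hx =>
    M.Lam_pos_of_ball hκ' (cl_ball' hj hA hG hR ha hs hT2 (c := a)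
      fun i => ⟨by linarith [h0 i], le_rfl⟩) hx
  obtain ⟨α, β, hα, hβ, e1, e2, hz⟩ := hnum _ hD
  generalize W.O + ∑ i, a i • W.e i = P at k1 k2 k4 hL
  generalize |(T : A n →L[ℝ] A n).det| = D at hD k1 k2 k3 e1 e2 hz
  have hg : ContinuousOn (fun x => M.Lam P x ^ (1 + 2 / (n : ℝ))) M.Ω :=
    (M.contDiffOn_Lam P).continuousOn.rpow_const fun _ _ => Or.inr (by positivity)
  have k5 : ∀ Q ⊆ cl_box M W R a, ENNReal.ofReal α *
      M.mass (fun x => M.Lam P x ^ (1 + 2 / (n : ℝ))) Q ≤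
        ENNReal.ofReal (c / (3 * (j + 1)) * D) := by
    intro Q hQ
    refine (mul_le_mul_right ((cl_mass_mono M _ hQ).trans k2) _).trans (le_of_eq ?_)
    rw [← ENNReal.ofReal_mul hα, mul_left_comm, e1]
    congr 1
    field_simp
  have hsub : ∀ i, cl_box M W R (Function.update a i (ε * a i)) ⊆ cl_box M W R a := by
    intro i x hx
    refine ⟨hx.1, fun l => (hx.2 l).trans ?_⟩
    by_cases hl : l = i
    · rw [hl, Function.update_self]
      nlinarith [h0 i]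
    · rw [Function.update_of_ne hl]
  have hmain : ∀ x ∈ cl_box M W R a \ ⋃ i, cl_box M W R (Function.update a i (ε * a i)), ∀ i,
      ε * a i < W.yt M i x ∧ W.yt M i x ≤ 2 * a i := by
    intro x hx i
    rw [cl_yt]
    refine ⟨?_, by linarith [hx.1.2 i, ha i, h0 i]⟩
    by_contra h1
    refine hx.2 (Set.mem_iUnion.2 ⟨i, hx.1.1, fun l => ?_⟩)
    by_cases hl : l = i
    · rw [hl, Function.update_self]
      linarith [hG.d_pos]
    · rw [Function.update_of_ne hl]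
      exact hx.1.2 l
  refine cl_final (j := j) hD hk (η := c / (3 * (j + 1))) (θ := c / (3 * j)) (by positivity)
    (by positivity) (le_of_eq (by field_simp)) (le_of_eq (by field_simp))
    (k1.trans ((cl_mass_cover M _ fun i => cl_box M W R (Function.update a i (ε * a i))).trans
      (add_le_add ?_ (Finset.sum_le_sum fun i _ => ?_))))
  · have hΩ : cl_box M W R a \ ⋃ i, cl_box M W R (Function.update a i (ε * a i)) ⊆ M.Ω :=
      fun x hx => hx.1.1.1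
    refine (cl_mass_le M ((cl_box_meas hG a).diff (MeasurableSet.iUnion fun i => cl_box_meas hG _))
      hΩ (h := fun x => W.G M x ^ (-(n : ℝ) / 2)) (hg.mono hΩ) hα (mul_pos hk hD).le
      fun x hx => (hz _ (hL x (hΩ hx))).2.trans (add_le_add le_rfl ?_)).trans
      (add_le_add (k5 _ Set.sdiff_subset)
        (mul_le_mul_right (cl_mass_mono M _ fun x hx => Set.mem_inter hx.1.1 (hmain x hx)) _))
    obtain ⟨h1, h2⟩ := k4 x hx.1 fun i => (hd i).trans (hmain x hx i).1.le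
    have h3 : 0 < 5 / (κ / (8 * j)) := by positivity
    have h4 := Real.rpow_le_rpow_of_nonpos h1 h2 (show -(n : ℝ) / 2 ≤ 0 by linarith)
    rw [Real.mul_rpow h3.le (hL x (hΩ hx)).le] at h4
    have h5 : (5 / (κ / (8 * j))) ^ ((n : ℝ) / 2) * (5 / (κ / (8 * j))) ^ (-(n : ℝ) / 2) = 1 := by
      rw [← Real.rpow_add h3, show (n : ℝ) / 2 + -(n : ℝ) / 2 = 0 by ring, Real.rpow_zero]
    have h6 := mul_le_mul_of_nonneg_left h4 (Real.rpow_pos_of_pos h3 ((n : ℝ) / 2)).le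
    rw [← mul_assoc, h5, one_mul] at h6
    refine (mul_le_mul_of_nonneg_left h6 (mul_pos hK' hD).le).trans (le_of_eq ?_)
    ring
  · obtain ⟨P', T', h1, h2⟩ := k3 i
    refine (cl_mass_le M (cl_box_meas hG _) (cl_box_sub _) (h := fun _ => 1)
      (hg.mono (cl_box_sub _)) hα hβ fun x hx => ?_).trans (add_le_add (k5 _ (hsub i)) ?_)
    · rw [mul_one]
      exact (hz _ (hL x (cl_box_sub _ hx))).1
    · refine (mul_le_mul_right (hM₂ M P' T' _ h1).2.2 _).trans ?_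
      rw [← ENNReal.ofReal_mul hβ]
      refine ENNReal.ofReal_le_ofReal ?_
      have h3 := Real.rpow_le_rpow (abs_nonneg _) h2 (show 0 ≤ (n : ℝ) / (n + 2) by positivity)
      rw [Real.mul_rpow (by positivity) hD.le] at h3
      have h4 := h3.trans (mul_le_mul_of_nonneg_right hε2 (Real.rpow_nonneg hD.le _))
      refine (mul_le_mul_of_nonneg_left (mul_le_mul_of_nonneg_left h4 hC₂.le) hβ).trans
        (le_of_eq ?_)
      rw [← mul_assoc C₂, mul_left_comm, e2]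
      field_simp

end Crest.Agent.R236
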