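import Crest.Agent.R236.CoreA0

/-!
# Row 236: completeness of the graph metric implies that the epigraph is closed

Suppose `(x̄, t̄)` lies in the closure of the epigraph.  The support inequality
`u x + Du(x)(z - x) ≤ u z` passes to the closure.  If `x̄ ∈ Ω` this gives `u x̄ ≤ t̄`.  Otherwise fix
`x₀ ∈ Ω`; the points `x_s = x₀ + s (x̄ - x₀)`, `s < 1`, lie in `Ω`, `φ(s) = u(x_s)` has derivative
`≥ c = φ'(0)` and is bounded above, so `F(s) = φ(s) + (2|c| + ‖v‖) s` is monotone and bounded, and the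
graph length of the segment `[x_a, x_b]` is at most `|F b - F a|`.  So `x_{s_k}` is Cauchy for
`riemDist`; its limit `p ∈ Ω` equals `x̄` because `riemDist ≥` Euclidean distance.
-/

set_option autoImplicit false
open scoped ContDiff Topology
open Crest.GeometryTopology.CoordMetric Crest.GeometryTopology.AffineMaximal MeasureTheory

namespace Crest.Agent.R236

variable {n : ℕ}

lemma cl_hasDerivAt_line {Ω : Set (E n)} (hΩ : IsOpen Ω) {f : E n → ℝ} (hf : ContDiffOn ℝ ∞ f Ω)
    {x v : E n} {t : ℝ} (ht : x + t • v ∈ Ω) :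
    HasDerivAt (fun s : ℝ => f (x + s • v)) (fderiv ℝ f (x + t • v) v) t := by
  have h1 : DifferentiableAt ℝ f (x + t • v) :=
    (hf.contDiffAt (hΩ.mem_nhds ht)).differentiableAt (by simp)
  have h2 : HasDerivAt (fun s : ℝ => x + s • v) v t := by
    simpa using ((hasDerivAt_id t).smul_const v).const_add x
  exact h1.hasFDerivAt.comp_hasDerivAt t h2

lemma cl_hasDerivAt_grad {Ω : Set (E n)} (hΩ : IsOpen Ω) {u : E n → ℝ} (hu : ContDiffOn ℝ ∞ u Ω)
    {x v : E n} {t : ℝ} (ht : x + t • v ∈ Ω) :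
    HasDerivAt (fun s : ℝ => fderiv ℝ u (x + s • v) v)
      (∑ i, ∑ j, hessianMat u (x + t • v) i j * v i * v j) t := by
  have h1 : ∀ j, HasDerivAt (fun s : ℝ => pderiv j u (x + s • v) * v j)
      (fderiv ℝ (pderiv j u) (x + t • v) v * v j) t := fun j =>
    (cl_hasDerivAt_line hΩ (contDiffOn_pderiv hΩ hu j) ht).mul_const _
  have h2 := HasDerivAt.fun_sum (u := Finset.univ) fun j _ => h1 j
  have e1 : (fun s : ℝ => fderiv ℝ u (x + s • v) v) =
      fun s : ℝ => ∑ i, pderiv i u (x + s • v) * v i := by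
    ext s
    rw [fderiv_apply_eq_sum]
  have e2 : ∑ i, ∑ j, hessianMat u (x + t • v) i j * v i * v j =
      ∑ i, fderiv ℝ (pderiv i u) (x + t • v) v * v i := by
    simp only [fderiv_apply_eq_sum, Finset.sum_mul]
    rw [Finset.sum_comm]
    rfl
  rw [e1, e2]
  exact h2

lemma cl_qf_nonneg {H : Matrix (Fin n) (Fin n) ℝ} (hH : H.PosDef) (v : E n) :
    0 ≤ ∑ i, ∑ j, H i j * v i * v j := by
  have h := hH.posSemidef.dotProduct_mulVec_nonneg (fun i => v i)
  refine h.trans_eq ?_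
  simp only [dotProduct, Matrix.mulVec, Finset.mul_sum, star_trivial]
  refine Finset.sum_congr rfl fun i _ => Finset.sum_congr rfl fun j _ => ?_
  ring

lemma cl_mono {Ω : Set (E n)} (hΩ : IsOpen Ω) {u : E n → ℝ} (hu : ContDiffOn ℝ ∞ u Ω)
    (hconv : ∀ x ∈ Ω, (hessianMat u x).PosDef) {x v : E n} {D : Set ℝ} (hD : Convex ℝ D)
    (hDΩ : ∀ t ∈ D, x + t • v ∈ Ω) :
    MonotoneOn (fun s : ℝ => fderiv ℝ u (x + s • v) v) D := by
  refine monotoneOn_of_deriv_nonneg hD (fun t ht => ?_) (fun t ht => ?_) (fun t ht => ?_)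
  · exact (cl_hasDerivAt_grad hΩ hu (hDΩ t ht)).continuousAt.continuousWithinAt
  · exact (cl_hasDerivAt_grad hΩ hu
      (hDΩ t (interior_subset ht))).differentiableAt.differentiableWithinAt
  · have h := hDΩ t (interior_subset ht)
    rw [(cl_hasDerivAt_grad hΩ hu h).deriv]
    exact cl_qf_nonneg (hconv _ h) v

lemma cl_support_le {Ω : Set (E n)} (hΩ : IsOpen Ω) (hΩc : Convex ℝ Ω) {u : E n → ℝ}
    (hu : ContDiffOn ℝ ∞ u Ω) (hconv : ∀ x ∈ Ω, (hessianMat u x).PosDef) {x z : E n}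
    (hx : x ∈ Ω) (hz : z ∈ Ω) : u x + fderiv ℝ u x (z - x) ≤ u z := by
  have hl : ∀ t ∈ Set.Icc (0 : ℝ) 1, x + t • (z - x) ∈ Ω := fun t ht =>
    hΩc.add_smul_sub_mem hx hz ht
  obtain ⟨θ, hθ, h⟩ := exists_hasDerivAt_eq_slope (fun s : ℝ => u (x + s • (z - x)))
    (fun s : ℝ => fderiv ℝ u (x + s • (z - x)) (z - x)) one_pos
    (fun t ht => (cl_hasDerivAt_line hΩ hu (hl t ht)).continuousAt.continuousWithinAt)
    (fun t ht => cl_hasDerivAt_line hΩ hu (hl t (Set.Ioo_subset_Icc_self ht)))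
  have h2 := cl_mono hΩ hu hconv (convex_Icc 0 1) hl (Set.left_mem_Icc.2 zero_le_one)
    (Set.Ioo_subset_Icc_self hθ) hθ.1.le
  simp only [zero_smul, add_zero, one_smul, add_sub_cancel, sub_zero, div_one] at h h2
  linarith

lemma cl_quadForm (u : E n → ℝ) (x v : E n) :
    quadForm (graphMetric u) x v = ‖v‖ ^ 2 + (fderiv ℝ u x v) ^ 2 := by
  rw [EuclideanSpace.real_norm_sq_eq, fderiv_apply_eq_sum, sq (∑ i, pderiv i u x * v i),
    Finset.sum_mul_sum, ← Finset.sum_add_distrib]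
  simp only [quadForm, graphMetric]
  refine Finset.sum_congr rfl fun i _ => ?_
  simp only [add_mul, Finset.sum_add_distrib, ite_mul, one_mul, zero_mul, Finset.sum_ite_eq,
    Finset.mem_univ, if_true]
  congr 1
  · ring
  · refine Finset.sum_congr rfl fun j _ => ?_
    ring

lemma cl_length_nonneg (g : MetricField n) (γ : ℝ → E n) : 0 ≤ curveLength g γ :=
  intervalIntegral.integral_nonneg zero_le_one fun _ _ => Real.sqrt_nonneg _

lemma cl_riemDist_le (g : MetricField n) {Ω : Set (E n)} {x y : E n}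
    (γ : AdmissiblePath Ω x y) : riemDist g Ω x y ≤ curveLength g γ.1 :=
  ciInf_le ⟨0, by rintro _ ⟨γ, rfl⟩; exact cl_length_nonneg g _⟩ γ

lemma cl_integrand_cont {Ω : Set (E n)} (hΩ : IsOpen Ω) {u : E n → ℝ}
    (hu : ContDiffOn ℝ ∞ u Ω) {γ : ℝ → E n} (hγ : ContDiff ℝ 1 γ)
    (hm : ∀ t ∈ Set.Icc (0 : ℝ) 1, γ t ∈ Ω) :
    ContinuousOn (fun t => Real.sqrt (quadForm (graphMetric u) (γ t) (deriv γ t)))
      (Set.Icc 0 1) := by
  simp only [cl_quadForm]
  have h1 : Continuous (deriv γ) := hγ.continuous_deriv le_rfl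
  have h2 : ContinuousOn (fun t => fderiv ℝ u (γ t)) (Set.Icc 0 1) :=
    (hu.continuousOn_fderiv_of_isOpen hΩ (by simp)).comp hγ.continuous.continuousOn hm
  exact ((h1.norm.continuousOn.pow 2).add ((h2.clm_apply h1.continuousOn).pow 2)).sqrt

lemma cl_norm_le_riemDist {Ω : Set (E n)} (hΩ : IsOpen Ω) (hΩc : Convex ℝ Ω) {u : E n → ℝ}
    (hu : ContDiffOn ℝ ∞ u Ω) {x y : E n} (hx : x ∈ Ω) (hy : y ∈ Ω) :
    ‖y - x‖ ≤ riemDist (graphMetric u) Ω x y := by
  haveI : Nonempty (AdmissiblePath Ω x y) :=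
    ⟨⟨fun t => x + t • (y - x), by fun_prop, by simp, by simp,
      fun t ht => hΩc.add_smul_sub_mem hx hy ht⟩⟩
  refine le_ciInf fun ⟨γ, hγ, h0, h1, hm⟩ => ?_
  have hc : Continuous (deriv γ) := hγ.continuous_deriv le_rfl
  have e : y - x = ∫ t in (0 : ℝ)..1, deriv γ t := by
    rw [intervalIntegral.integral_deriv_eq_sub (fun t _ => hγ.differentiable one_ne_zero t)
      (hc.intervalIntegrable _ _), h0, h1]
  rw [e]
  refine (intervalIntegral.norm_integral_le_integral_norm zero_le_one).trans ?_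
  refine intervalIntegral.integral_mono_on zero_le_one (hc.norm.intervalIntegrable _ _)
    ((cl_integrand_cont hΩ hu hγ hm).intervalIntegrable_of_Icc zero_le_one) fun t _ => ?_
  rw [cl_quadForm]
  exact Real.le_sqrt_of_sq_le (le_add_of_nonneg_right (sq_nonneg _))

/-- graph length of a segment on which the directional derivative is bounded below -/
lemma cl_riemDist_seg {Ω : Set (E n)} (hΩ : IsOpen Ω) {u : E n → ℝ}
    (hu : ContDiffOn ℝ ∞ u Ω) {x v : E n} {c : ℝ} {D : Set ℝ} (hD : Convex ℝ D)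
    (hDΩ : ∀ t ∈ D, x + t • v ∈ Ω) (hc : ∀ t ∈ D, c ≤ fderiv ℝ u (x + t • v) v)
    {a b : ℝ} (ha : a ∈ D) (hb : b ∈ D) :
    riemDist (graphMetric u) Ω (x + a • v) (x + b • v) ≤
      |(u (x + b • v) + (2 * |c| + ‖v‖) * b) - (u (x + a • v) + (2 * |c| + ‖v‖) * a)| := by
  set w : E n := (b - a) • v with hw
  have hpt : ∀ t : ℝ, (x + a • v) + t • w = x + (a + t * (b - a)) • v := fun t => by
    rw [hw, smul_smul, add_smul, add_assoc]
  have hmD : ∀ t ∈ Set.Icc (0 : ℝ) 1, a + t * (b - a) ∈ D := fun t ht => by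
    simpa using hD.add_smul_sub_mem ha hb ht
  have hm : ∀ t ∈ Set.Icc (0 : ℝ) 1, (x + a • v) + t • w ∈ Ω := fun t ht => by
    rw [hpt]; exact hDΩ _ (hmD t ht)
  have hγ : ContDiff ℝ 1 (fun t : ℝ => (x + a • v) + t • w) := by fun_prop
  have hd : ∀ t : ℝ, deriv (fun t : ℝ => (x + a • v) + t • w) t = w := fun t => by
    have : HasDerivAt (fun t : ℝ => (x + a • v) + t • w) w t := by
      simpa using ((hasDerivAt_id t).smul_const w).const_add (x + a • v)
    exact this.deriv
  refine (cl_riemDist_le _ ⟨fun t => (x + a • v) + t • w, hγ, by simp, (hpt 1).trans (by simp),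
    hm⟩).trans ?_
  set K : ℝ := 2 * |c| + ‖v‖ with hK
  set ψ : ℝ → ℝ := fun t => fderiv ℝ u ((x + a • v) + t • w) v + K with hψ
  have hψc : ContinuousOn ψ (Set.Icc 0 1) :=
    (((hu.continuousOn_fderiv_of_isOpen hΩ (by simp)).comp hγ.continuous.continuousOn
      hm).clm_apply continuousOn_const).add continuousOn_const
  have hψi : IntervalIntegrable ψ volume 0 1 := hψc.intervalIntegrable_of_Icc zero_le_one
  have hψ0 : ∀ t ∈ Set.Icc (0 : ℝ) 1,
      ‖v‖ + |fderiv ℝ u ((x + a • v) + t • w) v| ≤ ψ t := fun t ht => by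
    have h := hc _ (hmD t ht)
    rw [← hpt] at h
    have h1 := neg_abs_le c
    have h2 := abs_nonneg c
    simp only [hψ, hK]
    rcases abs_cases (fderiv ℝ u ((x + a • v) + t • w) v) with h3 | h3 <;> linarith [h3.1, h3.2]
  have hFTC : ∫ t in (0 : ℝ)..1, (b - a) * ψ t =
      (u (x + b • v) + K * b) - (u (x + a • v) + K * a) := by
    have := intervalIntegral.integral_eq_sub_of_hasDerivAt
      (f := fun t : ℝ => u ((x + a • v) + t • w) + K * (a + t * (b - a)))
      (f' := fun t => (b - a) * ψ t) (a := 0) (b := 1) (fun t ht => by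
        rw [Set.uIcc_of_le zero_le_one] at ht
        have h1 := cl_hasDerivAt_line hΩ hu (hm t ht)
        have h2 : HasDerivAt (fun t : ℝ => K * (a + t * (b - a))) (K * (b - a)) t := by
          simpa using (((hasDerivAt_id t).mul_const (b - a)).const_add a).const_mul K
        refine (h1.add h2).congr_deriv ?_
        simp only [hψ]
        rw [hw, map_smul, smul_eq_mul]
        ring) (hψi.const_mul _)
    rw [this, hpt, hpt]
    simp
  have hI : 0 ≤ ∫ t in (0 : ℝ)..1, ψ t := intervalIntegral.integral_nonneg zero_le_one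
    fun t ht => le_trans (by positivity) (hψ0 t ht)
  rw [← hFTC, intervalIntegral.integral_const_mul, abs_mul, abs_of_nonneg hI,
    ← intervalIntegral.integral_const_mul]
  refine intervalIntegral.integral_mono_on zero_le_one
    ((cl_integrand_cont hΩ hu hγ hm).intervalIntegrable_of_Icc zero_le_one) (hψi.const_mul _)
    fun t ht => ?_
  rw [cl_quadForm, hd]
  refine le_trans ?_ (mul_le_mul_of_nonneg_left (hψ0 t ht) (abs_nonneg _))
  refine Real.sqrt_le_iff.2 ⟨by positivity, ?_⟩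
  show ‖w‖ ^ 2 + (fderiv ℝ u (x + a • v + t • w)) w ^ 2 ≤ _
  generalize fderiv ℝ u (x + a • v + t • w) = L
  rw [hw, map_smul, norm_smul, smul_eq_mul, Real.norm_eq_abs, mul_pow, mul_pow, mul_pow,
    sq_abs (b - a), ← sq_abs (L v), ← mul_add]
  refine mul_le_mul_of_nonneg_left ?_ (sq_nonneg _)
  nlinarith [mul_nonneg (norm_nonneg v) (abs_nonneg (L v))]

lemma cl_continuous_base : Continuous (base : A n → E n) := by
  unfold base; fun_prop

lemma cl_continuous_ht : Continuous (ht : A n → ℝ) := by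
  unfold ht; fun_prop

theorem isClosed_epi {n : ℕ} {Ω : Set (E n)} (hΩ : IsOpen Ω) (hΩc : Convex ℝ Ω)
    (hΩn : Ω.Nonempty) {u : E n → ℝ} (hu : ContDiffOn ℝ ∞ u Ω)
    (hconv : ∀ x ∈ Ω, (hessianMat u x).PosDef) (hcomp : IsCompleteOn (graphMetric u) Ω) :
    IsClosed (epi Ω u) := by
  refine isClosed_of_closure_subset fun X hX => ?_
  have hsup : ∀ x ∈ Ω, u x + fderiv ℝ u x (base X - x) ≤ ht X := fun x hx => by
    have hcl : IsClosed {Y : A n | u x + fderiv ℝ u x (base Y - x) ≤ ht Y} :=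
      isClosed_le (continuous_const.add ((fderiv ℝ u x).continuous.comp
        (cl_continuous_base.sub continuous_const))) cl_continuous_ht
    exact closure_minimal (fun Y hY => (cl_support_le hΩ hΩc hu hconv hx hY.1).trans hY.2) hcl hX
  suffices hb : base X ∈ Ω by
    refine ⟨hb, ?_⟩
    simpa using hsup _ hb
  have hbc : base X ∈ closure Ω :=
    closure_minimal (s := epi Ω u) (t := base ⁻¹' closure Ω) (fun Y hY => subset_closure hY.1)
      (isClosed_closure.preimage cl_continuous_base) hX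
  obtain ⟨x₀, hx₀⟩ := hΩn
  set v : E n := base X - x₀ with hv
  have hDΩ : ∀ t ∈ Set.Ico (0 : ℝ) 1, x₀ + t • v ∈ Ω := fun t ht => by
    have h := hΩc.combo_interior_closure_mem_interior (x := x₀) (y := base X) (a := 1 - t) (b := t)
      (by rwa [hΩ.interior_eq]) hbc (by linarith [ht.2]) ht.1 (by ring)
    rw [hΩ.interior_eq] at h
    convert h using 1
    rw [hv, smul_sub, sub_smul, one_smul]
    abel
  set c : ℝ := fderiv ℝ u (x₀ + (0 : ℝ) • v) v with hc
  have hcl : ∀ t ∈ Set.Ico (0 : ℝ) 1, c ≤ fderiv ℝ u (x₀ + t • v) v := fun t ht =>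
    cl_mono hΩ hu hconv (convex_Ico 0 1) hDΩ (Set.left_mem_Ico.2 one_pos) ht ht.1
  set K : ℝ := 2 * |c| + ‖v‖ with hK
  have hK0 : 0 ≤ K := by positivity
  set F : ℝ → ℝ := fun t => u (x₀ + t • v) + K * t with hF
  have hFd : ∀ t ∈ Set.Ico (0 : ℝ) 1, HasDerivAt F (fderiv ℝ u (x₀ + t • v) v + K) t :=
    fun t ht => by
      have h2 : HasDerivAt (fun t : ℝ => K * t) K t := by
        simpa using (hasDerivAt_id t).const_mul K
      exact (cl_hasDerivAt_line hΩ hu (hDΩ t ht)).add h2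
  have hFm : MonotoneOn F (Set.Ico 0 1) := by
    refine monotoneOn_of_deriv_nonneg (convex_Ico 0 1)
      (fun t ht => (hFd t ht).continuousAt.continuousWithinAt)
      (fun t ht => (hFd t (interior_subset ht)).differentiableAt.differentiableWithinAt)
      (fun t ht => ?_)
    rw [(hFd t (interior_subset ht)).deriv]
    have := hcl t (interior_subset ht)
    have h1 := neg_abs_le c
    have h2 := abs_nonneg c
    have h3 := norm_nonneg v
    linarith
  have hFb : ∀ t ∈ Set.Ico (0 : ℝ) 1, F t ≤ ht X + |c| + K := fun t ht' => by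
    have h1 := hsup _ (hDΩ t ht')
    have e : base X - (x₀ + t • v) = (1 - t) • v := by
      rw [sub_smul, one_smul, hv]; abel
    rw [e, map_smul, smul_eq_mul] at h1
    have h2 := hcl t ht'
    have h3 := neg_abs_le c
    have h4 := abs_nonneg c
    have h5 : K * t ≤ K := by nlinarith [ht'.2]
    have h6 : -|c| ≤ (1 - t) * fderiv ℝ u (x₀ + t • v) v := by nlinarith [ht'.1, ht'.2]
    simp only [hF]
    linarith
  set s : ℕ → ℝ := fun k => 1 - 1 / ((k : ℝ) + 1) with hs
  have hsD : ∀ k, s k ∈ Set.Ico (0 : ℝ) 1 := fun k => by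
    have h1 : (0 : ℝ) < 1 / ((k : ℝ) + 1) := by positivity
    have h2 : 1 / ((k : ℝ) + 1) ≤ 1 := by
      rw [div_le_one (by positivity)]; linarith [(Nat.cast_nonneg k : (0 : ℝ) ≤ k)]
    exact ⟨by simp only [hs]; linarith, by simp only [hs]; linarith⟩
  have hsm : Monotone s := fun k l hkl => by
    have : 1 / ((l : ℝ) + 1) ≤ 1 / ((k : ℝ) + 1) :=
      one_div_le_one_div_of_le (by positivity) (by exact_mod_cast Nat.succ_le_succ hkl)
    simp only [hs]; linarith
  have hst : Filter.Tendsto s Filter.atTop (𝓝 1) := by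
    simpa [hs] using tendsto_one_div_add_atTop_nhds_zero_nat.const_sub (1 : ℝ)
  have hmon : Monotone fun k => F (s k) := fun k l hkl => hFm (hsD k) (hsD l) (hsm hkl)
  have hcau : CauchySeq fun k => F (s k) :=
    (tendsto_atTop_ciSup hmon ⟨_, by rintro _ ⟨k, rfl⟩; exact hFb _ (hsD k)⟩).cauchySeq
  obtain ⟨p, hp, hlim⟩ := hcomp (fun k => x₀ + s k • v) (fun k => hDΩ _ (hsD k)) (fun ε hε => by
    obtain ⟨N, hN⟩ := Metric.cauchySeq_iff.1 hcau ε hε
    refine ⟨N, fun k hk l hl => ?_⟩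
    refine (cl_riemDist_seg hΩ hu (convex_Ico 0 1) hDΩ hcl (hsD k) (hsD l)).trans_lt ?_
    simpa only [Real.dist_eq] using hN l hl k hk)
  have h1 : Filter.Tendsto (fun k => x₀ + s k • v) Filter.atTop (𝓝 p) := by
    rw [tendsto_iff_norm_sub_tendsto_zero]
    refine squeeze_zero (fun _ => norm_nonneg _) (fun k => ?_) hlim
    rw [norm_sub_rev]
    exact cl_norm_le_riemDist hΩ hΩc hu (hDΩ _ (hsD k)) hp
  have h2 : Filter.Tendsto (fun k => x₀ + s k • v) Filter.atTop (𝓝 (base X)) := by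
    have := (hst.smul_const v).const_add x₀
    simpa [hv] using this
  rwa [tendsto_nhds_unique h2 h1]

end Crest.Agent.R236
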