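import Crest.Agent.R236.CoreA

/-!
# Row 236: cone volume formulas and the mass bounds

Use the map `F(x, s) = P + s (X x - P)` (resp. `(s / hP P x) • N x`) on `U × (0,1)`, viewed as a map
`A n → A n` through `mkA`/`base`/`ht` (`(x, s) ↦ mkA x s` is measure preserving from `E n × ℝ`).
Its Jacobian is `± sⁿ hP P x` (resp. `± sⁿ det / hP^{n+1}`; write the polar map as `τ • N x`,
`τ = s / hP`, or compute the determinant with `Matrix.det_fromBlocks₁₁`/`₂₂` and column operations).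
`lintegral_abs_det_fderiv_eq_addHaar_image` (injective case) and
`addHaar_image_le_lintegral_abs_det_fderiv` (general case); `∫₀¹ sⁿ = 1/(n+1)`.
Injectivity: if `X x' = (1-σ) P + σ X x` with `σ < 1` then pairing with `N x'` gives
`0 = (1-σ) hP P x' + σ hP (X x) x' > 0`; for the polar map use `grad_injOn`.

Mass bounds: if `P + κ T B ⊆ K` then `N x / hP P x` pairs with `T v` to at most `1/κ` in absolute
value, so it lies in `(adjoint T)⁻¹ (ball (1/κ))`, of volume `κ^{-(n+1)} ω / |det T|`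
(`Measure.addHaar_image_linearMap`, `LinearMap.det_adjoint`-type lemma); the cone lies in
`P + T (ball 2)`. Pointwise `Lam / rho = hP` and
`Lam^{-n/2} / rho = √hP · √(det / hP^{n+1}) ≤ (τ hP + τ⁻¹ det / hP^{n+1}) / 2` with `τ = 1/|det T|`.
Finally `1 ≤ Λ̂ + Λ̂^{-n/2}` for `Λ̂ = Lam / |det T|^{2/(n+2)}`.
-/

set_option autoImplicit false
open scoped ContDiff RealInnerProductSpace ENNReal Topology
open Crest.GeometryTopology.CoordMetric Crest.GeometryTopology.AffineMaximal MeasureTheory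

noncomputable section

namespace Crest.Agent.R236

variable {n : ℕ}

lemma cone_mp : MeasurePreserving (fun Y : A n => (base Y, ht Y)) volume
    ((volume : Measure (E n)).prod (volume : Measure ℝ)) :=
  ((PiLp.volume_preserving_toLp (Fin n)).prod (volume_preserving_funUnique Unit ℝ)).comp
    ((volume_measurePreserving_sumPiEquivProdPi (fun _ : Fin n ⊕ Unit => ℝ)).comp
      (PiLp.volume_preserving_ofLp (Fin n ⊕ Unit)))

/-- the domain `U × I` inside the ambient space -/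
def coneDom (U : Set (E n)) (I : Set ℝ) : Set (A n) := {Y | base Y ∈ U ∧ ht Y ∈ I}

lemma cone_meas {U : Set (E n)} (hU : MeasurableSet U) {I : Set ℝ} (hI : MeasurableSet I) :
    MeasurableSet (coneDom U I) :=
  (a1_continuous_base.measurable hU).inter (a1_continuous_ht.measurable hI)

lemma cone_pow_integral :
    ((n : ℝ≥0∞) + 1) * ∫⁻ s in Set.Icc (0 : ℝ) 1, ENNReal.ofReal (s ^ n) = 1 := by
  rw [← ofReal_integral_eq_lintegral_ofReal (Continuous.integrableOn_Icc (by fun_prop))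
    ((ae_restrict_mem measurableSet_Icc).mono fun s hs => pow_nonneg hs.1 n),
    integral_Icc_eq_integral_Ioc, ← intervalIntegral.integral_of_le zero_le_one, integral_pow]
  have h : ((n : ℝ≥0∞) + 1) = ENNReal.ofReal ((n : ℝ) + 1) := by
    rw [ENNReal.ofReal_add (Nat.cast_nonneg n) zero_le_one]
    simp
  rw [h, ← ENNReal.ofReal_mul (by positivity)]
  have h2 : ((n : ℝ) + 1) * ((1 ^ (n + 1) - 0 ^ (n + 1)) / ((n : ℝ) + 1)) = 1 := by
    rw [one_pow, zero_pow (Nat.succ_ne_zero n), sub_zero]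
    field_simp
  rw [h2, ENNReal.ofReal_one]

lemma cone_fubini {U : Set (E n)} (hU : MeasurableSet U) {I : Set ℝ} (hI : MeasurableSet I)
    (hI' : I =ᵐ[volume] Set.Icc (0 : ℝ) 1) {J : E n → ℝ≥0∞}
    (hJ : AEMeasurable J (volume.restrict U)) :
    ((n : ℝ≥0∞) + 1) * ∫⁻ Y in coneDom U I, J (base Y) * ENNReal.ofReal (ht Y ^ n) =
      ∫⁻ x in U, J x := by
  have h1 := (cone_mp (n := n)).restrict_preimage (hU.prod hI)
  rw [← Measure.prod_restrict] at h1
  have hg : AEMeasurable (fun s : ℝ => ENNReal.ofReal (s ^ n)) (volume.restrict I) := by fun_prop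
  have h2 := lintegral_prod_mul hJ hg
  have h3 : AEMeasurable (fun z : E n × ℝ => J z.1 * ENNReal.ofReal (z.2 ^ n))
      ((volume.restrict U).prod (volume.restrict I)) := hJ.comp_fst.mul hg.comp_snd
  rw [← h1.map_eq] at h3
  rw [← h1.map_eq, lintegral_map' h3 h1.aemeasurable] at h2
  have h4 : ∫⁻ Y in coneDom U I, J (base Y) * ENNReal.ofReal (ht Y ^ n) =
      (∫⁻ x in U, J x) * ∫⁻ s in I, ENNReal.ofReal (s ^ n) := h2
  rw [h4, setLIntegral_congr hI', mul_left_comm, cone_pow_integral, mul_one]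

/-- `base` as a continuous linear map -/
def coneBase : A n →L[ℝ] E n :=
  LinearMap.toContinuousLinearMap
    { toFun := base, map_add' := base_add, map_smul' := base_smul }

/-- `ht` as a continuous linear map -/
def coneHt : A n →L[ℝ] ℝ := EuclideanSpace.proj (Sum.inr ())

lemma coneBase_apply (Y : A n) : coneBase Y = base Y := rfl
lemma coneHt_apply (Y : A n) : coneHt Y = ht Y := rfl

/-- the derivative of the cone map -/
def coneD (Φ : E n → A n) (Y : A n) : A n →L[ℝ] A n :=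
  ht Y • (fderiv ℝ Φ (base Y)).comp coneBase + coneHt.smulRight (Φ (base Y))

/-- the matrix with columns `∂_j Φ` and `Φ` -/
def coneMat (Φ : E n → A n) (x : E n) : Matrix (Fin n ⊕ Unit) (Fin n ⊕ Unit) ℝ :=
  Matrix.of fun a b => Sum.elim (fun j => pderiv j (fun z => Φ z a) x) (fun _ => Φ x a) b

lemma cone_hasFDerivAt {Φ : E n → A n} (Q : A n) {Y : A n}
    (h : DifferentiableAt ℝ Φ (base Y)) :
    HasFDerivAt (fun Z : A n => Q + ht Z • Φ (base Z)) (coneD Φ Y) Y := by
  have h1 : HasFDerivAt (fun Z : A n => ht Z) coneHt Y := coneHt.hasFDerivAt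
  have h2 : HasFDerivAt (fun Z : A n => Φ (base Z)) ((fderiv ℝ Φ (base Y)).comp coneBase) Y :=
    h.hasFDerivAt.comp Y (coneBase (n := n)).hasFDerivAt
  exact (h1.fun_smul h2).const_add Q

lemma cone_fderiv_apply {Φ : E n → A n} {x : E n} (h : DifferentiableAt ℝ Φ x) (j : Fin n)
    (a : Fin n ⊕ Unit) :
    fderiv ℝ Φ x (EuclideanSpace.single j 1) a = pderiv j (fun z => Φ z a) x := by
  have h1 : HasFDerivAt (fun z => Φ z a)
      ((EuclideanSpace.proj a : A n →L[ℝ] ℝ).comp (fderiv ℝ Φ x)) x :=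
    (EuclideanSpace.proj a : A n →L[ℝ] ℝ).hasFDerivAt.comp x h.hasFDerivAt
  rw [pderiv, h1.fderiv]
  rfl

lemma cone_det {Φ : E n → A n} {Y : A n} (h : DifferentiableAt ℝ Φ (base Y)) :
    (coneD Φ Y).det = (coneMat Φ (base Y)).det * ht Y ^ n := by
  have e : LinearMap.toMatrix (EuclideanSpace.basisFun (Fin n ⊕ Unit) ℝ).toBasis
      (EuclideanSpace.basisFun (Fin n ⊕ Unit) ℝ).toBasis (coneD Φ Y : A n →ₗ[ℝ] A n) =
      coneMat Φ (base Y) * Matrix.diagonal (Sum.elim (fun _ => ht Y) fun _ => 1) := by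
    ext a b
    rw [LinearMap.toMatrix_apply, Matrix.mul_diagonal]
    simp only [OrthonormalBasis.coe_toBasis, EuclideanSpace.basisFun_apply,
      OrthonormalBasis.coe_toBasis_repr_apply, EuclideanSpace.basisFun_repr,
      ContinuousLinearMap.coe_coe]
    rcases b with j | b
    · have e1 : base (EuclideanSpace.single (Sum.inl j) (1 : ℝ) : A n) =
          EuclideanSpace.single j 1 := by
        ext i
        simp [Pi.single_apply]
      have e2 : ht (EuclideanSpace.single (Sum.inl j) (1 : ℝ) : A n) = 0 := by simp [ht]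
      simp only [coneD, ContinuousLinearMap.add_apply, ContinuousLinearMap.smul_apply,
        ContinuousLinearMap.comp_apply, ContinuousLinearMap.smulRight_apply, coneBase_apply,
        coneHt_apply, e1, e2, zero_smul, add_zero, PiLp.smul_apply, smul_eq_mul,
        cone_fderiv_apply h, coneMat, Matrix.of_apply, Sum.elim_inl, mul_comm]
    · have e1 : base (EuclideanSpace.single (Sum.inr b) (1 : ℝ) : A n) = 0 := by
        ext i
        simp
      have e2 : ht (EuclideanSpace.single (Sum.inr b) (1 : ℝ) : A n) = 1 := by simp [ht]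
      simp only [coneD, ContinuousLinearMap.add_apply, ContinuousLinearMap.smul_apply,
        ContinuousLinearMap.comp_apply, ContinuousLinearMap.smulRight_apply, coneBase_apply,
        coneHt_apply, e1, e2, one_smul, map_zero, smul_zero, zero_add, coneMat, Matrix.of_apply,
        Sum.elim_inr, mul_one]
  rw [ContinuousLinearMap.det,
    ← LinearMap.det_toMatrix (EuclideanSpace.basisFun (Fin n ⊕ Unit) ℝ).toBasis, e,
    Matrix.det_mul, Matrix.det_diagonal]
  simp [Fintype.prod_sum_type]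

lemma cone_jac {Φ : E n → A n} {U : Set (E n)} (hU : MeasurableSet U) {I : Set ℝ}
    (hI : MeasurableSet I) (hI' : I =ᵐ[volume] Set.Icc (0 : ℝ) 1) (hI0 : ∀ s ∈ I, 0 ≤ s)
    (hΦ : ∀ x ∈ U, DifferentiableAt ℝ Φ x) {J : E n → ℝ}
    (hJ : AEMeasurable J (volume.restrict U)) (hdet : ∀ x ∈ U, |(coneMat Φ x).det| = J x) :
    ((n : ℝ≥0∞) + 1) * ∫⁻ Y in coneDom U I, ENNReal.ofReal |(coneD Φ Y).det| =
      ∫⁻ x in U, ENNReal.ofReal (J x) := by
  rw [← cone_fubini hU hI hI' hJ.ennreal_ofReal]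
  congr 1
  refine setLIntegral_congr_fun (cone_meas hU hI) fun Y hY => ?_
  rw [cone_det (hΦ _ hY.1), abs_mul, abs_of_nonneg (pow_nonneg (hI0 _ hY.2) n), hdet _ hY.1,
    ENNReal.ofReal_mul' (pow_nonneg (hI0 _ hY.2) n)]

lemma cone_gen_upper {Φ : E n → A n} {U : Set (E n)} (hU : MeasurableSet U)
    (hΦ : ∀ x ∈ U, DifferentiableAt ℝ Φ x) {J : E n → ℝ}
    (hJ : AEMeasurable J (volume.restrict U)) (hdet : ∀ x ∈ U, |(coneMat Φ x).det| = J x)
    (hinj : ∀ x ∈ U, ∀ x' ∈ U, ∀ s ∈ Set.Ioo (0 : ℝ) 1, ∀ s' ∈ Set.Ioo (0 : ℝ) 1,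
      s • Φ x = s' • Φ x' → x = x' ∧ s = s') {Q : A n} {S : Set (A n)}
    (hS : ∀ x ∈ U, ∀ s ∈ Set.Ioo (0 : ℝ) 1, Q + s • Φ x ∈ S) :
    ∫⁻ x in U, ENNReal.ofReal (J x) ≤ ((n : ℝ≥0∞) + 1) * volume S := by
  rw [← cone_jac hU measurableSet_Ioo Ioo_ae_eq_Icc (fun s hs => hs.1.le) hΦ hJ hdet,
    lintegral_abs_det_fderiv_eq_addHaar_image volume (cone_meas hU measurableSet_Ioo)
      (f := fun Z : A n => Q + ht Z • Φ (base Z))
      (fun Y hY => (cone_hasFDerivAt Q (hΦ _ hY.1)).hasFDerivWithinAt)]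
  · gcongr
    rintro _ ⟨Y, hY, rfl⟩
    exact hS _ hY.1 _ hY.2
  · intro Y hY Y' hY' h
    obtain ⟨h1, h2⟩ := hinj _ hY.1 _ hY'.1 _ hY.2 _ hY'.2 (add_left_cancel h)
    rw [← mkA_base_ht Y, ← mkA_base_ht Y', h1, h2]

lemma cone_gen_lower {Φ : E n → A n} {U : Set (E n)} (hU : MeasurableSet U)
    (hΦ : ∀ x ∈ U, DifferentiableAt ℝ Φ x) {J : E n → ℝ}
    (hJ : AEMeasurable J (volume.restrict U)) (hdet : ∀ x ∈ U, |(coneMat Φ x).det| = J x)
    {Q : A n} {S : Set (A n)}
    (hS : ∀ Y ∈ S, ∃ x ∈ U, ∃ s ∈ Set.Icc (0 : ℝ) 1, Y = Q + s • Φ x) :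
    ((n : ℝ≥0∞) + 1) * volume S ≤ ∫⁻ x in U, ENNReal.ofReal (J x) := by
  rw [← cone_jac hU measurableSet_Icc (Filter.EventuallyEq.refl _ _) (fun s hs => hs.1) hΦ hJ hdet]
  gcongr
  refine le_trans (measure_mono ?_) (addHaar_image_le_lintegral_abs_det_fderiv volume
    (cone_meas hU measurableSet_Icc) (f := fun Z : A n => Q + ht Z • Φ (base Z))
      (fun Y hY => (cone_hasFDerivAt Q (hΦ _ hY.1)).hasFDerivWithinAt))
  intro Y hY
  obtain ⟨x, hx, s, hs, rfl⟩ := hS Y hY
  refine ⟨mkA x s, ⟨by rwa [base_mkA], by rwa [ht_mkA]⟩, ?_⟩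
  simp only [base_mkA, ht_mkA]

namespace AM

variable (M : AM n)

lemma cone_diffAt {F : Type*} [NormedAddCommGroup F] [NormedSpace ℝ F] {f : E n → F}
    (hf : ContDiffOn ℝ ∞ f M.Ω) {x : E n} (hx : x ∈ M.Ω) : DifferentiableAt ℝ f x :=
  (hf.contDiffAt (M.isOpen.mem_nhds hx)).differentiableAt (by simp)

lemma cone_det_X (P : A n) {x : E n} (hx : x ∈ M.Ω) :
    (coneMat (fun z => M.X z - P) x).det = -M.hP P x := by
  have e : coneMat (fun z => M.X z - P) x = Matrix.fromBlocks 1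
      (Matrix.of fun i _ => x i - P (Sum.inl i)) (Matrix.of fun _ j => pderiv j M.u x)
      (Matrix.of fun _ _ => M.u x - ht P) := by
    ext a b
    rcases a with i | a <;> rcases b with j | b
    · have h1 : HasFDerivAt (fun z : E n => z i - P (Sum.inl i))
          (EuclideanSpace.proj i : E n →L[ℝ] ℝ) x :=
        (EuclideanSpace.proj i : E n →L[ℝ] ℝ).hasFDerivAt.sub_const _
      change fderiv ℝ (fun z : E n => z i - P (Sum.inl i)) x (EuclideanSpace.single j 1) = _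
      rw [h1.fderiv]
      simp [Matrix.one_apply, Pi.single_apply]
    · rfl
    · change fderiv ℝ (fun z : E n => M.u z - ht P) x (EuclideanSpace.single j 1) = _
      rw [fderiv_sub_const]
      rfl
    · rfl
  rw [e, Matrix.det_fromBlocks_one₁₁, Matrix.det_unique, AM.hP, inner_A, N, X, base_sub, ht_sub,
    base_mkA, base_mkA, ht_mkA, ht_mkA]
  simp only [Matrix.sub_apply, Matrix.mul_apply, Matrix.of_apply, PiLp.inner_apply, grad,
    PiLp.neg_apply, PiLp.sub_apply, base_apply, RCLike.inner_apply, conj_trivial]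
  have : ∑ i, (P (Sum.inl i) - x i) * -pderiv i M.u x =
      ∑ i, pderiv i M.u x * (x i - P (Sum.inl i)) := Finset.sum_congr rfl fun i _ => by ring
  rw [this]
  ring

lemma cone_det_N (P : A n) {x : E n} (hx : x ∈ M.Ω) (h0 : M.hP P x ≠ 0) :
    (coneMat (fun z => (M.hP P z)⁻¹ • M.N z) x).det =
      (-(M.hP P x)⁻¹) ^ n * M.det x * (M.hP P x)⁻¹ := by
  have hd : DifferentiableAt ℝ (fun z => (M.hP P z)⁻¹) x :=
    (M.cone_diffAt (M.contDiffOn_hP P) hx).fun_inv h0
  have e : coneMat (fun z => (M.hP P z)⁻¹ • M.N z) x =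
      Matrix.fromBlocks ((-(M.hP P x)⁻¹) • (M.H x).transpose)
        (Matrix.of fun i _ => (M.hP P x)⁻¹ * -pderiv i M.u x) 0
        (Matrix.of fun _ _ => (M.hP P x)⁻¹) *
      Matrix.fromBlocks 1 0
        (Matrix.of fun _ j => M.hP P x * pderiv j (fun z => (M.hP P z)⁻¹) x) 1 := by
    rw [Matrix.fromBlocks_multiply]
    ext a b
    rcases a with i | a <;> rcases b with j | b
    · have h1 : DifferentiableAt ℝ (pderiv i M.u) x :=
        M.cone_diffAt (contDiffOn_pderiv M.isOpen M.smooth i) hx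
      have h2 := congrFun (dd_mul hd h1.fun_neg) j
      have h3 : pderiv j (fun z => -pderiv i M.u z) x = -M.H x j i := by
        rw [pderiv, fderiv_fun_neg]
        rfl
      change dd (fun z => (M.hP P z)⁻¹ * -pderiv i M.u z) x j = _
      rw [h2]
      simp only [Pi.add_apply, Pi.smul_apply, smul_eq_mul, dd, h3, Matrix.fromBlocks_apply₁₁,
        Matrix.mul_one, Matrix.add_apply, Matrix.smul_apply, Matrix.transpose_apply,
        Matrix.mul_apply, Matrix.of_apply, Finset.univ_unique, Finset.sum_singleton]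
      field_simp
    · simp only [Matrix.fromBlocks_apply₁₂, Matrix.mul_zero, Matrix.mul_one, zero_add,
        Matrix.of_apply]
      rfl
    · change pderiv j (fun z => (M.hP P z)⁻¹ * 1) x = _
      simp only [mul_one, Matrix.fromBlocks_apply₂₁, Matrix.add_apply, Matrix.zero_apply,
        Matrix.mul_apply, Matrix.of_apply, Finset.univ_unique, Finset.sum_singleton, zero_mul,
        Finset.sum_const_zero, zero_add]
      field_simp
    · simp only [Matrix.fromBlocks_apply₂₂, Matrix.mul_zero, Matrix.mul_one, zero_add,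
        Matrix.of_apply]
      exact mul_one _
  rw [e, Matrix.det_mul, Matrix.det_fromBlocks_zero₂₁, Matrix.det_fromBlocks_zero₁₂,
    Matrix.det_smul, Matrix.det_transpose, Matrix.det_unique (n := Unit), Matrix.det_one,
    Matrix.det_one]
  simp [AM.det]

lemma cone_meas_hP (P : A n) {U : Set (E n)} (hU : MeasurableSet U) (hUΩ : U ⊆ M.Ω) :
    AEMeasurable (M.hP P) (volume.restrict U) :=
  ((M.contDiffOn_hP P).continuousOn.mono hUΩ).aemeasurable hU

lemma cone_le {P : A n} {x x' : E n} (hx : x ∈ M.Ω) (hx' : x' ∈ M.Ω) (hpos : 0 < M.hP P x')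
    {s s' : ℝ} (hs : 0 ≤ s) (h : s • (M.X x - P) = s' • (M.X x' - P)) : s' ≤ s := by
  have h1 := congrArg (fun Y => ⟪M.N x', Y⟫) h
  simp only [real_inner_smul_right] at h1
  have h2 : ⟪M.N x', M.X x - P⟫ = M.hP (M.X x) x' - M.hP P x' := by
    rw [AM.hP, AM.hP, ← inner_sub_right]
    congr 1
    abel
  have h3 : ⟪M.N x', M.X x' - P⟫ = -M.hP P x' := by
    rw [AM.hP, ← inner_neg_right, neg_sub]
  rw [h2, h3] at h1
  have h4 := mul_nonneg hs (M.hP_nonneg (M.X_mem_K hx) hx')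
  by_contra hc
  rw [not_le] at hc
  nlinarith [mul_pos (sub_pos.2 hc) hpos]

theorem cone_upper {U : Set (E n)} (hU : MeasurableSet U) (hUΩ : U ⊆ M.Ω) {P : A n}
    (hpos : ∀ x ∈ U, 0 < M.hP P x) {S : Set (A n)}
    (hS : ∀ x ∈ U, ∀ s ∈ Set.Ioo (0 : ℝ) 1, P + s • (M.X x - P) ∈ S) :
    ∫⁻ x in U, ENNReal.ofReal (M.hP P x) ≤ ((n : ℝ≥0∞) + 1) * volume S := by
  refine cone_gen_upper (Φ := fun z => M.X z - P) hU
    (fun x hx => (M.cone_diffAt M.contDiffOn_X (hUΩ hx)).sub_const P) (M.cone_meas_hP P hU hUΩ)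
    (fun x hx => by rw [M.cone_det_X P (hUΩ hx), abs_neg, abs_of_pos (hpos x hx)])
    (fun x hx x' hx' s hs s' hs' h => ?_) hS
  have e : s = s' := le_antisymm (M.cone_le (hUΩ hx') (hUΩ hx) (hpos x hx) hs'.1.le h.symm)
    (M.cone_le (hUΩ hx) (hUΩ hx') (hpos x' hx') hs.1.le h)
  subst e
  have h1 := congrArg base (sub_left_injective (smul_right_injective _ hs.1.ne' h))
  rw [X, X, base_mkA, base_mkA] at h1
  exact ⟨h1, rfl⟩

theorem cone_lower {U : Set (E n)} (hU : MeasurableSet U) (hUΩ : U ⊆ M.Ω) {P : A n}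
    (hpos : ∀ x ∈ U, 0 ≤ M.hP P x) {S : Set (A n)}
    (hS : ∀ Y ∈ S, ∃ x ∈ U, ∃ s ∈ Set.Icc (0 : ℝ) 1, Y = P + s • (M.X x - P)) :
    ((n : ℝ≥0∞) + 1) * volume S ≤ ∫⁻ x in U, ENNReal.ofReal (M.hP P x) :=
  cone_gen_lower (Φ := fun z => M.X z - P) hU
    (fun x hx => (M.cone_diffAt M.contDiffOn_X (hUΩ hx)).sub_const P) (M.cone_meas_hP P hU hUΩ)
    (fun x hx => by rw [M.cone_det_X P (hUΩ hx), abs_neg, abs_of_nonneg (hpos x hx)]) hS

theorem polar_upper {U : Set (E n)} (hU : MeasurableSet U) (hUΩ : U ⊆ M.Ω) {P : A n}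
    (hpos : ∀ x ∈ U, 0 < M.hP P x) {S : Set (A n)}
    (hS : ∀ x ∈ U, ∀ s ∈ Set.Ioo (0 : ℝ) 1, (s / M.hP P x) • M.N x ∈ S) :
    ∫⁻ x in U, ENNReal.ofReal (M.det x / M.hP P x ^ (n + 1)) ≤ ((n : ℝ≥0∞) + 1) * volume S := by
  refine cone_gen_upper (Φ := fun z => (M.hP P z)⁻¹ • M.N z) (Q := 0)
    (J := fun x => M.det x / M.hP P x ^ (n + 1)) hU
    (fun x hx => ((M.cone_diffAt (M.contDiffOn_hP P) (hUΩ hx)).fun_inv (hpos x hx).ne').fun_smul
      (M.cone_diffAt M.contDiffOn_N (hUΩ hx)))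
    (((M.contDiffOn_det.continuousOn.mono hUΩ).aemeasurable hU).div
      ((M.cone_meas_hP P hU hUΩ).pow_const _))
    (fun x hx => ?_) (fun x hx x' hx' s hs s' hs' h => ?_) (fun x hx s hs => ?_)
  · have h1 := hpos x hx
    have h2 := M.det_pos (hUΩ hx)
    rw [M.cone_det_N P (hUΩ hx) h1.ne', abs_mul, abs_mul, abs_pow, abs_neg,
      abs_of_pos (inv_pos.2 h1), abs_of_pos h2, inv_pow, pow_succ]
    field_simp
  · rw [smul_smul, smul_smul] at h
    have h1 := congrArg ht h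
    have h2 := congrArg base h
    rw [ht_smul, ht_smul, N, N, ht_mkA, ht_mkA, mul_one, mul_one] at h1
    rw [base_smul, base_smul, N, N, base_mkA, base_mkA, ← h1] at h2
    have h3 : s * (M.hP P x)⁻¹ ≠ 0 := (mul_pos hs.1 (inv_pos.2 (hpos x hx))).ne'
    have h4 : x = x' := M.grad_injOn (hUΩ hx) (hUΩ hx')
      (neg_injective (smul_right_injective _ h3 h2))
    subst h4
    exact ⟨rfl, mul_right_cancel₀ (inv_pos.2 (hpos x hx)).ne' h1⟩
  · rw [zero_add, smul_smul, ← div_eq_mul_inv]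
    exact hS x hx s hs

end AM

end Crest.Agent.R236
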