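import Crest.Agent.R236.CoreA1

/-!
# Row 236: elementary calculus on an affine maximal graph (part A2)

Smoothness, convexity, bilinearity, product rules, integration by parts, maximum principle.
Hints: `pderiv i f` is `C^∞` on the open set `Ω` when `f` is (`ContDiffOn.fderiv_of_isOpen`),
`det` is a polynomial in the entries (`Matrix.det_apply`), `A⁻¹ = (det A)⁻¹ • adjugate A`
(`Matrix.inv_def`, `Matrix.adjugate_apply`); symmetry of second derivatives
(`ContDiffAt.isSymmSndFDerivAt`); convexity from the positive Hessian along segments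
(`convexOn_of_deriv2_nonneg` or monotonicity of `t ↦ ∇u(x + t v)·v`).
Integration by parts: extend the field by zero, then use
`integral_bilinear_hasLineDerivAt_right_eq_neg_left_of_integrable` (or `integral_fderiv_eq_zero`-type
lemmas) on `EuclideanSpace`.
-/

set_option autoImplicit false
open scoped ContDiff RealInnerProductSpace ENNReal Topology
open Crest.GeometryTopology.CoordMetric Crest.GeometryTopology.AffineMaximal MeasureTheory

noncomputable section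

namespace Crest.Agent.R236

variable {n : ℕ}

namespace AM

variable (M : AM n)

/-! ### the metric on forms -/

open scoped MatrixOrder in
lemma coreA_root {x : E n} (hx : x ∈ M.Ω) :
    ∃ B : Matrix (Fin n) (Fin n) ℝ, ∀ i j, M.Hi x i j = ∑ k, B k i * B k j := by
  obtain ⟨B, hB⟩ := CStarAlgebra.nonneg_iff_eq_star_mul_self.mp (M.Hi_posDef hx).posSemidef.nonneg
  refine ⟨B, fun i j => ?_⟩
  rw [hB, Matrix.mul_apply]
  simp [Matrix.star_apply]

lemma coreA_quad {B : Matrix (Fin n) (Fin n) ℝ} (α β : Fin n → ℝ) :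
    ∑ i, ∑ j, (∑ k, B k i * B k j) * α i * β j = ∑ k, (∑ i, B k i * α i) * ∑ j, B k j * β j := by
  simp only [Finset.sum_mul, Finset.mul_sum]
  rw [Finset.sum_comm]
  conv_rhs => rw [Finset.sum_comm]
  refine Finset.sum_congr rfl fun j _ => ?_
  rw [Finset.sum_comm]
  refine Finset.sum_congr rfl fun k _ => Finset.sum_congr rfl fun i _ => ?_
  ring

lemma ip_comm {x : E n} (hx : x ∈ M.Ω) (α β : Fin n → ℝ) : M.ip x α β = M.ip x β α := by
  unfold ip
  congr 1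
  rw [Finset.sum_comm]
  refine Finset.sum_congr rfl fun i _ => Finset.sum_congr rfl fun j _ => ?_
  rw [M.Hi_symm hx j i]
  ring
lemma ip_add_left (x : E n) (α α' β : Fin n → ℝ) :
    M.ip x (α + α') β = M.ip x α β + M.ip x α' β := by
  simp only [ip, Pi.add_apply, mul_add, add_mul, Finset.sum_add_distrib]
lemma ip_add_right (x : E n) (α β β' : Fin n → ℝ) :
    M.ip x α (β + β') = M.ip x α β + M.ip x α β' := by
  simp only [ip, Pi.add_apply, mul_add, Finset.sum_add_distrib]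
lemma ip_sub_left (x : E n) (α α' β : Fin n → ℝ) :
    M.ip x (α - α') β = M.ip x α β - M.ip x α' β := by
  simp only [ip, Pi.sub_apply, mul_sub, sub_mul, Finset.sum_sub_distrib]
lemma ip_sub_right (x : E n) (α β β' : Fin n → ℝ) :
    M.ip x α (β - β') = M.ip x α β - M.ip x α β' := by
  simp only [ip, Pi.sub_apply, mul_sub, Finset.sum_sub_distrib]
lemma ip_smul_left (x : E n) (c : ℝ) (α β : Fin n → ℝ) :
    M.ip x (c • α) β = c * M.ip x α β := by
  simp only [ip, Pi.smul_apply, smul_eq_mul, Finset.mul_sum]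
  refine Finset.sum_congr rfl fun i _ => Finset.sum_congr rfl fun j _ => ?_
  ring
lemma ip_smul_right (x : E n) (c : ℝ) (α β : Fin n → ℝ) :
    M.ip x α (c • β) = c * M.ip x α β := by
  simp only [ip, Pi.smul_apply, smul_eq_mul, Finset.mul_sum]
  refine Finset.sum_congr rfl fun i _ => Finset.sum_congr rfl fun j _ => ?_
  ring
lemma ip_sum_left {ι : Type*} (s : Finset ι) (x : E n) (α : ι → Fin n → ℝ) (β : Fin n → ℝ) :
    M.ip x (∑ a ∈ s, α a) β = ∑ a ∈ s, M.ip x (α a) β := by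
  classical
  induction s using Finset.induction_on with
  | empty => simp [ip]
  | insert a s ha ih => rw [Finset.sum_insert ha, Finset.sum_insert ha, ip_add_left, ih]
lemma ip_sum_right {ι : Type*} (s : Finset ι) (x : E n) (α : Fin n → ℝ) (β : ι → Fin n → ℝ) :
    M.ip x α (∑ a ∈ s, β a) = ∑ a ∈ s, M.ip x α (β a) := by
  classical
  induction s using Finset.induction_on with
  | empty => simp [ip]
  | insert a s ha ih => rw [Finset.sum_insert ha, Finset.sum_insert ha, ip_add_right, ih]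
lemma ip_zero_left (x : E n) (β : Fin n → ℝ) : M.ip x 0 β = 0 := by
  simp [ip]
lemma ip_zero_right (x : E n) (α : Fin n → ℝ) : M.ip x α 0 = 0 := by
  simp [ip]
lemma ip_self_nonneg {x : E n} (hx : x ∈ M.Ω) (α : Fin n → ℝ) : 0 ≤ M.ip x α α := by
  obtain ⟨B, hB⟩ := M.coreA_root hx
  unfold ip
  simp only [hB]
  rw [coreA_quad]
  exact mul_nonneg (inv_nonneg.2 (M.rho_pos hx).le)
    (Finset.sum_nonneg fun k _ => mul_self_nonneg _)
/-- an orthonormal frame: scalar quadratic inequalities transfer to `ip` by summing over `k` -/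
lemma exists_frame {x : E n} (hx : x ∈ M.Ω) :
    ∃ f : Fin n → ((Fin n → ℝ) →ₗ[ℝ] ℝ), ∀ α β, M.ip x α β = ∑ k, f k α * f k β := by
  obtain ⟨B, hB⟩ := M.coreA_root hx
  refine ⟨fun k => √(M.rho x)⁻¹ • ∑ i, B k i • LinearMap.proj i, fun α β => ?_⟩
  unfold ip
  simp only [hB]
  rw [coreA_quad, Finset.mul_sum]
  refine Finset.sum_congr rfl fun k _ => ?_
  simp only [LinearMap.smul_apply, LinearMap.sum_apply, LinearMap.proj_apply, smul_eq_mul]
  have h := Real.mul_self_sqrt (inv_nonneg.2 (M.rho_pos hx).le)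
  rw [mul_mul_mul_comm, h]
lemma ipc_eq {x : E n} (hx : x ∈ M.Ω) (α β : Fin n → ℝ) :
    M.ipc x α β = M.det x * M.rho x * M.ip x α β := by
  unfold ipc ip
  rw [mul_assoc, ← mul_assoc (M.rho x), mul_inv_cancel₀ (M.rho_pos hx).ne', one_mul]
lemma continuousOn_ip {U : Set (E n)} (hU : U ⊆ M.Ω) {φ ψ : Form n}
    (hφ : ∀ i, ContinuousOn (fun z => φ z i) U) (hψ : ∀ i, ContinuousOn (fun z => ψ z i) U) :
    ContinuousOn (fun z => M.ip z (φ z) (ψ z)) U := by
  unfold ip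
  refine ContinuousOn.mul ((M.contDiffOn_rho.continuousOn.mono hU).inv₀
    fun z hz => (M.rho_pos (hU hz)).ne') ?_
  refine continuousOn_finsetSum _ fun i _ => continuousOn_finsetSum _ fun j _ => ?_
  exact (((M.contDiffOn_Hi i j).continuousOn.mono hU).mul (hφ i)).mul (hψ j)

/-! ### divergence -/

/-- divergence with a general weight -/
def Dw (w : E n → ℝ) (φ : Form n) (x : E n) : ℝ :=
  ∑ i, pderiv i (fun z => w z * ∑ j, M.Hi z i j * φ z j) x

lemma coreA_diffAt {f : E n → ℝ} (hf : ContDiffOn ℝ ∞ f M.Ω) {x : E n} (hx : x ∈ M.Ω) :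
    DifferentiableAt ℝ f x :=
  (hf.contDiffAt (M.isOpen.mem_nhds hx)).differentiableAt (by simp)

lemma coreA_w : ContDiffOn ℝ ∞ (fun z => (M.rho z)⁻¹ ^ 2) M.Ω :=
  (M.contDiffOn_rho.inv fun _ hz => (M.rho_pos hz).ne').pow 2

lemma coreA_flux {w : E n → ℝ} (hw : ContDiffOn ℝ ∞ w M.Ω) {φ : Form n} {x : E n} (hx : x ∈ M.Ω)
    (hφ : Diff1 φ x) (i : Fin n) :
    DifferentiableAt ℝ (fun z => w z * ∑ j, M.Hi z i j * φ z j) x :=
  (M.coreA_diffAt hw hx).mul (DifferentiableAt.fun_sum fun j _ =>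
    (M.coreA_diffAt (M.contDiffOn_Hi i j) hx).mul (hφ j))

lemma Dw_congr (w : E n → ℝ) {φ ψ : Form n} {x : E n} (h : φ =ᶠ[𝓝 x] ψ) :
    M.Dw w φ x = M.Dw w ψ x := by
  refine Finset.sum_congr rfl fun i _ => ?_
  refine congrFun (dd_congr ?_) i
  filter_upwards [h] with z hz
  rw [hz]

lemma Dw_add {w : E n → ℝ} (hw : ContDiffOn ℝ ∞ w M.Ω) {φ ψ : Form n} {x : E n} (hx : x ∈ M.Ω)
    (hφ : Diff1 φ x) (hψ : Diff1 ψ x) :
    M.Dw w (fun z => φ z + ψ z) x = M.Dw w φ x + M.Dw w ψ x := by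
  unfold Dw
  rw [← Finset.sum_add_distrib]
  refine Finset.sum_congr rfl fun i _ => ?_
  have h := congrFun (dd_add (M.coreA_flux hw hx hφ i) (M.coreA_flux hw hx hψ i)) i
  simp only [Pi.add_apply, mul_add, Finset.sum_add_distrib]
  exact h

lemma Dw_smul {w : E n → ℝ} (hw : ContDiffOn ℝ ∞ w M.Ω) {f : E n → ℝ} {φ : Form n} {x : E n}
    (hx : x ∈ M.Ω) (hf : DifferentiableAt ℝ f x) (hφ : Diff1 φ x) :
    M.Dw w (fun z => f z • φ z) x =
      f x * M.Dw w φ x + w x * ∑ i, ∑ j, M.Hi x i j * dd f x i * φ x j := by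
  unfold Dw
  rw [Finset.mul_sum, Finset.mul_sum, ← Finset.sum_add_distrib]
  refine Finset.sum_congr rfl fun i _ => ?_
  have h := congrFun (dd_mul hf (M.coreA_flux hw hx hφ i)) i
  have e : (fun z => w z * ∑ j, M.Hi z i j * (f z • φ z) j) =
      fun z => f z * (w z * ∑ j, M.Hi z i j * φ z j) := by
    funext z
    simp only [Pi.smul_apply, smul_eq_mul, Finset.mul_sum]
    exact Finset.sum_congr rfl fun j _ => by ring
  rw [e]
  refine h.trans ?_
  simp only [Pi.add_apply, Pi.smul_apply, smul_eq_mul]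
  congr 1
  simp only [Finset.mul_sum, Finset.sum_mul]
  exact Finset.sum_congr rfl fun j _ => by ring

lemma coreA_flux_on {w : E n → ℝ} (hw : ContDiffOn ℝ ∞ w M.Ω) {U : Set (E n)} (hUΩ : U ⊆ M.Ω)
    {φ : Form n} (hφ : ∀ i, ContDiffOn ℝ 1 (fun z => φ z i) U) (i : Fin n) :
    ContDiffOn ℝ 1 (fun z => w z * ∑ j, M.Hi z i j * φ z j) U :=
  ((hw.of_le (by simp)).mono hUΩ).mul (ContDiffOn.sum fun j _ =>
    (((M.contDiffOn_Hi i j).of_le (by simp)).mono hUΩ).mul (hφ j))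

lemma continuousOn_Dw {w : E n → ℝ} (hw : ContDiffOn ℝ ∞ w M.Ω) {U : Set (E n)} (hU : IsOpen U)
    (hUΩ : U ⊆ M.Ω) {φ : Form n} (hφ : ∀ i, ContDiffOn ℝ 1 (fun z => φ z i) U) :
    ContinuousOn (M.Dw w φ) U := by
  refine continuousOn_finsetSum _ fun i _ => ?_
  exact ((M.coreA_flux_on hw hUΩ hφ i).continuousOn_fderiv_of_isOpen hU le_rfl).clm_apply
    continuousOn_const

lemma integral_Dw_eq_zero {w : E n → ℝ} (hw : ContDiffOn ℝ ∞ w M.Ω) {U C : Set (E n)}
    (hU : IsOpen U) (hUΩ : U ⊆ M.Ω) (hC : IsCompact C)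
    (hCU : C ⊆ U) (φ : Form n) (hφ : ∀ i, ContDiffOn ℝ 1 (fun z => φ z i) U)
    (h0 : ∀ x ∈ U, x ∉ C → φ x = 0) : ∫ x in C, M.Dw w φ x = 0 := by
  refine integral_div_eq_zero hU hC hCU (fun z i => w z * ∑ j, M.Hi z i j * φ z j)
    (M.coreA_flux_on hw hUΩ hφ) fun x hx hxC => ?_
  funext i
  simp [h0 x hx hxC]

lemma Dw_dd {w : E n → ℝ} (hw : ContDiffOn ℝ ∞ w M.Ω) {f : E n → ℝ} {x : E n} (hx : x ∈ M.Ω)
    (hf : ContDiffAt ℝ 2 f x) (h0 : dd f x = 0) : M.Dw w (dd f) x = w x * M.Lop f x := by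
  unfold Dw Lop
  rw [Finset.mul_sum]
  refine Finset.sum_congr rfl fun i _ => ?_
  have hd : ∀ j, DifferentiableAt ℝ (fun z => w z * M.Hi z i j) x := fun j =>
    (M.coreA_diffAt hw hx).mul (M.coreA_diffAt (M.contDiffOn_Hi i j) hx)
  have e : (fun z => w z * ∑ j, M.Hi z i j * dd f z j) =
      fun z => ∑ j, (w z * M.Hi z i j) * dd f z j := by
    funext z
    rw [Finset.mul_sum]
    exact Finset.sum_congr rfl fun j _ => by ring
  rw [e]
  have h := congrFun (dd_sum Finset.univ (f := fun j z => (w z * M.Hi z i j) * dd f z j)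
    fun j _ => (hd j).mul (diff1_dd hf j)) i
  refine h.trans ?_
  rw [Finset.sum_apply, Finset.mul_sum]
  refine Finset.sum_congr rfl fun j _ => ?_
  rw [dd_mul (hd j) (diff1_dd hf j), h0]
  simp only [Pi.add_apply, Pi.smul_apply, smul_eq_mul, Pi.zero_apply, zero_mul, add_zero, mul_assoc]
  rfl

lemma coreA_Lop_nonpos {f : E n → ℝ} {x : E n} (hx : x ∈ M.Ω)
    (hf : ContDiffAt ℝ 2 f x) (hm : IsLocalMax f x) : M.Lop f x ≤ 0 := by
  obtain ⟨B, hB⟩ := M.coreA_root hx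
  have h := (hessian_nonpos_of_isLocalMax hf hm).2
  have e : M.Lop f x = ∑ k, ∑ i, ∑ j, hessianMat f x i j * B k i * B k j := by
    unfold Lop
    simp only [hB, Finset.sum_mul]
    conv_rhs => rw [Finset.sum_comm]
    refine Finset.sum_congr rfl fun i _ => ?_
    rw [Finset.sum_comm]
    exact Finset.sum_congr rfl fun k _ => Finset.sum_congr rfl fun j _ => by ring
  rw [e]
  exact Finset.sum_nonpos fun k _ => h (B k)

lemma Dv_eq_Dw (φ : Form n) (x : E n) :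
    M.Dv φ x = M.rho x * M.Dw (fun z => (M.rho z)⁻¹ ^ 2) φ x := rfl

lemma Dc_eq_Dw (φ : Form n) (x : E n) : M.Dc φ x = M.Dw M.det φ x := rfl

lemma Dv_congr {φ ψ : Form n} {x : E n} (h : φ =ᶠ[𝓝 x] ψ) : M.Dv φ x = M.Dv ψ x := by
  rw [Dv_eq_Dw, Dv_eq_Dw, M.Dw_congr _ h]
lemma Dv_add {φ ψ : Form n} {x : E n} (hx : x ∈ M.Ω) (hφ : Diff1 φ x) (hψ : Diff1 ψ x) :
    M.Dv (fun z => φ z + ψ z) x = M.Dv φ x + M.Dv ψ x := by
  rw [Dv_eq_Dw, Dv_eq_Dw, Dv_eq_Dw, M.Dw_add M.coreA_w hx hφ hψ, mul_add]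
lemma Dv_sub {φ ψ : Form n} {x : E n} (hx : x ∈ M.Ω) (hφ : Diff1 φ x) (hψ : Diff1 ψ x) :
    M.Dv (fun z => φ z - ψ z) x = M.Dv φ x - M.Dv ψ x := by
  have h := M.Dv_add hx (φ := fun z => φ z - ψ z) (fun j => (hφ j).sub (hψ j)) hψ
  simp only [sub_add_cancel] at h
  rw [eq_sub_iff_add_eq]
  exact h.symm
lemma Dv_smul {f : E n → ℝ} {φ : Form n} {x : E n} (hx : x ∈ M.Ω) (hf : DifferentiableAt ℝ f x)
    (hφ : Diff1 φ x) :
    M.Dv (fun z => f z • φ z) x = f x * M.Dv φ x + M.ip x (dd f x) (φ x) := by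
  rw [Dv_eq_Dw, Dv_eq_Dw, M.Dw_smul M.coreA_w hx hf hφ, ip]
  have := (M.rho_pos hx).ne'
  field_simp
lemma Dv_const_smul (c : ℝ) {φ : Form n} {x : E n} (hx : x ∈ M.Ω) (hφ : Diff1 φ x) :
    M.Dv (fun z => c • φ z) x = c * M.Dv φ x := by
  rw [M.Dv_smul hx (differentiableAt_const c) hφ, dd_const, ip_zero_left, add_zero]
lemma Dv_sum {ι : Type*} (s : Finset ι) {φ : ι → Form n} {x : E n} (hx : x ∈ M.Ω)
    (hφ : ∀ a ∈ s, Diff1 (φ a) x) :
    M.Dv (fun z => ∑ a ∈ s, φ a z) x = ∑ a ∈ s, M.Dv (φ a) x := by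
  classical
  induction s using Finset.induction_on with
  | empty => simp [Dv, pderiv]
  | insert a s ha ih =>
    simp only [Finset.sum_insert ha]
    rw [M.Dv_add hx (hφ a (Finset.mem_insert_self _ _)),
      ih fun b hb => hφ b (Finset.mem_insert_of_mem hb)]
    intro j
    simp only [Finset.sum_apply]
    exact DifferentiableAt.fun_sum fun b hb => hφ b (Finset.mem_insert_of_mem hb) j
lemma continuousOn_Dv {U : Set (E n)} (hU : IsOpen U) (hUΩ : U ⊆ M.Ω) {φ : Form n}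
    (hφ : ∀ i, ContDiffOn ℝ 1 (fun z => φ z i) U) : ContinuousOn (M.Dv φ) U := by
  exact (M.contDiffOn_rho.continuousOn.mono hUΩ).mul (M.continuousOn_Dw M.coreA_w hU hUΩ hφ)
theorem integral_Dv_eq_zero {U C : Set (E n)} (hU : IsOpen U) (hUΩ : U ⊆ M.Ω) (hC : IsCompact C)
    (hCU : C ⊆ U) (φ : Form n) (hφ : ∀ i, ContDiffOn ℝ 1 (fun z => φ z i) U)
    (h0 : ∀ x ∈ U, x ∉ C → φ x = 0) : ∫ x in C, M.Dv φ x / M.rho x = 0 := by
  rw [← M.integral_Dw_eq_zero M.coreA_w hU hUΩ hC hCU φ hφ h0]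
  refine setIntegral_congr_fun hC.measurableSet fun x hx => ?_
  simp only [Dv_eq_Dw]
  exact mul_div_cancel_left₀ _ (M.rho_pos (hUΩ (hCU hx))).ne'
/-- maximum principle -/
lemma Dv_dd_nonpos_of_isLocalMax {f : E n → ℝ} {x : E n} (hx : x ∈ M.Ω)
    (hf : ContDiffAt ℝ 2 f x) (hm : IsLocalMax f x) : dd f x = 0 ∧ M.Dv (dd f) x ≤ 0 := by
  have h0 := (hessian_nonpos_of_isLocalMax hf hm).1
  refine ⟨h0, ?_⟩
  rw [Dv_eq_Dw, M.Dw_dd M.coreA_w hx hf h0]
  exact mul_nonpos_of_nonneg_of_nonpos (M.rho_pos hx).le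
    (mul_nonpos_of_nonneg_of_nonpos (sq_nonneg _) (M.coreA_Lop_nonpos hx hf hm))
lemma Lop_nonpos_of_isLocalMax {f : E n → ℝ} {x : E n} (hx : x ∈ M.Ω)
    (hf : ContDiffAt ℝ 2 f x) (hm : IsLocalMax f x) : dd f x = 0 ∧ M.Lop f x ≤ 0 := by
  exact ⟨(hessian_nonpos_of_isLocalMax hf hm).1, M.coreA_Lop_nonpos hx hf hm⟩

lemma Dc_congr {φ ψ : Form n} {x : E n} (h : φ =ᶠ[𝓝 x] ψ) : M.Dc φ x = M.Dc ψ x := by
  exact M.Dw_congr _ h
lemma Dc_add {φ ψ : Form n} {x : E n} (hx : x ∈ M.Ω) (hφ : Diff1 φ x) (hψ : Diff1 ψ x) :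
    M.Dc (fun z => φ z + ψ z) x = M.Dc φ x + M.Dc ψ x := by
  exact M.Dw_add M.contDiffOn_det hx hφ hψ
lemma Dc_smul {f : E n → ℝ} {φ : Form n} {x : E n} (hx : x ∈ M.Ω) (hf : DifferentiableAt ℝ f x)
    (hφ : Diff1 φ x) :
    M.Dc (fun z => f z • φ z) x = f x * M.Dc φ x + M.ipc x (dd f x) (φ x) := by
  exact M.Dw_smul M.contDiffOn_det hx hf hφ
lemma continuousOn_Dc {U : Set (E n)} (hU : IsOpen U) (hUΩ : U ⊆ M.Ω) {φ : Form n}
    (hφ : ∀ i, ContDiffOn ℝ 1 (fun z => φ z i) U) : ContinuousOn (M.Dc φ) U := by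
  exact M.continuousOn_Dw M.contDiffOn_det hU hUΩ hφ
theorem integral_Dc_eq_zero {U C : Set (E n)} (hU : IsOpen U) (hUΩ : U ⊆ M.Ω) (hC : IsCompact C)
    (hCU : C ⊆ U) (φ : Form n) (hφ : ∀ i, ContDiffOn ℝ 1 (fun z => φ z i) U)
    (h0 : ∀ x ∈ U, x ∉ C → φ x = 0) : ∫ x in C, M.Dc φ x = 0 := by
  exact M.integral_Dw_eq_zero M.contDiffOn_det hU hUΩ hC hCU φ hφ h0

/-! ### rules for `Lop` -/

lemma coreA_hess_congr {f : E n → ℝ} {φ : Form n} {x : E n} (h : dd f =ᶠ[𝓝 x] φ) (i j : Fin n) :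
    hessianMat f x i j = dd (fun z => φ z j) x i := by
  refine congrFun (dd_congr ?_) i
  filter_upwards [h] with z hz
  exact congrFun hz j

lemma coreA_ev_diff {f : E n → ℝ} {x : E n} (hf : ContDiffAt ℝ 2 f x) :
    ∀ᶠ z in 𝓝 x, DifferentiableAt ℝ f z :=
  (hf.eventually (by simp)).mono fun _ hz => hz.differentiableAt (by simp)

lemma Lop_congr {f g : E n → ℝ} {x : E n} (h : f =ᶠ[𝓝 x] g) : M.Lop f x = M.Lop g x := by
  have h1 : dd f =ᶠ[𝓝 x] dd g := h.eventuallyEq_nhds.mono fun z hz => dd_congr hz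
  unfold Lop
  simp only [coreA_hess_congr h1]
  rfl
lemma Lop_add {f g : E n → ℝ} {x : E n} (hf : ContDiffAt ℝ 2 f x) (hg : ContDiffAt ℝ 2 g x) :
    M.Lop (fun z => f z + g z) x = M.Lop f x + M.Lop g x := by
  have h1 : dd (fun z => f z + g z) =ᶠ[𝓝 x] fun z => dd f z + dd g z := by
    filter_upwards [coreA_ev_diff hf, coreA_ev_diff hg] with z a b
    exact dd_add a b
  unfold Lop
  simp only [coreA_hess_congr h1, ← Finset.sum_add_distrib]
  refine Finset.sum_congr rfl fun i _ => Finset.sum_congr rfl fun j _ => ?_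
  rw [← mul_add]
  congr 1
  exact congrFun (dd_add (diff1_dd hf j) (diff1_dd hg j)) i
lemma Lop_const_mul (c : ℝ) {f : E n → ℝ} {x : E n} (hf : ContDiffAt ℝ 2 f x) :
    M.Lop (fun z => c * f z) x = c * M.Lop f x := by
  have h1 : dd (fun z => c * f z) =ᶠ[𝓝 x] fun z => c • dd f z := by
    filter_upwards [coreA_ev_diff hf] with z a
    exact dd_const_mul c a
  unfold Lop
  simp only [coreA_hess_congr h1, Finset.mul_sum]
  refine Finset.sum_congr rfl fun i _ => Finset.sum_congr rfl fun j _ => ?_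
  rw [mul_left_comm]
  congr 1
  exact congrFun (dd_const_mul c (diff1_dd hf j)) i
lemma Lop_const (c : ℝ) (x : E n) : M.Lop (fun _ => c) x = 0 := by
  have h1 : dd (fun _ : E n => c) =ᶠ[𝓝 x] fun _ => 0 :=
    Filter.Eventually.of_forall fun z => dd_const c z
  unfold Lop
  simp only [coreA_hess_congr h1, Pi.zero_apply, dd_const, mul_zero, Finset.sum_const_zero]
/-- chain rule: `L F(f) = F'(f) L f + F''(f) u^{ij} f_i f_j` -/
lemma Lop_comp {F F' : ℝ → ℝ} {F'' : ℝ} {f : E n → ℝ} {x : E n} (hf : ContDiffAt ℝ 2 f x)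
    (hF : ∀ᶠ t in 𝓝 (f x), HasDerivAt F (F' t) t) (hF' : HasDerivAt F' F'' (f x)) :
    M.Lop (fun z => F (f z)) x
      = F' (f x) * M.Lop f x + F'' * ∑ i, ∑ j, M.Hi x i j * dd f x i * dd f x j := by
  have h1 : dd (fun z => F (f z)) =ᶠ[𝓝 x] fun z => F' (f z) • dd f z := by
    filter_upwards [coreA_ev_diff hf, hf.continuousAt.eventually hF] with z a b
    exact dd_comp a b
  have hd : DifferentiableAt ℝ f x := hf.differentiableAt (by simp)
  have h2 : DifferentiableAt ℝ (fun z => F' (f z)) x := hF'.differentiableAt.comp x hd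
  unfold Lop
  simp only [coreA_hess_congr h1, Finset.mul_sum, ← Finset.sum_add_distrib]
  refine Finset.sum_congr rfl fun i _ => Finset.sum_congr rfl fun j _ => ?_
  have h3 := congrFun (dd_mul h2 (diff1_dd hf j)) i
  rw [dd_comp hd hF'] at h3
  simp only [Pi.add_apply, Pi.smul_apply, smul_eq_mul] at h3 ⊢
  rw [h3]
  have h4 : dd (fun z => dd f z j) x i = hessianMat f x i j := rfl
  rw [h4]
  ring
lemma Lop_u {x : E n} (hx : x ∈ M.Ω) : M.Lop M.u x = n := by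
  have h := congrArg Matrix.trace (M.Hi_mul_H hx)
  rw [Matrix.trace_one, Fintype.card_fin] at h
  rw [← h]
  unfold Lop
  simp only [Matrix.trace, Matrix.diag_apply, Matrix.mul_apply]
  refine Finset.sum_congr rfl fun i _ => Finset.sum_congr rfl fun j _ => ?_
  rw [M.H_symm hx j i]
  rfl

end AM

end Crest.Agent.R236
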