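import Crest.Agent.R236.Basic

/-!
# Row 236: elementary calculus on an affine maximal graph (part A0)

Smoothness, convexity, bilinearity, product rules, integration by parts, maximum principle.
Hints: `pderiv i f` is `C^∞` on the open set `Ω` when `f` is (`ContDiffOn.fderiv_of_isOpen`),
`det` is a polynomial in the entries (`Matrix.det_apply`), `A⁻¹ = (det A)⁻¹ • adjugate A`
(`Matrix.inv_def`, `Matrix.adjugate_apply`); symmetry of second derivatives
(`ContDiffAt.isSymmSndFDerivAt`); convexity from the positive Hessian along segments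
(`convexOn_of_deriv2_nonneg` or monotonicity of `t ↦ ∇u(x + t v)·v`).
Integration by parts: extend the field by zero, then use
`integral_bilinear_hasLineDerivAt_right_eq_neg_left_of_integrable` (or `integral_fderiv_eq_zero`-type
lemmas) on `EuclideanSpace`.
-/

set_option autoImplicit false
open scoped ContDiff RealInnerProductSpace ENNReal Topology
open Crest.GeometryTopology.CoordMetric Crest.GeometryTopology.AffineMaximal MeasureTheory

noncomputable section

namespace Crest.Agent.R236

variable {n : ℕ}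

/-! ### general facts on `pderiv`, `dd`, `hessianMat` -/

lemma contDiffOn_pderiv {f : E n → ℝ} {U : Set (E n)} (hU : IsOpen U) (hf : ContDiffOn ℝ ∞ f U)
    (i : Fin n) : ContDiffOn ℝ ∞ (pderiv i f) U := by
  exact (hf.fderiv_of_isOpen hU (m := ∞) le_rfl).clm_apply contDiffOn_const

lemma fderiv_apply_eq_sum (f : E n → ℝ) (x v : E n) :
    fderiv ℝ f x v = ∑ i, pderiv i f x * v i := by
  conv_lhs => rw [← (EuclideanSpace.basisFun (Fin n) ℝ).sum_repr v]
  simp [pderiv, mul_comm]

lemma dd_congr {f g : E n → ℝ} {x : E n} (h : f =ᶠ[𝓝 x] g) : dd f x = dd g x := by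
  funext i
  simp only [dd, pderiv, h.fderiv_eq]

lemma dd_const (c : ℝ) (x : E n) : dd (fun _ : E n => c) x = 0 := by
  funext i
  simp [dd, pderiv]

lemma dd_add {f g : E n → ℝ} {x : E n} (hf : DifferentiableAt ℝ f x)
    (hg : DifferentiableAt ℝ g x) : dd (fun z => f z + g z) x = dd f x + dd g x := by
  funext i
  simp [dd, pderiv, fderiv_fun_add hf hg]

lemma dd_sub {f g : E n → ℝ} {x : E n} (hf : DifferentiableAt ℝ f x)
    (hg : DifferentiableAt ℝ g x) : dd (fun z => f z - g z) x = dd f x - dd g x := by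
  funext i
  simp [dd, pderiv, fderiv_fun_sub hf hg]

lemma dd_mul {f g : E n → ℝ} {x : E n} (hf : DifferentiableAt ℝ f x)
    (hg : DifferentiableAt ℝ g x) :
    dd (fun z => f z * g z) x = f x • dd g x + g x • dd f x := by
  funext i
  simp [dd, pderiv, fderiv_fun_mul hf hg]

lemma dd_const_mul (c : ℝ) {f : E n → ℝ} {x : E n} (hf : DifferentiableAt ℝ f x) :
    dd (fun z => c * f z) x = c • dd f x := by
  funext i
  simp [dd, pderiv, fderiv_const_mul hf]

lemma dd_sum {ι : Type*} (s : Finset ι) {f : ι → E n → ℝ} {x : E n}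
    (hf : ∀ a ∈ s, DifferentiableAt ℝ (f a) x) :
    dd (fun z => ∑ a ∈ s, f a z) x = ∑ a ∈ s, dd (f a) x := by
  funext i
  simp [dd, pderiv, fderiv_fun_sum hf]

/-- chain rule -/
lemma dd_comp {F : ℝ → ℝ} {F' : ℝ} {f : E n → ℝ} {x : E n} (hf : DifferentiableAt ℝ f x)
    (hF : HasDerivAt F F' (f x)) : dd (fun z => F (f z)) x = F' • dd f x := by
  funext i
  have := (hF.comp_hasFDerivAt x hf.hasFDerivAt).fderiv
  simp only [dd, pderiv]
  rw [show (fun z => F (f z)) = F ∘ f from rfl, this]
  rfl

lemma diff1_dd {f : E n → ℝ} {x : E n} (hf : ContDiffAt ℝ 2 f x) : Diff1 (dd f) x := by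
  intro j
  exact ((hf.fderiv_right (m := 1) le_rfl).differentiableAt one_ne_zero).clm_apply
    (differentiableAt_const _)

lemma hessianMat_symm {f : E n → ℝ} {x : E n} (hf : ContDiffAt ℝ 2 f x) (i j : Fin n) :
    hessianMat f x i j = hessianMat f x j i := by
  have hd := (hf.fderiv_right (m := 1) le_rfl).differentiableAt one_ne_zero
  have := (hf.isSymmSndFDerivAt (by simp)).eq (EuclideanSpace.single i 1) (EuclideanSpace.single j 1)
  simp only [hessianMat, pderiv]
  rw [fderiv_clm_apply hd (differentiableAt_const _), fderiv_clm_apply hd (differentiableAt_const _)]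
  simpa using this

/-- at a local maximum the gradient vanishes and the Hessian is negative semidefinite -/
lemma hessian_nonpos_of_isLocalMax {f : E n → ℝ} {x : E n} (hf : ContDiffAt ℝ 2 f x)
    (hm : IsLocalMax f x) :
    dd f x = 0 ∧ ∀ v : Fin n → ℝ, ∑ i, ∑ j, hessianMat f x i j * v i * v j ≤ 0 := by
  refine ⟨by funext i; simp [dd, pderiv, hm.fderiv_eq_zero], fun v => ?_⟩
  set w : E n := WithLp.toLp 2 v with hw
  have hl : ∀ t : ℝ, HasDerivAt (fun t : ℝ => x + t • w) w t := fun t => by
    simpa using ((hasDerivAt_id t).smul_const w).const_add x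
  have ht : Filter.Tendsto (fun t : ℝ => x + t • w) (𝓝 0) (𝓝 x) := by
    simpa using (hl 0).continuousAt.tendsto
  have hg : IsLocalMax (fun t : ℝ => f (x + t • w)) 0 := by
    have := ht.eventually hm
    simpa [IsLocalMax, IsMaxFilter] using this
  have h1 : deriv (fun t : ℝ => f (x + t • w)) =ᶠ[𝓝 0]
      fun t => ∑ j, pderiv j f (x + t • w) * v j := by
    filter_upwards [ht.eventually (hf.eventually (by simp))] with t h
    rw [← fderiv_apply_eq_sum f _ w]
    exact ((h.differentiableAt two_ne_zero).hasFDerivAt.comp_hasDerivAt t (hl t)).deriv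
  have h2 : HasDerivAt (fun t : ℝ => ∑ j, pderiv j f (x + t • w) * v j)
      (∑ j, fderiv ℝ (pderiv j f) x w * v j) 0 := by
    refine HasDerivAt.fun_sum fun j _ => HasDerivAt.mul_const ?_ _
    exact (diff1_dd hf j).hasFDerivAt.comp_hasDerivAt_of_eq (0 : ℝ) (hl 0) (by simp)
  have h3 : ∑ i, ∑ j, hessianMat f x i j * v i * v j =
      deriv (deriv fun t : ℝ => f (x + t • w)) 0 := by
    rw [h1.deriv_eq, h2.deriv, Finset.sum_comm]
    refine Finset.sum_congr rfl fun j _ => ?_
    rw [fderiv_apply_eq_sum, Finset.sum_mul]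
    rfl
  rw [h3]
  by_contra hc
  have hc0 : ContinuousAt (fun t : ℝ => f (x + t • w)) 0 :=
    hf.continuousAt.comp_of_eq (hl 0).continuousAt (by simp)
  have hmin := isLocalMin_of_deriv_deriv_pos (not_le.1 hc) hg.deriv_eq_zero hc0
  have he : (fun t : ℝ => f (x + t • w)) =ᶠ[𝓝 0] fun _ => f (x + (0 : ℝ) • w) := by
    filter_upwards [hg, hmin] with t a b using le_antisymm a b
  rw [he.deriv.deriv_eq] at hc
  simp at hc

/-- `t ↦ (t⁺)^(k+2)` is `C¹` -/
lemma hasDerivAt_posPart_pow (k : ℕ) (t : ℝ) :
    HasDerivAt (fun r : ℝ => (max r 0) ^ (k + 2)) ((k + 2) * (max t 0) ^ (k + 1)) t := by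
  rcases lt_trichotomy t 0 with h | rfl | h
  · rw [max_eq_right h.le, zero_pow (Nat.succ_ne_zero _), mul_zero]
    refine (hasDerivAt_const t (0 : ℝ)).congr_of_eventuallyEq ?_
    filter_upwards [gt_mem_nhds h] with r hr
    rw [max_eq_right hr.le, zero_pow (Nat.succ_ne_zero _)]
  · rw [max_self, zero_pow (Nat.succ_ne_zero _), mul_zero, hasDerivAt_iff_isLittleO]
    simp only [max_self, zero_pow (Nat.succ_ne_zero _), sub_zero, smul_zero]
    refine Asymptotics.IsBigO.trans_isLittleO (g := fun r : ℝ => r ^ (k + 2))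
      (Asymptotics.IsBigO.of_bound' (Filter.Eventually.of_forall fun r => ?_))
      (Asymptotics.isLittleO_pow_id (by omega))
    rw [norm_pow, norm_pow]
    refine pow_le_pow_left₀ (norm_nonneg _) ?_ _
    rcases le_total r 0 with h | h <;> simp [h]
  · rw [max_eq_left h.le]
    refine (hasDerivAt_pow (k + 2) t).congr_of_eventuallyEq ?_ |>.congr_deriv (by simp)
    filter_upwards [lt_mem_nhds h] with r hr
    rw [max_eq_left hr.le]

lemma contDiff_posPart_pow (k : ℕ) : ContDiff ℝ 1 (fun r : ℝ => (max r 0) ^ (k + 2)) := by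
  refine contDiff_one_iff_deriv.2 ⟨fun t => (hasDerivAt_posPart_pow k t).differentiableAt, ?_⟩
  rw [show deriv (fun r : ℝ => (max r 0) ^ (k + 2)) = fun t : ℝ => (k + 2) * (max t 0) ^ (k + 1) from
    funext fun t => (hasDerivAt_posPart_pow k t).deriv]
  fun_prop

/-- divergence theorem for a `C¹` field on an open set vanishing off a compact subset -/
theorem integral_div_eq_zero {U C : Set (E n)} (hU : IsOpen U) (hC : IsCompact C) (hCU : C ⊆ U)
    (φ : Form n) (hφ : ∀ i, ContDiffOn ℝ 1 (fun z => φ z i) U)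
    (h0 : ∀ x ∈ U, x ∉ C → φ x = 0) :
    ∫ x in C, ∑ i, pderiv i (fun z => φ z i) x = 0 := by
  rw [integral_finsetSum _ fun i _ => ?_]
  · refine Finset.sum_eq_zero fun i _ => ?_
    set ψ : E n → ℝ := C.indicator fun z => φ z i with hψ
    have hU' : ∀ x ∈ U, ψ =ᶠ[𝓝 x] fun z => φ z i := fun x hx => by
      filter_upwards [hU.mem_nhds hx] with z hz
      by_cases h : z ∈ C
      · exact Set.indicator_of_mem h _
      · rw [hψ, Set.indicator_of_notMem h, h0 z hz h]; rfl
    have hC' : ∀ x, x ∉ C → ψ =ᶠ[𝓝 x] fun _ => 0 := fun x hx => by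
      filter_upwards [hC.isClosed.isOpen_compl.mem_nhds hx] with z hz
      exact Set.indicator_of_notMem hz _
    have hc : ContDiff ℝ 1 ψ := contDiff_iff_contDiffAt.2 fun x => by
      by_cases h : x ∈ C
      · exact ((hφ i).contDiffAt (hU.mem_nhds (hCU h))).congr_of_eventuallyEq (hU' x (hCU h))
      · exact contDiffAt_const.congr_of_eventuallyEq (hC' x h)
    have hs : HasCompactSupport ψ := HasCompactSupport.intro hC fun x hx =>
      Set.indicator_of_notMem hx _
    have h1 := integral_mul_fderiv_eq_neg_fderiv_mul_of_integrable (μ := volume)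
      (f := fun _ : E n => (1 : ℝ)) (g := ψ) (v := EuclideanSpace.single i 1) (by simp)
      (by
        simp only [one_mul]
        exact ((hc.continuous_fderiv one_ne_zero).clm_apply
          continuous_const).integrable_of_hasCompactSupport (hs.fderiv_apply ℝ _))
      (by simpa using hc.continuous.integrable_of_hasCompactSupport hs)
      (fun _ _ => differentiableAt_const _) fun x _ => hc.differentiable one_ne_zero x
    simp only [one_mul, fderiv_fun_const, Pi.zero_apply, zero_apply, zero_mul,
      integral_zero, neg_zero] at h1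
    rw [← setIntegral_eq_integral_of_forall_compl_eq_zero (s := C) fun x hx => by
      rw [(hC' x hx).fderiv_eq]; simp] at h1
    refine Eq.trans (setIntegral_congr_fun hC.measurableSet fun x hx => ?_) h1
    simp only [pderiv, (hU' x (hCU hx)).fderiv_eq]
  · exact ((((hφ i).continuousOn_fderiv_of_isOpen hU le_rfl).clm_apply
      continuousOn_const).mono hCU).integrableOn_compact hC

end Crest.Agent.R236
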