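import Crest.Agent.R236.CoreA0

/-!
# Row 236: elementary calculus on an affine maximal graph (part A1)

Smoothness, convexity, bilinearity, product rules, integration by parts, maximum principle.
Hints: `pderiv i f` is `C^∞` on the open set `Ω` when `f` is (`ContDiffOn.fderiv_of_isOpen`),
`det` is a polynomial in the entries (`Matrix.det_apply`), `A⁻¹ = (det A)⁻¹ • adjugate A`
(`Matrix.inv_def`, `Matrix.adjugate_apply`); symmetry of second derivatives
(`ContDiffAt.isSymmSndFDerivAt`); convexity from the positive Hessian along segments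
(`convexOn_of_deriv2_nonneg` or monotonicity of `t ↦ ∇u(x + t v)·v`).
Integration by parts: extend the field by zero, then use
`integral_bilinear_hasLineDerivAt_right_eq_neg_left_of_integrable` (or `integral_fderiv_eq_zero`-type
lemmas) on `EuclideanSpace`.
-/

set_option autoImplicit false
open scoped ContDiff RealInnerProductSpace ENNReal Topology
open Crest.GeometryTopology.CoordMetric Crest.GeometryTopology.AffineMaximal MeasureTheory

noncomputable section

namespace Crest.Agent.R236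

variable {n : ℕ}

lemma a1_continuous_base : Continuous (base : A n → E n) := by
  unfold base; fun_prop

lemma a1_continuous_ht : Continuous (ht : A n → ℝ) := by
  unfold ht; fun_prop

lemma a1_contDiffOn_det {U : Set (E n)} {F : E n → Matrix (Fin n) (Fin n) ℝ}
    (hF : ∀ i j, ContDiffOn ℝ ∞ (fun x => F x i j) U) :
    ContDiffOn ℝ ∞ (fun x => (F x).det) U := by
  simp only [Matrix.det_apply']
  exact ContDiffOn.sum fun σ _ => contDiffOn_const.mul (contDiffOn_prod fun i _ => hF _ _)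

lemma a1_contDiffOn_mkA {U : Set (E n)} {f : E n → E n} {g : E n → ℝ} (hf : ContDiffOn ℝ ∞ f U)
    (hg : ContDiffOn ℝ ∞ g U) : ContDiffOn ℝ ∞ (fun x => mkA (f x) (g x)) U := by
  rw [contDiffOn_euclidean] at hf ⊢
  rintro (i | a)
  · exact hf i
  · exact hg

namespace AM

variable (M : AM n)

/-! ### smoothness -/

lemma det_pos {x : E n} (hx : x ∈ M.Ω) : 0 < M.det x := by
  exact (M.pos x hx).det_pos
lemma rho_pos {x : E n} (hx : x ∈ M.Ω) : 0 < M.rho x := by
  exact Real.rpow_pos_of_pos (M.det_pos hx) _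
/-- `det = rho^{-(n+2)}` -/
lemma det_mul_rho_pow {x : E n} (hx : x ∈ M.Ω) : M.det x * M.rho x ^ (n + 2) = 1 := by
  have h := M.det_pos hx
  have hn : ((n : ℝ) + 2) ≠ 0 := by positivity
  rw [rho, ← Real.rpow_natCast, ← Real.rpow_mul h.le]
  push_cast
  rw [div_mul_cancel₀ _ hn, Real.rpow_neg_one, mul_inv_cancel₀ h.ne']
lemma Hi_posDef {x : E n} (hx : x ∈ M.Ω) : (M.Hi x).PosDef := by
  exact (M.pos x hx).inv
lemma H_symm {x : E n} (hx : x ∈ M.Ω) (i j : Fin n) : M.H x i j = M.H x j i := by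
  simpa [H] using ((M.pos x hx).isHermitian.apply j i)
lemma Hi_symm {x : E n} (hx : x ∈ M.Ω) (i j : Fin n) : M.Hi x i j = M.Hi x j i := by
  simpa using ((M.Hi_posDef hx).isHermitian.apply j i)
lemma Hi_mul_H {x : E n} (hx : x ∈ M.Ω) : M.Hi x * M.H x = 1 := by
  exact Matrix.nonsing_inv_mul _ (M.det_pos hx).ne'.isUnit
lemma H_mul_Hi {x : E n} (hx : x ∈ M.Ω) : M.H x * M.Hi x = 1 := by
  exact Matrix.mul_nonsing_inv _ (M.det_pos hx).ne'.isUnit
lemma contDiffOn_H (i j : Fin n) : ContDiffOn ℝ ∞ (fun x => M.H x i j) M.Ω := by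
  exact contDiffOn_pderiv M.isOpen (contDiffOn_pderiv M.isOpen M.smooth j) i
lemma contDiffOn_Hi (i j : Fin n) : ContDiffOn ℝ ∞ (fun x => M.Hi x i j) M.Ω := by
  have hdet : ContDiffOn ℝ ∞ M.det M.Ω := a1_contDiffOn_det M.contDiffOn_H
  have hadj : ContDiffOn ℝ ∞ (fun x => ((M.H x).updateRow j (Pi.single i 1)).det) M.Ω := by
    refine a1_contDiffOn_det fun a b => ?_
    simp only [Matrix.updateRow_apply]
    split_ifs
    · exact contDiffOn_const
    · exact M.contDiffOn_H a b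
  refine ((hdet.inv fun x hx => (M.det_pos hx).ne').mul hadj).congr fun x _ => ?_
  rw [Hi, Matrix.inv_def, Matrix.smul_apply, Matrix.adjugate_apply, Ring.inverse_eq_inv',
    smul_eq_mul]
  rfl
lemma contDiffOn_det : ContDiffOn ℝ ∞ M.det M.Ω := by
  exact a1_contDiffOn_det M.contDiffOn_H
lemma contDiffOn_rho : ContDiffOn ℝ ∞ M.rho M.Ω := by
  exact M.contDiffOn_det.rpow_const_of_ne fun x hx => (M.det_pos hx).ne'
lemma contDiffOn_grad : ContDiffOn ℝ ∞ M.grad M.Ω := by
  rw [contDiffOn_euclidean]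
  exact fun i => contDiffOn_pderiv M.isOpen M.smooth i
lemma contDiffOn_X : ContDiffOn ℝ ∞ M.X M.Ω := by
  exact a1_contDiffOn_mkA contDiffOn_id M.smooth
lemma contDiffOn_N : ContDiffOn ℝ ∞ M.N M.Ω := by
  exact a1_contDiffOn_mkA M.contDiffOn_grad.neg contDiffOn_const
lemma contDiffOn_nu : ContDiffOn ℝ ∞ M.nu M.Ω := by
  exact M.contDiffOn_rho.smul M.contDiffOn_N
lemma contDiffOn_hP (P : A n) : ContDiffOn ℝ ∞ (M.hP P) M.Ω := by
  exact M.contDiffOn_N.inner ℝ (contDiffOn_const.sub M.contDiffOn_X)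
lemma contDiffOn_Lam (P : A n) : ContDiffOn ℝ ∞ (M.Lam P) M.Ω := by
  exact M.contDiffOn_nu.inner ℝ (contDiffOn_const.sub M.contDiffOn_X)
lemma contDiffOn_nuv (v : A n) : ContDiffOn ℝ ∞ (M.nuv v) M.Ω := by
  exact M.contDiffOn_nu.inner ℝ contDiffOn_const
lemma contDiffOn_aff (ℓ : A n →L[ℝ] ℝ) (c : ℝ) : ContDiffOn ℝ ∞ (M.aff ℓ c) M.Ω := by
  exact (ℓ.contDiff.comp_contDiffOn M.contDiffOn_X).add contDiffOn_const
lemma contDiffOn_qf (ξ : E n) : ContDiffOn ℝ ∞ (M.qf ξ) M.Ω := by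
  exact ContDiffOn.sum fun i _ => ContDiffOn.sum fun j _ =>
    ((M.contDiffOn_H i j).mul contDiffOn_const).mul contDiffOn_const
lemma Lam_eq (P : A n) (x : E n) : M.Lam P x = M.rho x * M.hP P x := by
  rw [Lam, hP, nu, real_inner_smul_left]
lemma fderiv_u_apply (x v : E n) : fderiv ℝ M.u x v = ⟪M.grad x, v⟫ := by
  rw [fderiv_apply_eq_sum]
  simp [PiLp.inner_apply, grad, mul_comm]

/-! ### convexity -/

lemma a1_hasDerivAt_line {f : E n → ℝ} (hf : ContDiffOn ℝ ∞ f M.Ω) {x v : E n} {t : ℝ}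
    (ht : x + t • v ∈ M.Ω) :
    HasDerivAt (fun s : ℝ => f (x + s • v)) (fderiv ℝ f (x + t • v) v) t := by
  have h1 : DifferentiableAt ℝ f (x + t • v) :=
    (hf.contDiffAt (M.isOpen.mem_nhds ht)).differentiableAt (by simp)
  have h2 : HasDerivAt (fun s : ℝ => x + s • v) v t := by
    simpa using ((hasDerivAt_id t).smul_const v).const_add x
  exact h1.hasFDerivAt.comp_hasDerivAt t h2

lemma a1_qf_pos {x v : E n} (hx : x ∈ M.Ω) (hv : v ≠ 0) : 0 < M.qf v x := by
  have hv' : (fun i => v i) ≠ 0 := fun h => hv (by ext i; exact congrFun h i)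
  have h := (M.pos x hx).dotProduct_mulVec_pos hv'
  refine h.trans_eq ?_
  simp only [qf, H, dotProduct, Matrix.mulVec, Finset.mul_sum, star_trivial]
  refine Finset.sum_congr rfl fun i _ => Finset.sum_congr rfl fun j _ => ?_
  ring

lemma a1_hasDerivAt_grad {x v : E n} {t : ℝ} (ht : x + t • v ∈ M.Ω) :
    HasDerivAt (fun s : ℝ => ⟪M.grad (x + s • v), v⟫) (M.qf v (x + t • v)) t := by
  have h1 : ∀ j, HasDerivAt (fun s : ℝ => pderiv j M.u (x + s • v) * v j)
      (fderiv ℝ (pderiv j M.u) (x + t • v) v * v j) t := fun j =>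
    (M.a1_hasDerivAt_line (contDiffOn_pderiv M.isOpen M.smooth j) ht).mul_const _
  have h2 := HasDerivAt.fun_sum (u := Finset.univ) fun j _ => h1 j
  have e1 : (fun s : ℝ => ⟪M.grad (x + s • v), v⟫) =
      fun s : ℝ => ∑ i, pderiv i M.u (x + s • v) * v i := by
    ext s
    rw [← fderiv_u_apply, fderiv_apply_eq_sum]
  have e2 : M.qf v (x + t • v) = ∑ i, fderiv ℝ (pderiv i M.u) (x + t • v) v * v i := by
    simp only [fderiv_apply_eq_sum, Finset.sum_mul]
    rw [qf, Finset.sum_comm]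
    rfl
  rw [e1, e2]
  exact h2

lemma a1_mem_line {x z : E n} (hx : x ∈ M.Ω) (hz : z ∈ M.Ω) {t : ℝ} (ht : t ∈ Set.Icc (0 : ℝ) 1) :
    x + t • (z - x) ∈ M.Ω := M.convex.add_smul_sub_mem hx hz ht

lemma a1_strictMono {x z : E n} (hx : x ∈ M.Ω) (hz : z ∈ M.Ω) (hxz : x ≠ z) :
    StrictMonoOn (fun s : ℝ => ⟪M.grad (x + s • (z - x)), z - x⟫) (Set.Icc 0 1) := by
  refine strictMonoOn_of_deriv_pos (convex_Icc 0 1) (fun t ht => ?_) (fun t ht => ?_)
  · exact (M.a1_hasDerivAt_grad (M.a1_mem_line hx hz ht)).continuousAt.continuousWithinAt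
  · have h := M.a1_mem_line hx hz (interior_subset ht)
    rw [(M.a1_hasDerivAt_grad h).deriv]
    exact M.a1_qf_pos h (sub_ne_zero.2 hxz.symm)

lemma a1_support_le {x z : E n} (hx : x ∈ M.Ω) (hz : z ∈ M.Ω) :
    M.u x + ⟪M.grad x, z - x⟫ ≤ M.u z := by
  rcases eq_or_ne x z with rfl | hxz
  · simp
  obtain ⟨θ, hθ, h⟩ := exists_hasDerivAt_eq_slope (fun s : ℝ => M.u (x + s • (z - x)))
    (fun s : ℝ => ⟪M.grad (x + s • (z - x)), z - x⟫) one_pos
    (fun t ht => (M.a1_hasDerivAt_line M.smooth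
      (M.a1_mem_line hx hz ht)).continuousAt.continuousWithinAt)
    (fun t ht => by
      have := M.a1_hasDerivAt_line M.smooth (M.a1_mem_line hx hz (Set.Ioo_subset_Icc_self ht))
      rwa [fderiv_u_apply] at this)
  have h2 := M.a1_strictMono hx hz hxz (Set.left_mem_Icc.2 zero_le_one)
    (Set.Ioo_subset_Icc_self hθ) hθ.1
  simp only [zero_smul, add_zero, one_smul, add_sub_cancel, sub_zero, div_one] at h h2
  linarith

lemma convexOn_u : ConvexOn ℝ M.Ω M.u := by
  refine ⟨M.convex, fun x hx y hy a b ha hb hab => ?_⟩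
  have hw := M.convex hx hy ha hb hab
  have h1 := M.a1_support_le hw hx
  have h2 := M.a1_support_le hw hy
  have h3 : a * ⟪M.grad (a • x + b • y), x - (a • x + b • y)⟫ +
      b * ⟪M.grad (a • x + b • y), y - (a • x + b • y)⟫ = 0 := by
    rw [← real_inner_smul_right, ← real_inner_smul_right, ← inner_add_right, smul_sub, smul_sub,
      sub_add_sub_comm, ← add_smul, hab, one_smul, sub_self, inner_zero_right]
  have h4 := mul_le_mul_of_nonneg_left h1 ha
  have h5 := mul_le_mul_of_nonneg_left h2 hb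
  have h6 : M.u (a • x + b • y) = a * M.u (a • x + b • y) + b * M.u (a • x + b • y) := by
    rw [← add_mul, hab, one_mul]
  simp only [smul_eq_mul]
  linarith
lemma support_le {x z : E n} (hx : x ∈ M.Ω) (hz : z ∈ M.Ω) :
    M.u x + ⟪M.grad x, z - x⟫ ≤ M.u z := by
  exact M.a1_support_le hx hz
lemma grad_injOn : Set.InjOn M.grad M.Ω := by
  intro x hx z hz h
  by_contra hxz
  have h2 := M.a1_strictMono hx hz hxz (Set.left_mem_Icc.2 zero_le_one)
    (Set.right_mem_Icc.2 zero_le_one) one_pos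
  simp only [zero_smul, add_zero, one_smul, add_sub_cancel, h] at h2
  exact lt_irrefl _ h2
lemma convex_K : Convex ℝ M.K := by
  intro P hP Q hQ a b ha hb hab
  refine ⟨?_, ?_⟩
  · rw [base_add, base_smul, base_smul]
    exact M.convex hP.1 hQ.1 ha hb hab
  · rw [base_add, base_smul, base_smul, ht_add, ht_smul, ht_smul]
    refine (M.convexOn_u.2 hP.1 hQ.1 ha hb hab).trans ?_
    exact add_le_add (mul_le_mul_of_nonneg_left hP.2 ha) (mul_le_mul_of_nonneg_left hQ.2 hb)
lemma closed_K : IsClosed M.K := M.closed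
lemma X_mem_K {x : E n} (hx : x ∈ M.Ω) : M.X x ∈ M.K := by
  refine ⟨?_, ?_⟩
  · rwa [X, base_mkA]
  · rw [X, base_mkA, ht_mkA]
lemma hP_nonneg {P : A n} (hP : P ∈ M.K) {x : E n} (hx : x ∈ M.Ω) : 0 ≤ M.hP P x := by
  have h1 := M.support_le hx hP.1
  have h2 := hP.2
  rw [AM.hP, inner_A, N, X, base_sub, ht_sub, base_mkA, base_mkA, ht_mkA, ht_mkA, inner_neg_left]
  linarith
lemma Lam_nonneg {P : A n} (hP : P ∈ M.K) {x : E n} (hx : x ∈ M.Ω) : 0 ≤ M.Lam P x := by
  rw [Lam_eq]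
  exact mul_nonneg (M.rho_pos hx).le (M.hP_nonneg hP hx)
/-- a point of `K` that is not interior lies on the graph -/
lemma eq_X_of_not_interior {P : A n} (hP : P ∈ M.K) (hi : P ∉ interior M.K) :
    base P ∈ M.Ω ∧ P = M.X (base P) := by
  refine ⟨hP.1, ?_⟩
  rcases hP.2.eq_or_lt with h | h
  · rw [X, h, mkA_base_ht]
  · refine absurd (mem_interior_iff_mem_nhds.2 ?_) hi
    have h1 : ∀ᶠ Q in 𝓝 P, base Q ∈ M.Ω :=
      a1_continuous_base.continuousAt.eventually_mem (M.isOpen.mem_nhds hP.1)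
    have h2 : ContinuousAt (fun Q : A n => M.u (base Q)) P :=
      (M.smooth.continuousOn.continuousAt (M.isOpen.mem_nhds hP.1)).comp
        a1_continuous_base.continuousAt
    filter_upwards [h1, h2.eventually_lt a1_continuous_ht.continuousAt h] with Q h3 h4
    exact ⟨h3, h4.le⟩
/-- the part of the graph inside a closed set meeting `K` in a bounded set is compact -/
lemma isCompact_preimage {S : Set (A n)} (hS : IsClosed S) (hb : Bornology.IsBounded (M.K ∩ S)) :
    IsCompact {x | x ∈ M.Ω ∧ M.X x ∈ S} := by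
  have hc : IsCompact (M.K ∩ S ∩ (interior M.K)ᶜ) :=
    Metric.isCompact_of_isClosed_isBounded
      ((M.closed_K.inter hS).inter isOpen_interior.isClosed_compl)
      (hb.subset Set.inter_subset_left)
  convert hc.image a1_continuous_base using 1
  ext x
  constructor
  · rintro ⟨hx, hxS⟩
    refine ⟨M.X x, ⟨⟨M.X_mem_K hx, hxS⟩, fun hi => ?_⟩, base_mkA _ _⟩
    have h1 : ContinuousAt (fun t : ℝ => M.X x + t • mkA (0 : E n) 1) 0 := by fun_prop
    have h2 : ∀ᶠ t : ℝ in 𝓝 0, M.X x + t • mkA (0 : E n) 1 ∈ M.K :=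
      h1.eventually_mem (by simpa using mem_interior_iff_mem_nhds.1 hi)
    obtain ⟨t, ht1, ht2⟩ := ((h2.filter_mono (nhdsWithin_le_nhds (s := Set.Iio 0))).and
      self_mem_nhdsWithin).exists
    have h3 := ht1.2
    rw [base_add, base_smul, ht_add, ht_smul, X, base_mkA, base_mkA, ht_mkA, ht_mkA, smul_zero,
      add_zero] at h3
    have h4 : t < 0 := ht2
    linarith
  · rintro ⟨P, ⟨⟨hP, hPS⟩, hi⟩, rfl⟩
    obtain ⟨h1, h2⟩ := M.eq_X_of_not_interior hP hi
    exact ⟨h1, h2 ▸ hPS⟩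

end AM

end Crest.Agent.R236
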