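import Crest.Agent.R236.CoreA

/-!
# Row 236: the structure equations (part B)

With `A = D²u`, `w = det^{-(n+1)/(n+2)} = rho^{n+1}` and `U = det • A⁻¹`:
* Jacobi's formula `∂_k det = det · tr(A⁻¹ ∂_k A)`, `∂_k A⁻¹ = -A⁻¹ (∂_k A) A⁻¹`, and the symmetry of
  third derivatives give `Σ_i ∂_i U^{ij} = 0`, hence `Dc (dd f) = det * Lop f`.
* `rho^{-2} A⁻¹ = rho^n U`, so `Dv φ = rho * Dc (rho^n • φ)`.
* `Dv (dd rho) = rho/(n+1) * Dc (dd w) = 0` by the equation; `ν_k = -rho u_k`,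
  `Dv (dd u_k) = -2 rho^{-2} rho_k`, `ip (dd u_k) (dd rho) = rho_k / rho`, so `ν` is harmonic.
* `Dv (dd x^l) = n ξ^l`, `Dv (dd u) = n ξ^{n+1}`, `ip (dν_a) (dX^b) = ν_a ξ^b - δ_a^b`, `ν(ξ) = 1`,
  `ν(dX) = 0`.
-/

set_option autoImplicit false
open scoped ContDiff RealInnerProductSpace ENNReal Topology
open Crest.GeometryTopology.CoordMetric Crest.GeometryTopology.AffineMaximal MeasureTheory

noncomputable section

namespace Crest.Agent.R236

variable {n : ℕ}

lemma coreB_pderiv_mul {f g : E n → ℝ} {x : E n} (hf : DifferentiableAt ℝ f x)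
    (hg : DifferentiableAt ℝ g x) (i : Fin n) :
    pderiv i (fun z => f z * g z) x = f x * pderiv i g x + g x * pderiv i f x :=
  congrFun (dd_mul hf hg) i

lemma coreB_pderiv_sum {ι : Type*} (s : Finset ι) {f : ι → E n → ℝ} {x : E n}
    (hf : ∀ a ∈ s, DifferentiableAt ℝ (f a) x) (i : Fin n) :
    pderiv i (fun z => ∑ a ∈ s, f a z) x = ∑ a ∈ s, pderiv i (f a) x :=
  (congrFun (dd_sum s hf) i).trans (Finset.sum_apply _ _ _)

lemma coreB_pderiv_congr {f g : E n → ℝ} {x : E n} (h : f =ᶠ[𝓝 x] g) (i : Fin n) :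
    pderiv i f x = pderiv i g x := congrFun (dd_congr h) i

lemma coreB_pderiv_const (c : ℝ) (x : E n) (i : Fin n) : pderiv i (fun _ : E n => c) x = 0 :=
  congrFun (dd_const c x) i

lemma coreB_diff_coord (j : Fin n) (x : E n) : DifferentiableAt ℝ (fun z : E n => z j) x :=
  (EuclideanSpace.proj j : E n →L[ℝ] ℝ).differentiableAt

lemma coreB_pderiv_coord (i j : Fin n) (x : E n) :
    pderiv i (fun z : E n => z j) x = if j = i then 1 else 0 := by
  have : fderiv ℝ (fun z : E n => z j) x = (EuclideanSpace.proj j : E n →L[ℝ] ℝ) :=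
    (EuclideanSpace.proj j : E n →L[ℝ] ℝ).fderiv
  rw [pderiv, this]
  simp

lemma coreB_jacobi {B : E n → Matrix (Fin n) (Fin n) ℝ} {x : E n}
    (hB : ∀ i j, DifferentiableAt ℝ (fun z => B z i j) x) (k : Fin n) :
    pderiv k (fun z => (B z).det) x =
      ∑ j, ∑ i, (B x).adjugate j i * pderiv k (fun z => B z i j) x := by
  simp only [Matrix.det_apply']
  rw [coreB_pderiv_sum _ fun σ _ => by fun_prop]
  have h1 : ∀ σ : Equiv.Perm (Fin n),
      pderiv k (fun z => ((Equiv.Perm.sign σ : ℤ) : ℝ) * ∏ i, B z (σ i) i) x =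
        ∑ j, ((Equiv.Perm.sign σ : ℤ) : ℝ) *
          ∏ i, (B x).updateCol j (fun a => pderiv k (fun z => B z a j) x) (σ i) i := by
    intro σ
    rw [coreB_pderiv_mul (differentiableAt_const _) (by fun_prop), coreB_pderiv_const, mul_zero,
      add_zero, ← Finset.mul_sum, pderiv, fderiv_finsetProd fun i _ => hB _ _,
      sum_apply]
    congr 1
    refine Finset.sum_congr rfl fun j _ => ?_
    rw [← Finset.mul_prod_erase _ _ (Finset.mem_univ j), Matrix.updateCol_self, mul_comm,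
      smul_apply, smul_eq_mul]
    congr 1
    exact Finset.prod_congr rfl fun i hi => (Matrix.updateCol_ne (Finset.ne_of_mem_erase hi)).symm
  simp only [h1]
  rw [Finset.sum_comm]
  refine Finset.sum_congr rfl fun j _ => ?_
  rw [← Matrix.det_apply', ← Matrix.cramer_apply, Matrix.cramer_eq_adjugate_mulVec]
  rfl

lemma coreB_ell (ℓ : A n →L[ℝ] ℝ) (z : E n) (t : ℝ) :
    ℓ (mkA z t) = ∑ i, ℓ (mkA (EuclideanSpace.single i 1) 0) * z i + ℓ (mkA 0 1) * t := by
  have : mkA z t = ∑ i, z i • mkA (EuclideanSpace.single i 1) 0 + t • mkA 0 1 := by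
    ext a
    rcases a with j | a
    · simp
    · simp
  rw [this, map_add, map_sum]
  simp only [map_smul, smul_eq_mul, mul_comm]

namespace AM

variable (M : AM n)

lemma coreB_cd {f : E n → ℝ} (hf : ContDiffOn ℝ ∞ f M.Ω) {x : E n} (hx : x ∈ M.Ω) :
    ContDiffAt ℝ 2 f x :=
  (hf.contDiffAt (M.isOpen.mem_nhds hx)).of_le (WithTop.coe_le_coe.2 le_top)

lemma coreB_d {f : E n → ℝ} (hf : ContDiffOn ℝ ∞ f M.Ω) {x : E n} (hx : x ∈ M.Ω) :
    DifferentiableAt ℝ f x := (M.coreB_cd hf hx).differentiableAt (by norm_num)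

lemma coreB_ev {x : E n} (hx : x ∈ M.Ω) : ∀ᶠ z in 𝓝 x, z ∈ M.Ω := M.isOpen.mem_nhds hx

/-- Jacobi's formula -/
lemma pderiv_det {x : E n} (hx : x ∈ M.Ω) (k : Fin n) :
    pderiv k M.det x = M.det x * ∑ i, ∑ j, M.Hi x i j * pderiv k (fun z => M.H z i j) x := by
  have h := coreB_jacobi (B := M.H) (fun i j => M.coreB_d (M.contDiffOn_H i j) hx) k
  have e : (M.H x).adjugate = M.det x • M.Hi x := by
    rw [Hi, Matrix.inv_def, Ring.inverse_eq_inv', smul_smul]
    change _ = (M.det x * (M.det x)⁻¹) • _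
    rw [mul_inv_cancel₀ (M.det_pos hx).ne', one_smul]
  refine h.trans ?_
  rw [Finset.sum_comm, Finset.mul_sum]
  refine Finset.sum_congr rfl fun i _ => ?_
  rw [Finset.mul_sum]
  refine Finset.sum_congr rfl fun j _ => ?_
  rw [e, Matrix.smul_apply, smul_eq_mul, M.Hi_symm hx j i, mul_assoc]

/-- derivative of the inverse Hessian -/
lemma pderiv_Hi {x : E n} (hx : x ∈ M.Ω) (k i j : Fin n) :
    pderiv k (fun z => M.Hi z i j) x
      = -∑ a, ∑ b, M.Hi x i a * pderiv k (fun z => M.H z a b) x * M.Hi x b j := by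
  set D : Matrix (Fin n) (Fin n) ℝ := Matrix.of fun i j => pderiv k (fun z => M.Hi z i j) x with hD
  set T : Matrix (Fin n) (Fin n) ℝ := Matrix.of fun i j => pderiv k (fun z => M.H z i j) x with hT
  have h1 : D * M.H x = -(M.Hi x * T) := by
    ext a c
    have h2 : (fun z => ∑ b, M.Hi z a b * M.H z b c) =ᶠ[𝓝 x]
        fun _ => (1 : Matrix (Fin n) (Fin n) ℝ) a c :=
      (M.coreB_ev hx).mono fun z hz => by
        rw [← M.Hi_mul_H hz, Matrix.mul_apply]
    have h3 := coreB_pderiv_congr h2 k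
    have d1 := fun i j => M.coreB_d (M.contDiffOn_H i j) hx
    have d2 := fun i j => M.coreB_d (M.contDiffOn_Hi i j) hx
    rw [coreB_pderiv_const, coreB_pderiv_sum _ fun b _ => (d2 a b).fun_mul (d1 b c)] at h3
    simp only [coreB_pderiv_mul (d2 _ _) (d1 _ _), Finset.sum_add_distrib] at h3
    rw [Matrix.neg_apply, Matrix.mul_apply, Matrix.mul_apply, eq_neg_iff_add_eq_zero, add_comm,
      ← h3]
    simp only [hD, hT, Matrix.of_apply, mul_comm]
  have h4 : D = -(M.Hi x * T * M.Hi x) := by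
    rw [← Matrix.neg_mul, ← h1, Matrix.mul_assoc, M.H_mul_Hi hx, Matrix.mul_one]
  have h5 := congrFun (congrFun h4 i) j
  rw [Matrix.neg_apply, Matrix.mul_apply] at h5
  simp only [Matrix.mul_apply, Finset.sum_mul] at h5
  rw [Finset.sum_comm] at h5
  exact h5

/-- symmetry of third derivatives -/
lemma pderiv_H_symm {x : E n} (hx : x ∈ M.Ω) (k i j : Fin n) :
    pderiv k (fun z => M.H z i j) x = pderiv i (fun z => M.H z k j) x := by
  exact hessianMat_symm (M.coreB_cd (contDiffOn_pderiv M.isOpen M.smooth j) hx) k i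

lemma coreB_H_symm {x : E n} (hx : x ∈ M.Ω) (k i j : Fin n) :
    pderiv k (fun z => M.H z i j) x = pderiv k (fun z => M.H z j i) x :=
  coreB_pderiv_congr ((M.coreB_ev hx).mono fun _ hz => M.H_symm hz i j) k

/-- the cofactor matrix is divergence free -/
lemma cofactor_div {x : E n} (hx : x ∈ M.Ω) (j : Fin n) :
    ∑ i, pderiv i (fun z => M.det z * M.Hi z i j) x = 0 := by
  have d2 := fun i j => M.coreB_d (M.contDiffOn_Hi i j) hx
  have d3 := M.coreB_d M.contDiffOn_det hx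
  simp only [coreB_pderiv_mul d3 (d2 _ _), M.pderiv_det hx, M.pderiv_Hi hx]
  rw [Finset.sum_add_distrib, ← Finset.mul_sum, Finset.sum_neg_distrib]
  have e : ∑ i, ∑ a, ∑ b, M.Hi x i a * pderiv i (fun z => M.H z a b) x * M.Hi x b j =
      ∑ b, M.Hi x b j * ∑ i, ∑ a, M.Hi x i a * pderiv b (fun z => M.H z i a) x := by
    simp only [Finset.mul_sum]
    symm
    rw [Finset.sum_comm]
    refine Finset.sum_congr rfl fun i _ => ?_
    rw [Finset.sum_comm]
    refine Finset.sum_congr rfl fun a _ => Finset.sum_congr rfl fun b _ => ?_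
    rw [M.coreB_H_symm hx i a b, M.pderiv_H_symm hx i b a, mul_comm]
  rw [e, mul_neg, Finset.mul_sum, neg_add_eq_zero]
  exact Finset.sum_congr rfl fun i _ => by ring

lemma Dc_dd {f : E n → ℝ} {x : E n} (hx : x ∈ M.Ω) (hf : ContDiffAt ℝ 2 f x) :
    M.Dc (dd f) x = M.det x * M.Lop f x := by
  have d2 := fun i j => M.coreB_d (M.contDiffOn_Hi i j) hx
  have d3 := M.coreB_d M.contDiffOn_det hx
  have d4 := diff1_dd hf
  have h : ∀ i, pderiv i (fun z => M.det z * ∑ j, M.Hi z i j * dd f z j) x =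
      ∑ j, (M.det x * M.Hi x i j * hessianMat f x i j +
        dd f x j * pderiv i (fun z => M.det z * M.Hi z i j) x) := by
    intro i
    simp only [Finset.mul_sum, ← mul_assoc]
    rw [coreB_pderiv_sum _ fun j _ => (d3.fun_mul (d2 i j)).fun_mul (d4 j)]
    exact Finset.sum_congr rfl fun j _ => coreB_pderiv_mul (d3.fun_mul (d2 i j)) (d4 j) i
  simp only [Dc, h, Finset.sum_add_distrib]
  rw [Finset.sum_comm (f := fun i j => dd f x j * _)]
  simp only [← Finset.mul_sum, M.cofactor_div hx, mul_zero, Finset.sum_const_zero, add_zero, Lop,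
    mul_assoc]

lemma coreB_Dv_eq {φ : Form n} {x : E n} (hx : x ∈ M.Ω) :
    M.Dv φ x = M.rho x * M.Dc (fun z => M.rho z ^ n • φ z) x := by
  rw [Dv, Dc]
  congr 1
  refine Finset.sum_congr rfl fun i _ =>
    coreB_pderiv_congr ((M.coreB_ev hx).mono fun z hz => ?_) i
  have h1 := M.det_mul_rho_pow hz
  have hr := (M.rho_pos hz).ne'
  have h2 : (M.rho z)⁻¹ ^ 2 = M.det z * M.rho z ^ n := by
    field_simp
    linear_combination -h1
  simp only [h2, Pi.smul_apply, smul_eq_mul, Finset.mul_sum]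
  exact Finset.sum_congr rfl fun j _ => by ring

/-- `Δ_g f = (L f + n u^{ij} rho_i f_j / rho) / rho` -/
lemma Dv_dd {f : E n → ℝ} {x : E n} (hx : x ∈ M.Ω) (hf : ContDiffAt ℝ 2 f x) :
    M.Dv (dd f) x = M.Lop f x / M.rho x + n * M.ip x (dd M.rho x) (dd f x) / M.rho x := by
  have dr := M.coreB_d M.contDiffOn_rho hx
  have hr := (M.rho_pos hx).ne'
  rw [M.coreB_Dv_eq hx, M.Dc_smul hx (f := fun z => M.rho z ^ n) (dr.pow n) (diff1_dd hf),
    M.Dc_dd hx hf, M.ipc_eq hx, dd_comp dr (hasDerivAt_pow n _), M.ip_smul_left]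
  have h1 := M.det_mul_rho_pow hx
  have h2 : M.rho x * ((n : ℝ) * M.rho x ^ (n - 1)) = n * M.rho x ^ n := by
    rcases n with _ | m
    · simp
    · simp only [Nat.add_sub_cancel]; ring
  rw [mul_assoc (M.det x), ← mul_assoc (M.rho x) (_ * _), h2]
  field_simp
  linear_combination (M.Lop f x + n * M.ip x (dd M.rho x) (dd f x)) * h1

lemma detPower_eq {x : E n} (hx : x ∈ M.Ω) : detPower n M.u x = M.rho x ^ (n + 1) := by
  rw [rho, ← Real.rpow_natCast, ← Real.rpow_mul (M.det_pos hx).le, detPower]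
  congr 1
  push_cast
  ring

lemma contDiffOn_detPower : ContDiffOn ℝ ∞ (detPower n M.u) M.Ω := by
  exact (M.contDiffOn_rho.pow (n + 1)).congr fun x hx => M.detPower_eq hx

lemma Lop_detPower {x : E n} (hx : x ∈ M.Ω) : M.Lop (detPower n M.u) x = 0 := by
  have h := M.eqn x hx
  simp only [affineMaximalOp, mul_assoc, ← Finset.mul_sum] at h
  exact (mul_eq_zero.1 h).resolve_left (M.det_pos hx).ne'

lemma Dv_dd_rho {x : E n} (hx : x ∈ M.Ω) : M.Dv (dd M.rho) x = 0 := by
  have cr := M.coreB_cd M.contDiffOn_rho hx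
  have hr := (M.rho_pos hx).ne'
  have h1 := M.Lop_detPower hx
  rw [M.Lop_congr ((M.coreB_ev hx).mono fun z hz => M.detPower_eq hz),
    M.Lop_comp (F := fun t => t ^ (n + 1)) (F' := fun t => ((n + 1 : ℕ) : ℝ) * t ^ n) cr
      (Filter.Eventually.of_forall fun t => hasDerivAt_pow (n + 1) t)
      ((hasDerivAt_pow n _).const_mul _)] at h1
  have h2 : M.rho x * ((n : ℝ) * M.rho x ^ (n - 1)) = n * M.rho x ^ n := by
    rcases n with _ | m
    · simp
    · simp only [Nat.add_sub_cancel]; ring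
  rw [M.Dv_dd hx cr, ip]
  set S := ∑ i, ∑ j, M.Hi x i j * dd M.rho x i * dd M.rho x j
  have h3 : ((n + 1 : ℕ) : ℝ) * M.rho x ^ n * (M.rho x * M.Lop M.rho x + n * S) = 0 := by
    linear_combination M.rho x * h1 - ((n + 1 : ℕ) : ℝ) * S * h2
  have h4 := (mul_eq_zero.1 h3).resolve_left (by positivity)
  field_simp
  linear_combination h4

lemma coreB_nuv (v : A n) (z : E n) : M.nuv v z = M.rho z * ⟪M.N z, v⟫ := by
  rw [nuv, nu, real_inner_smul_left]

lemma coreB_N (v : A n) (z : E n) : ⟪M.N z, v⟫ = ht v - ∑ k, pderiv k M.u z * base v k := by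
  rw [inner_A, N, base_mkA, ht_mkA, inner_neg_left]
  simp only [PiLp.inner_apply, grad, RCLike.inner_apply, conj_trivial, mul_comm]
  ring

lemma coreB_dd_N (v : A n) {z : E n} (hz : z ∈ M.Ω) (i : Fin n) :
    dd (fun z => ⟪M.N z, v⟫) z i = -∑ k, M.H z i k * base v k := by
  have d := fun k => M.coreB_d (contDiffOn_pderiv M.isOpen M.smooth k) hz
  simp only [M.coreB_N]
  rw [dd_sub (differentiableAt_const _) (by fun_prop), dd_const, zero_sub, Pi.neg_apply, dd,
    coreB_pderiv_sum _ fun k _ => (d k).mul_const _]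
  congr 1
  refine Finset.sum_congr rfl fun k _ => ?_
  rw [coreB_pderiv_mul (d k) (differentiableAt_const _), coreB_pderiv_const, mul_zero, zero_add,
    mul_comm]
  rfl

lemma coreB_dd_hP (P : A n) {z : E n} (hz : z ∈ M.Ω) (i : Fin n) :
    dd (M.hP P) z i = -∑ k, M.H z i k * (base P k - z k) := by
  have d := fun k => M.coreB_d (contDiffOn_pderiv M.isOpen M.smooth k) hz
  have du := M.coreB_d M.smooth hz
  have dc := fun k => (differentiableAt_const (base P k)).fun_sub (coreB_diff_coord k z)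
  have e : M.hP P = fun z => (ht P - M.u z) - ∑ k, pderiv k M.u z * (base P k - z k) := by
    funext z
    rw [hP, M.coreB_N]
    rfl
  rw [e, dd_sub ((differentiableAt_const _).fun_sub du)
      (DifferentiableAt.fun_sum fun k _ => (d k).fun_mul (dc k)),
    dd_sub (differentiableAt_const _) du, dd_const, zero_sub, Pi.sub_apply, Pi.neg_apply, dd, dd,
    coreB_pderiv_sum _ fun k _ => (d k).fun_mul (dc k)]
  have h : ∀ k, pderiv i (fun z => pderiv k M.u z * (base P k - z k)) z =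
      -(if k = i then pderiv k M.u z else 0) + M.H z i k * (base P k - z k) := by
    intro k
    have := congrFun (dd_sub (differentiableAt_const (base P k)) (coreB_diff_coord k z)) i
    rw [dd_const, zero_sub, Pi.neg_apply, dd, dd, coreB_pderiv_coord] at this
    rw [coreB_pderiv_mul (d k) (dc k), this, mul_comm (M.H z i k)]
    congr 1
    split_ifs <;> simp
  simp only [h, Finset.sum_add_distrib, Finset.sum_neg_distrib, Finset.sum_ite_eq',
    Finset.mem_univ, if_true]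
  ring

lemma coreB_Hi_H {z : E n} (hz : z ∈ M.Ω) {β V : Fin n → ℝ}
    (h : ∀ i, β i = -∑ k, M.H z i k * V k) (i : Fin n) : ∑ j, M.Hi z i j * β j = -V i := by
  have e : β = -(M.H z).mulVec V := funext h
  have : (M.Hi z).mulVec β = -V := by
    rw [e, Matrix.mulVec_neg, Matrix.mulVec_mulVec, M.Hi_mul_H hz, Matrix.one_mulVec]
  exact congrFun this i

lemma coreB_ip {z : E n} (hz : z ∈ M.Ω) {β V : Fin n → ℝ}
    (h : ∀ i, β i = -∑ k, M.H z i k * V k) (α : Fin n → ℝ) :
    M.ip z α β = -((M.rho z)⁻¹ * ∑ i, α i * V i) := by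
  rw [ip, ← mul_neg, ← Finset.sum_neg_distrib]
  congr 1
  refine Finset.sum_congr rfl fun i _ => ?_
  rw [← mul_neg, ← M.coreB_Hi_H hz h i, Finset.mul_sum]
  exact Finset.sum_congr rfl fun j _ => by ring

lemma coreB_key {x : E n} (hx : x ∈ M.Ω) {g : E n → ℝ} (hg : ContDiffOn ℝ ∞ g M.Ω)
    {V : E n → Fin n → ℝ} (hV : ∀ i, DifferentiableAt ℝ (fun z => V z i) x)
    (h : ∀ z ∈ M.Ω, ∀ i, dd g z i = -∑ k, M.H z i k * V z k) :
    M.Dv (dd fun z => M.rho z * g z) x = -∑ i, pderiv i (fun z => V z i) x := by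
  have cr := M.coreB_cd M.contDiffOn_rho hx
  have dr := M.coreB_d M.contDiffOn_rho hx
  have cg := M.coreB_cd hg hx
  have dg := M.coreB_d hg hx
  have hr := (M.rho_pos hx).ne'
  have h1 : M.Dv (dd g) x = 2 * (M.rho x)⁻¹ ^ 2 * ∑ i, dd M.rho x i * V x i -
      (M.rho x)⁻¹ * ∑ i, pderiv i (fun z => V z i) x := by
    rw [Dv, Finset.mul_sum, Finset.mul_sum, Finset.mul_sum, ← Finset.sum_sub_distrib]
    refine Finset.sum_congr rfl fun i _ => ?_
    have e1 : (fun z => (M.rho z)⁻¹ ^ 2 * ∑ j, M.Hi z i j * dd g z j) =ᶠ[𝓝 x]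
        fun z => (-(M.rho z)⁻¹ ^ 2) * V z i :=
      (M.coreB_ev hx).mono fun z hz => by
        dsimp only
        rw [M.coreB_Hi_H hz (h z hz) i]
        ring
    have e2 := congrFun (dd_comp (F := fun t => -t⁻¹ ^ 2) dr ((hasDerivAt_inv hr).fun_pow 2).fun_neg) i
    rw [coreB_pderiv_congr e1, coreB_pderiv_mul ((dr.fun_inv hr).fun_pow 2).fun_neg (hV i)]
    rw [dd] at e2
    rw [e2, Pi.smul_apply, smul_eq_mul]
    norm_num
    field_simp
    ring
  rw [M.Dv_congr (ψ := fun z => M.rho z • dd g z + g z • dd M.rho z)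
      ((M.coreB_ev hx).mono fun z hz =>
        dd_mul (M.coreB_d M.contDiffOn_rho hz) (M.coreB_d hg hz)),
    M.Dv_add (φ := fun z => M.rho z • dd g z) (ψ := fun z => g z • dd M.rho z) hx
      (fun j => dr.fun_mul (diff1_dd cg j)) (fun j => dg.fun_mul (diff1_dd cr j)),
    M.Dv_smul hx dr (diff1_dd cg), M.Dv_smul hx dg (diff1_dd cr), M.Dv_dd_rho hx, h1,
    M.ip_comm hx (dd g x), M.coreB_ip hx (h x hx)]
  field_simp
  ring

/-- the conormal is harmonic -/
lemma Dv_dd_nuv (v : A n) {x : E n} (hx : x ∈ M.Ω) : M.Dv (dd (M.nuv v)) x = 0 := by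
  have h := M.coreB_key hx (g := fun z => ⟪M.N z, v⟫) (M.contDiffOn_N.inner ℝ contDiffOn_const)
    (V := fun _ => base v) (fun _ => differentiableAt_const _) fun z hz => M.coreB_dd_N v hz
  simp only [coreB_pderiv_const, Finset.sum_const_zero, neg_zero] at h
  rw [← h]
  congr 2
  funext z
  exact M.coreB_nuv v z

lemma coreB_dd_aff (ℓ : A n →L[ℝ] ℝ) (c : ℝ) {x : E n} (hx : x ∈ M.Ω) :
    dd (M.aff ℓ c) x = (fun i => ℓ (mkA (EuclideanSpace.single i 1) 0)) + ℓ (mkA 0 1) • dd M.u x := by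
  have du := M.coreB_d M.smooth hx
  have dc := fun k => (coreB_diff_coord k x).const_mul (ℓ (mkA (EuclideanSpace.single k 1) 0))
  have e : M.aff ℓ c = fun z => (∑ i, ℓ (mkA (EuclideanSpace.single i 1) 0) * z i +
      ℓ (mkA 0 1) * M.u z) + c := by
    funext z
    rw [aff, X, coreB_ell]
  have ds := DifferentiableAt.fun_sum (u := Finset.univ) fun k _ => dc k
  rw [e, dd_add (ds.fun_add (du.const_mul _)) (differentiableAt_const _), dd_const, add_zero,
    dd_add ds (du.const_mul _), dd_const_mul _ du, dd_sum _ fun k _ => dc k]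
  congr 1
  funext i
  simp only [dd_const_mul _ (coreB_diff_coord _ x), Finset.sum_apply, Pi.smul_apply, smul_eq_mul]
  simp [dd, coreB_pderiv_coord]

lemma coreB_ip_rho_aff (ℓ : A n →L[ℝ] ℝ) (c : ℝ) {x : E n} (hx : x ∈ M.Ω) :
    M.ip x (dd M.rho x) (dd (M.aff ℓ c) x) = M.rho x * ℓ (M.xi x) - ℓ (mkA 0 1) := by
  have hr := (M.rho_pos hx).ne'
  have e : (fun i => ℓ (mkA (EuclideanSpace.single i 1) 0)) =
      ∑ i, ℓ (mkA (EuclideanSpace.single i 1) 0) • (Pi.single i 1 : Fin n → ℝ) := by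
    funext j
    simp [Pi.single_apply]
  rw [M.coreB_dd_aff ℓ c hx, M.ip_add_right, M.ip_smul_right, e, M.ip_sum_right, xi,
    coreB_ell ℓ _ (_ / _), mul_add, Finset.mul_sum, add_sub_assoc]
  congr 1
  · refine Finset.sum_congr rfl fun i _ => ?_
    rw [M.ip_smul_right]
    field_simp
  · field_simp
    ring

/-- `Δ X = n ξ` -/
lemma Dv_dd_aff (ℓ : A n →L[ℝ] ℝ) (c : ℝ) {x : E n} (hx : x ∈ M.Ω) :
    M.Dv (dd (M.aff ℓ c)) x = n * ℓ (M.xi x) := by
  have hr := (M.rho_pos hx).ne'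
  have h1 : M.Lop (M.aff ℓ c) x = ℓ (mkA 0 1) * n := by
    rw [← M.Lop_u hx, Lop, Lop, Finset.mul_sum]
    refine Finset.sum_congr rfl fun i _ => ?_
    rw [Finset.mul_sum]
    refine Finset.sum_congr rfl fun j _ => ?_
    have d := M.coreB_d (contDiffOn_pderiv M.isOpen M.smooth j) hx
    have e1 : (fun y => pderiv j (M.aff ℓ c) y) =ᶠ[𝓝 x]
        fun y => ℓ (mkA (EuclideanSpace.single j 1) 0) + ℓ (mkA 0 1) * pderiv j M.u y :=
      (M.coreB_ev hx).mono fun z hz => congrFun (M.coreB_dd_aff ℓ c hz) j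
    have e2 := dd_congr e1
    rw [dd_add (differentiableAt_const _) (d.const_mul _), dd_const, zero_add,
      dd_const_mul _ d] at e2
    have e3 : hessianMat (M.aff ℓ c) x i j = ℓ (mkA 0 1) * hessianMat M.u x i j := congrFun e2 i
    rw [e3]
    ring
  rw [M.Dv_dd hx (M.coreB_cd (M.contDiffOn_aff ℓ c) hx), h1, M.coreB_ip_rho_aff ℓ c hx]
  field_simp
  ring

lemma Dv_dd_Lam (P : A n) {x : E n} (hx : x ∈ M.Ω) : M.Dv (dd (M.Lam P)) x = n := by
  have h := M.coreB_key hx (M.contDiffOn_hP P) (V := fun z k => base P k - z k)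
    (fun k => (differentiableAt_const _).sub (coreB_diff_coord k x))
    fun z hz => M.coreB_dd_hP P hz
  have e : ∀ k, pderiv k (fun z : E n => base P k - z k) x = -1 := by
    intro k
    have := congrFun (dd_sub (differentiableAt_const (base P k)) (coreB_diff_coord k x)) k
    rwa [dd_const, zero_sub, Pi.neg_apply, dd, dd, coreB_pderiv_coord, if_pos rfl] at this
  simp only [e] at h
  rw [funext (M.Lam_eq P), h]
  simp

lemma ip_dd_nuv_aff (v : A n) (ℓ : A n →L[ℝ] ℝ) (c : ℝ) {x : E n} (hx : x ∈ M.Ω) :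
    M.ip x (dd (M.nuv v) x) (dd (M.aff ℓ c) x) = M.nuv v x * ℓ (M.xi x) - ℓ v := by
  have hr := (M.rho_pos hx).ne'
  rw [funext (M.coreB_nuv v), dd_mul (M.coreB_d M.contDiffOn_rho hx)
      (M.coreB_d (M.contDiffOn_N.inner ℝ contDiffOn_const) hx), M.ip_add_left, M.ip_smul_left,
    M.ip_smul_left, M.coreB_ip_rho_aff ℓ c hx, M.ip_comm hx, M.coreB_ip hx (M.coreB_dd_N v hx),
    M.coreB_dd_aff ℓ c hx]
  have e := coreB_ell ℓ (base v) (ht v)
  rw [mkA_base_ht] at e
  have e2 := M.coreB_N v x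
  simp only [Pi.add_apply, Pi.smul_apply, smul_eq_mul, add_mul, Finset.sum_add_distrib, mul_assoc,
    ← Finset.mul_sum, dd]
  field_simp
  linear_combination e - ℓ (mkA 0 1) * e2

/-- `dΛ_P` is the differential of `ν` evaluated on the frozen vector `P - X x` -/
lemma dd_Lam (P : A n) {x : E n} (hx : x ∈ M.Ω) :
    dd (M.Lam P) x = dd (M.nuv (P - M.X x)) x := by
  have dr := M.coreB_d M.contDiffOn_rho hx
  rw [funext (M.Lam_eq P), funext (M.coreB_nuv _), dd_mul dr (M.coreB_d (M.contDiffOn_hP P) hx),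
    dd_mul dr (M.coreB_d (M.contDiffOn_N.inner ℝ contDiffOn_const) hx)]
  congr 2
  funext i
  rw [M.coreB_dd_hP P hx, M.coreB_dd_N _ hx]
  rfl

lemma ip_dd_Lam_aff (P : A n) (ℓ : A n →L[ℝ] ℝ) (c : ℝ) {x : E n} (hx : x ∈ M.Ω) :
    M.ip x (dd (M.Lam P) x) (dd (M.aff ℓ c) x) = M.Lam P x * ℓ (M.xi x) - ℓ (P - M.X x) := by
  rw [M.dd_Lam P hx, M.ip_dd_nuv_aff _ ℓ c hx]
  rfl

/-- the differential of an affine function along the graph -/
lemma dd_aff (ℓ : A n →L[ℝ] ℝ) (c : ℝ) {x : E n} (hx : x ∈ M.Ω) (i : Fin n) :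
    dd (M.aff ℓ c) x i = ℓ (mkA (EuclideanSpace.single i 1) (pderiv i M.u x)) := by
  rw [M.coreB_dd_aff ℓ c hx, coreB_ell ℓ _ (pderiv i M.u x)]
  simp [dd]

end AM

end Crest.Agent.R236
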