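import Crest.Agent.R236.ExAux
import Crest.Agent.R236.Ode

/-!
# Row 236: the entire non-quadratic affine maximal graph in dimension 10

Let `t = x 9` (last coordinate), `σ = Σ_{i<9} x_i² = ‖x‖² - t²`, `Ψ(σ) = exp (½ ∫₀^σ a)` (so
`Ψ' = a Ψ / 2`), `e = 1 + σ b`, `u = √(Ψ(σ)² + t²)`.

For `f(x) = F(σ(x), t(x))` the Hessian is
`2 F_σ P + 4 F_σσ x' x'ᵀ + 2 F_σt (x' εᵀ + ε x'ᵀ) + F_tt ε εᵀ` (`P = 1 - ε εᵀ`, `ε` the last basis vector,
`x' = P x`). For `u`: with `ψ(x') = Ψ(σ)`, `D²ψ = aΨ (P + b x' x'ᵀ)` (eigenvalues `aΨ` (8 times) and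
`aΨ e`), `D²u = (ψ/u) D²ψ ⊕ 0 + (ψ²/u³) z zᵀ` with `z = ε - (t/ψ) ∇ψ`, `∇ψ = aΨ x'`. Hence `D²u` is
positive definite, `det D²u = Ψ^20 a^9 e u^{-12}` (e.g. via `Matrix.det_one_add_mul_comm` or a
factorisation `D²u = Lᵀ (block diagonal) L` with `L` unipotent), so
`detPower = u^11 W(σ)`, `W = (Ψ^20 a^9 e)^{-11/12}`, and the ODE gives
`W' / W = -11 a (p + e + 4) / (2 p + 9)` with `p = σ a`. The inverse Hessian is the quadratic form
`(v, s) ↦ (u/ψ) (D²ψ)⁻¹ (v + (t s/ψ) ∇ψ) + s² u³/ψ²`, `(D²ψ)⁻¹ = (aΨ)⁻¹ (P - (b/e) x' x'ᵀ)`.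
The trace `tr((D²u)⁻¹ D²w)` then vanishes by the identity (with `q = p (2p+2e+8)/(2p+9)`,
`' = 2σ d/dσ`) `q' = 11 q² + q - 8 e q - 22 p q + 10 p² + 10 p e`, which follows from the ODE by
`field_simp; ring`. On the `t`-axis `u = √(1 + t²)` is not a polynomial of degree `≤ 2`
(compare the values at `t = 0, ±1, ±2` or `t = 0, ±3/4, ±4/3`, where they are rational).
-/

set_option autoImplicit false
open scoped ContDiff
open Crest.GeometryTopology.CoordMetric Crest.GeometryTopology.AffineMaximal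

namespace Crest.Agent.R236

namespace Ex

/-- the scalar identity behind the equation -/
lemma k_identity {a b σ : ℝ} (hD : 2 * (σ * a) + 9 ≠ 0) :
    let e := 1 + σ * b
    let g := -9 * b + a + 12 * a * (2 * e - 1) / (2 * σ * a + 9)
    let k := a * (2 * (σ * a) + 2 * e + 8) / (2 * (σ * a) + 9)
    σ * (((a * (b - a) * (2 * (σ * a) + 2 * e + 8) +
      a * (2 * (2 * a + σ * (a * (b - a))) + 2 * (e * g) + 0)) * (2 * (σ * a) + 9) -
      a * (2 * (σ * a) + 2 * e + 8) * (2 * (2 * a + σ * (a * (b - a))) + 0)) /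
        (2 * (σ * a) + 9) ^ 2) =
      11 * σ * k ^ 2 - (8 * e + 1) * k - 22 * σ * a * k + 10 * a ^ 2 * σ + 10 * a * e := by
  intro e g k
  simp only [e, g, k, mul_assoc 2 σ a]
  generalize hDe : 2 * (σ * a) + 9 = D at hD ⊢
  field_simp
  subst hDe
  ring

theorem main (a b S : E 10 → ℝ) (ha : ∀ z, 0 < a z) (he : ∀ z, 0 < 1 + sg z * b z)
    (hS : ∀ z, 0 < S z) (da : ∀ z, DA a z (a z * (b z - a z)) 0)
    (de : ∀ z, DA (fun z => 1 + sg z * b z) z ((1 + sg z * b z) * (-9 * b z + a z +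
      12 * a z * (2 * (1 + sg z * b z) - 1) / (2 * sg z * a z + 9))) 0)
    (dS : ∀ z, DA S z (2 * a z * S z) 0) (x : E 10) :
    (hessianMat (fun z => √(S z + z 9 ^ 2)) x).PosDef ∧
      affineMaximalOp 10 (fun z => √(S z + z 9 ^ 2)) x = 0 := by
  set u : E 10 → ℝ := fun z => √(S z + z 9 ^ 2) with hu
  have hp : ∀ z, 0 < S z + z 9 ^ 2 := fun z => by have := hS z; positivity
  have u0 : ∀ z, 0 < u z := fun z => Real.sqrt_pos.2 (hp z)
  have u2 : ∀ z, S z = u z ^ 2 - z 9 ^ 2 := fun z => by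
    rw [hu, Real.sq_sqrt (hp z).le]; ring
  have hD : ∀ z, 0 < 2 * (sg z * a z) + 9 := fun z => by
    have := ha z; have := sg_nonneg z; positivity
  have du : ∀ z, DA u z (a z * S z / u z) (z 9 / u z) := fun z =>
    (((dS z).add (DA.t.pow 1)).comp (Real.hasDerivAt_sqrt (hp z).ne')).congr
      (by change _ = _ / √(S z + z 9 ^ 2); field_simp; ring)
      (by change _ = _ / √(S z + z 9 ^ 2); field_simp; ring)
  have hH : ∀ z, hessianMat u z = Mx z (a z * S z / u z)
      (a z * b z * S z / u z + a z ^ 2 * S z * z 9 ^ 2 / u z ^ 3) (-(a z * S z * z 9 / u z ^ 3))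
      (-(a z * S z * z 9 / u z ^ 3)) (S z / u z ^ 3) := fun z => by
    have := (u0 z).ne'
    refine hess du ((((da z).mul (dS z)).div (du z) this).congr ?_ ?_)
      ((DA.t.div (du z) this).congr ?_ ?_)
    all_goals rw [u2 z]; field_simp; try ring
  have hdet : ∀ z, (hessianMat u z).det =
      a z ^ 9 * (1 + sg z * b z) * S z ^ 10 / u z ^ 12 := fun z => by
    have := (u0 z).ne'
    rw [hH, Mx_det _ _ _ _ _ _ (div_pos (mul_pos (ha z) (hS z)) (u0 z)).ne']
    field_simp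
    ring
  have h0 := (u0 x).ne'
  have h1 := (ha x).ne'
  have h2 := (he x).ne'
  have h3 := (hS x).ne'
  constructor
  · obtain ⟨f, f0, hf⟩ : ∃ f : ℝ, 0 < f ∧ f ^ 2 = 1 + sg x * b x :=
      ⟨√_, Real.sqrt_pos.2 (he x), Real.sq_sqrt (he x).le⟩
    obtain ⟨s, s0, hs⟩ : ∃ s : ℝ, 0 < s ∧ s * s = a x * S x / u x :=
      ⟨√_, Real.sqrt_pos.2 (div_pos (mul_pos (ha x) (hS x)) (u0 x)),
        Real.mul_self_sqrt (div_pos (mul_pos (ha x) (hS x)) (u0 x)).le⟩
    obtain ⟨r, r0, hr⟩ : ∃ r : ℝ, 0 < r ∧ r * r = S x / u x ^ 3 :=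
      ⟨√_, Real.sqrt_pos.2 (div_pos (hS x) (pow_pos (u0 x) 3)),
        Real.mul_self_sqrt (div_pos (hS x) (pow_pos (u0 x) 3)).le⟩
    obtain ⟨μ, hμ⟩ : ∃ μ : ℝ, μ * (f + 1) = b x := ⟨b x / (f + 1), by field_simp⟩
    have hμ1 : 1 + μ * sg x = f := by
      apply mul_right_cancel₀ (show f + 1 ≠ 0 by positivity)
      linear_combination sg x * hμ - hf
    have := Matrix.PosDef.conjTranspose_mul_self (Mx x s (s * μ) (-(r * a x * x 9)) 0 r)
      (Matrix.mulVec_injective_of_isUnit ((Matrix.isUnit_iff_isUnit_det _).2 (by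
        rw [Mx_det _ _ _ _ _ _ s0.ne', isUnit_iff_ne_zero,
          show (s + s * μ * sg x) * r - -(r * a x * x 9) * 0 * sg x = s * (1 + μ * sg x) * r by ring,
          hμ1]
        positivity)))
    rw [Matrix.conjTranspose_eq_transpose_of_trivial, Mx_transpose, Mx_mul] at this
    rw [hH]
    convert this using 2
    · exact hs.symm
    · linear_combination (-(b x)) * hs - (a x * x 9) ^ 2 * hr - s * s * hμ - s * s * μ * hμ1
    · linear_combination (a x * x 9) * hr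
    · linear_combination (a x * x 9) * hr
    · linear_combination -hr
  · set k : E 10 → ℝ := fun z => a z * (2 * (sg z * a z) + 2 * (1 + sg z * b z) + 8) /
      (2 * (sg z * a z) + 9) with hk
    set W : E 10 → ℝ := fun z => (a z ^ 9 * (1 + sg z * b z) * S z ^ 10) ^ (-11 / 12 : ℝ) with hW
    have hp' : ∀ z, 0 < a z ^ 9 * (1 + sg z * b z) * S z ^ 10 := fun z =>
      mul_pos (mul_pos (pow_pos (ha z) _) (he z)) (pow_pos (hS z) _)
    have hw : detPower 10 u = fun z => u z ^ 11 * W z := by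
      funext z
      rw [detPower, hdet, Real.div_rpow (hp' z).le (pow_pos (u0 z) _).le, ← Real.rpow_natCast (u z),
        ← Real.rpow_natCast (u z), ← Real.rpow_mul (u0 z).le, div_eq_mul_inv,
        ← Real.rpow_neg (u0 z).le, mul_comm]
      norm_num [hW]
    have dW : ∀ z, DA W z (-11 * k z * W z) 0 := fun z => by
      refine (((((da z).pow 8).mul (de z)).mul ((dS z).pow 9)).comp
        (Real.hasDerivAt_rpow_const (p := -11 / 12) (Or.inl (hp' z).ne'))).congr ?_ (by simp)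
      have := (ha z).ne'
      have := (he z).ne'
      have := (hS z).ne'
      have h4 := (hD z).ne'
      simp only [hW, hk, mul_assoc 2 (sg z) (a z)]
      rw [Real.rpow_sub_one (hp' z).ne']
      generalize hDe : 2 * (sg z * a z) + 9 = D at h4 ⊢
      field_simp
      subst hDe
      ring
    have dk := ((da x).mul (((((DA.sg.mul (da x)).cmul 2).add ((de x).cmul 2))).add
      (DA.const 8))).div (((DA.sg.mul (da x)).cmul 2).add (DA.const 9)) (hD x).ne'
    have hid := k_identity (b := b x) (hD x).ne'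
    simp only at hid
    obtain ⟨k1, dk, hid⟩ : ∃ k1, DA k x k1 0 ∧ sg x * k1 = 11 * sg x * k x ^ 2 -
        (8 * (1 + sg x * b x) + 1) * k x - 22 * sg x * a x * k x + 10 * a x ^ 2 * sg x +
        10 * a x * (1 + sg x * b x) := ⟨_, dk.congr rfl (by simp), hid⟩
    have d9 : ∀ z, DA (fun z => u z ^ 9) z (9 * u z ^ 7 * a z * S z) (9 * u z ^ 7 * z 9) := fun z => by
      have := (u0 z).ne'
      exact ((du z).pow 8).congr (by field_simp; ring) (by field_simp; ring)
    have d11 : ∀ z, DA (fun z => u z ^ 11) z (11 * u z ^ 9 * a z * S z) (11 * u z ^ 9 * z 9) :=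
      fun z => by
        have := (u0 z).ne'
        exact ((du z).pow 10).congr (by field_simp; ring) (by field_simp; ring)
    have dw : ∀ z, DA (fun z => u z ^ 11 * W z) z
        (11 * (W z * (a z * S z * u z ^ 9 - k z * u z ^ 11))) (11 * (W z * (u z ^ 9 * z 9))) :=
      fun z => ((d11 z).mul (dW z)).congr (by ring) (by ring)
    have hN := hess dw (((dW x).mul ((((da x).mul (dS x)).mul (d9 x)).sub (dk.mul (d11 x)))).cmul 11)
      (((dW x).mul ((d9 x).mul DA.t)).cmul 11)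
    have hinv : (hessianMat u x)⁻¹ = (u x / (a x * (1 + sg x * b x) * S x)) •
        Mx x (1 + sg x * b x) (-b x) (x 9 * a x) (x 9 * a x)
          (x 9 ^ 2 * a x ^ 2 * sg x + a x * (1 + sg x * b x) * u x ^ 2) := by
      apply Matrix.inv_eq_right_inv
      rw [hH, Mx_smul, Mx_mul, ← Mx_one x]
      congr 1 <;> field_simp <;> ring
    rw [affineMaximalOp, sum_mul_eq_trace, hw, hN, hinv, Mx_transpose, smul_mul_assoc, Mx_mul,
      Matrix.trace_smul, Mx_trace]
    refine mul_eq_zero_of_right _ (mul_eq_zero_of_right _ ?_)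
    rw [u2 x]
    linear_combination (-11 * W x * u x ^ 11) * hid

end Ex

open Ex in
theorem exists_example : ∃ u : EuclideanSpace ℝ (Fin 10) → ℝ, ContDiff ℝ ∞ u ∧
    (∀ x, (hessianMat u x).PosDef) ∧ (∀ x, affineMaximalOp 10 u x = 0) ∧
      ¬ ∃ (A : Matrix (Fin 10) (Fin 10) ℝ) (b : EuclideanSpace ℝ (Fin 10)) (c : ℝ),
        ∀ x, u x = (1 / 2) * (∑ i, ∑ j, A i j * x i * x j) + (∑ i, b i * x i) + c := by
  obtain ⟨a, b, σ₀, h0, ha, -, h⟩ := exists_ode
  have hm : ∀ z, sg z ∈ Set.Ioi (-σ₀) := fun z => lt_of_lt_of_le (by linarith) (sg_nonneg z)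
  have hI : ∀ σ ∈ Set.Ioi (-σ₀), HasDerivAt (fun s => ∫ r in (0 : ℝ)..s, a r) (a σ) σ := by
    intro σ hσ
    refine intervalIntegral.integral_hasDerivAt_right (ContinuousOn.intervalIntegrable
      (ha.continuousOn.mono ?_)) (ha.continuousOn.stronglyMeasurableAtFilter isOpen_Ioi σ hσ)
      (ha.continuousOn.continuousAt (isOpen_Ioi.mem_nhds hσ))
    exact Set.ordConnected_Ioi.uIcc_subset (by simpa using h0) hσ
  have hI' : ContDiffOn ℝ ∞ (fun s => ∫ r in (0 : ℝ)..s, a r) (Set.Ioi (-σ₀)) :=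
    (contDiffOn_infty_iff_deriv_of_isOpen isOpen_Ioi).2
      ⟨fun σ hσ => (hI σ hσ).differentiableAt.differentiableWithinAt,
        ha.congr fun σ hσ => (hI σ hσ).deriv⟩
  have hm2 := main (fun z => a (sg z)) (fun z => b (sg z))
    (fun z => Real.exp (∫ r in (0 : ℝ)..sg z, a r)) (fun z => (h _ (hm z)).1)
    (fun z => (h _ (hm z)).2.1) (fun z => Real.exp_pos _)
    (fun z => (DA.sg.comp (h _ (hm z)).2.2.2.1).congr (by ring) (by ring))
    (fun z => (DA.sg.comp (h _ (hm z)).2.2.2.2).congr (by ring) (by ring))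
    (fun z => (DA.sg.comp (hI _ (hm z)).exp).congr (by ring) (by ring))
  refine ⟨_, ?_, fun x => (hm2 x).1, fun x => (hm2 x).2, ?_⟩
  · refine ContDiff.sqrt (ContDiff.add (hI'.comp_contDiff sg_diff hm).exp (by fun_prop)) fun z => ?_
    positivity
  · rintro ⟨A, v, c, hq⟩
    have key : ∀ t : ℝ, √(1 + t ^ 2) = 1 / 2 * (A 9 9 * t * t) + v 9 * t + c := fun t => by
      have h1 : sg (EuclideanSpace.single 9 t) = 0 := by
        refine Finset.sum_eq_zero fun i _ => ?_
        by_cases hi : i = 9 <;> simp [yv, ev, hi]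
      have := hq (EuclideanSpace.single 9 t)
      simpa [h1] using this
    have k0 := key 0
    have k1 := key (3 / 4)
    have k2 := key (-3 / 4)
    have k3 := key (4 / 3)
    rw [show (1 : ℝ) + 0 ^ 2 = 1 ^ 2 by norm_num, Real.sqrt_sq (by norm_num)] at k0
    rw [show (1 : ℝ) + (3 / 4) ^ 2 = (5 / 4) ^ 2 by norm_num, Real.sqrt_sq (by norm_num)] at k1
    rw [show (1 : ℝ) + (-3 / 4) ^ 2 = (5 / 4) ^ 2 by norm_num, Real.sqrt_sq (by norm_num)] at k2
    rw [show (1 : ℝ) + (4 / 3) ^ 2 = (5 / 3) ^ 2 by norm_num, Real.sqrt_sq (by norm_num)] at k3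
    linarith

end Crest.Agent.R236
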