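import Crest.Agent.R236.CoreA0

/-!
# Row 236, example in dimension 10: matrices and calculus for functions of `(σ, t)`
-/

set_option autoImplicit false
open scoped ContDiff
open Crest.GeometryTopology.CoordMetric Crest.GeometryTopology.AffineMaximal Matrix

noncomputable section

namespace Crest.Agent.R236.Ex

/-- the last basis vector -/
def ev : Fin 10 → ℝ := fun i => if i = 9 then 1 else 0
/-- the first nine coordinates -/
def yv (x : E 10) : Fin 10 → ℝ := fun i => x i - x 9 * ev i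
/-- `σ = |x'|²` -/
def sg (x : E 10) : ℝ := ∑ i, yv x i * yv x i

lemma ee : ev ⬝ᵥ ev = 1 := by simp [dotProduct, ev]
lemma ey (x : E 10) : ev ⬝ᵥ yv x = 0 := by simp [dotProduct, ev, yv]
lemma ye (x : E 10) : yv x ⬝ᵥ ev = 0 := by rw [dotProduct_comm, ey]
lemma yy (x : E 10) : yv x ⬝ᵥ yv x = sg x := rfl
lemma sg_nonneg (x : E 10) : 0 ≤ sg x := Finset.sum_nonneg fun _ _ => mul_self_nonneg _

/-- `a P + a1 y yᵀ + a2 ε yᵀ + a3 y εᵀ + b ε εᵀ` -/
def Mx (x : E 10) (a a1 a2 a3 b : ℝ) : Matrix (Fin 10) (Fin 10) ℝ :=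
  a • 1 + a1 • vecMulVec (yv x) (yv x) + a2 • vecMulVec ev (yv x) + a3 • vecMulVec (yv x) ev +
    (b - a) • vecMulVec ev ev

variable (x : E 10) (a a1 a2 a3 b c c1 c2 c3 d : ℝ)

lemma Mx_mul : Mx x a a1 a2 a3 b * Mx x c c1 c2 c3 d =
    Mx x (a * c) (a * c1 + a1 * c + a1 * c1 * sg x + a3 * c2) (a2 * c + a2 * c1 * sg x + b * c2)
      (a * c3 + a1 * c3 * sg x + a3 * d) (a2 * c3 * sg x + b * d) := by
  simp only [Mx, mul_add, add_mul, smul_mul_assoc, mul_smul_comm, one_mul, mul_one,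
    vecMulVec_mul_vecMulVec, ee, ey, ye, yy, vecMulVec_smul]
  module

lemma Mx_one : Mx x 1 0 0 0 1 = 1 := by simp [Mx]

lemma Mx_smul : c • Mx x a a1 a2 a3 b = Mx x (c * a) (c * a1) (c * a2) (c * a3) (c * b) := by
  simp only [Mx]
  module

lemma Mx_transpose : (Mx x a a1 a2 a3 b)ᵀ = Mx x a a1 a3 a2 b := by
  simp only [Mx, transpose_add, transpose_smul, transpose_one, transpose_vecMulVec]
  module

lemma Mx_trace : (Mx x a a1 a2 a3 b).trace = 9 * a + a1 * sg x + b := by
  simp only [Mx, trace_add, trace_smul, trace_one, trace_vecMulVec, ee, ey, ye, yy, smul_eq_mul,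
    Fintype.card_fin]
  push_cast
  ring

lemma Mx_det (ha : a ≠ 0) :
    (Mx x a a1 a2 a3 b).det = a ^ 8 * ((a + a1 * sg x) * b - a2 * a3 * sg x) := by
  have e : Mx x a a1 a2 a3 b = a • (1 + (of ![yv x, ev])ᵀ *
      of ![(a1 / a) • yv x + (a3 / a) • ev, (a2 / a) • yv x + ((b - a) / a) • ev]) := by
    ext i j
    simp only [Mx, Matrix.add_apply, Matrix.smul_apply, vecMulVec_apply, Matrix.mul_apply,
      Fin.sum_univ_two, transpose_apply, of_apply, cons_val_zero, cons_val_one, Pi.add_apply,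
      Pi.smul_apply, smul_eq_mul]
    field_simp
    ring
  have e2 : of ![(a1 / a) • yv x + (a3 / a) • ev, (a2 / a) • yv x + ((b - a) / a) • ev] *
      (of ![yv x, ev])ᵀ = !![a1 / a * sg x, a3 / a; a2 / a * sg x, (b - a) / a] := by
    ext i j
    rw [Matrix.mul_apply']
    fin_cases i <;> fin_cases j
    · change ((a1 / a) • yv x + (a3 / a) • ev) ⬝ᵥ yv x = a1 / a * sg x
      simp [ey, yy]
    · change ((a1 / a) • yv x + (a3 / a) • ev) ⬝ᵥ ev = a3 / a
      simp [ye, ee]
    · change ((a2 / a) • yv x + ((b - a) / a) • ev) ⬝ᵥ yv x = a2 / a * sg x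
      simp [ey, yy]
    · change ((a2 / a) • yv x + ((b - a) / a) • ev) ⬝ᵥ ev = (b - a) / a
      simp [ye, ee]
  rw [e, det_smul, det_one_add_mul_comm, e2, det_fin_two]
  simp
  field_simp
  ring

lemma sum_mul_eq_trace (A B : Matrix (Fin 10) (Fin 10) ℝ) (r : ℝ) :
    ∑ i, ∑ j, r * A i j * B i j = r * (A * Bᵀ).trace := by
  simp only [trace, diag_apply, Matrix.mul_apply, transpose_apply, Finset.mul_sum, mul_assoc]

/-- `f` is differentiable at `x` with gradient `α x' + β ε` -/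
def DA (f : E 10 → ℝ) (x : E 10) (α β : ℝ) : Prop :=
  DifferentiableAt ℝ f x ∧ dd f x = α • yv x + β • ev

variable {x} {f g : E 10 → ℝ} {α β α' β' : ℝ}

lemma DA.congr (h : DA f x α β) (h1 : α = α') (h2 : β = β') : DA f x α' β' := h1 ▸ h2 ▸ h

lemma DA.const (r : ℝ) : DA (fun _ => r) x 0 0 :=
  ⟨differentiableAt_const _, by rw [dd_const]; simp⟩

lemma DA.add (hf : DA f x α β) (hg : DA g x α' β') :
    DA (fun z => f z + g z) x (α + α') (β + β') :=
  ⟨hf.1.add hg.1, by rw [dd_add hf.1 hg.1, hf.2, hg.2]; module⟩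

lemma DA.sub (hf : DA f x α β) (hg : DA g x α' β') :
    DA (fun z => f z - g z) x (α - α') (β - β') :=
  ⟨hf.1.sub hg.1, by rw [dd_sub hf.1 hg.1, hf.2, hg.2]; module⟩

lemma DA.mul (hf : DA f x α β) (hg : DA g x α' β') :
    DA (fun z => f z * g z) x (α * g x + f x * α') (β * g x + f x * β') :=
  ⟨hf.1.mul hg.1, by rw [dd_mul hf.1 hg.1, hf.2, hg.2]; module⟩

lemma DA.cmul (r : ℝ) (hf : DA f x α β) : DA (fun z => r * f z) x (r * α) (r * β) :=
  ((DA.const r).mul hf).congr (by ring) (by ring)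

lemma DA.comp {F : ℝ → ℝ} {F' : ℝ} (hf : DA f x α β) (hF : HasDerivAt F F' (f x)) :
    DA (fun z => F (f z)) x (F' * α) (F' * β) :=
  ⟨hF.differentiableAt.comp x hf.1, by rw [dd_comp hf.1 hF, hf.2]; module⟩

lemma DA.div (hf : DA f x α β) (hg : DA g x α' β') (h : g x ≠ 0) :
    DA (fun z => f z / g z) x ((α * g x - f x * α') / g x ^ 2) ((β * g x - f x * β') / g x ^ 2) := by
  simp only [div_eq_mul_inv (f _)]
  exact (hf.mul (hg.comp (hasDerivAt_inv h))).congr (by field_simp; ring) (by field_simp; ring)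

lemma DA.pow (hf : DA f x α β) (k : ℕ) :
    DA (fun z => f z ^ (k + 1)) x ((k + 1) * f x ^ k * α) ((k + 1) * f x ^ k * β) :=
  (hf.comp (hasDerivAt_pow (k + 1) (f x))).congr (by simp) (by simp)

lemma pderiv_coord (i j : Fin 10) : pderiv i (fun z : E 10 => z j) x = if i = j then 1 else 0 := by
  have : (fun z : E 10 => z j) = EuclideanSpace.proj (𝕜 := ℝ) j := rfl
  rw [pderiv, this, ContinuousLinearMap.fderiv]
  simp [eq_comm]

lemma DA.t : DA (fun z => z 9) x 0 1 :=
  ⟨by fun_prop, by funext i; simp [dd, pderiv_coord, ev]⟩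

lemma yv_diff (j : Fin 10) : ContDiff ℝ ∞ fun z => yv z j := by
  unfold yv; fun_prop

lemma sg_diff : ContDiff ℝ ∞ sg := by
  unfold sg yv; fun_prop

lemma dd_yv (j i : Fin 10) : dd (fun z => yv z j) x i = (if i = j then 1 else 0) - ev i * ev j := by
  simp only [yv, mul_comm (_ : ℝ) (ev j)]
  rw [dd_sub (by fun_prop) (by fun_prop), dd_const_mul _ (by fun_prop)]
  simp only [Pi.sub_apply, Pi.smul_apply, dd, pderiv_coord, smul_eq_mul, mul_comm (ev j)]
  rfl

lemma DA.sg : DA sg x 2 0 := by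
  have h := fun j => (yv_diff j).differentiable (by simp) x
  refine ⟨sg_diff.differentiable (by simp) x, ?_⟩
  funext i
  have h0 := ye x
  unfold Ex.sg
  rw [dd_sum _ fun j _ => (h j).fun_mul (h j)]
  simp only [dd_mul (h _) (h _), Finset.sum_apply, Pi.add_apply, Pi.smul_apply, dd_yv, smul_eq_mul,
    mul_sub, mul_left_comm _ (ev i), Finset.sum_add_distrib, Finset.sum_sub_distrib,
    ← Finset.mul_sum, dotProduct] at h0 ⊢
  simp [h0, two_mul]

lemma hess {p q : E 10 → ℝ} (hf : ∀ z, DA f z (p z) (q z)) (hp : DA p x α β) (hq : DA q x α' β') :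
    hessianMat f x = Mx x (p x) α β α' β' := by
  ext i j
  have e : (fun z => pderiv j f z) = fun z => p z * yv z j + ev j * q z := by
    funext z
    have := congrFun (hf z).2 j
    simpa [dd, mul_comm] using this
  have h := (yv_diff j).differentiable (by simp) x
  have := congrFun (dd_add (hp.1.fun_mul h) (hq.1.const_mul (ev j))) i
  rw [dd_mul hp.1 h, dd_const_mul _ hq.1, hp.2, hq.2] at this
  rw [hessianMat, e]
  refine this.trans ?_
  simp only [Mx, Matrix.add_apply, Matrix.smul_apply, vecMulVec_apply, Pi.add_apply, Pi.smul_apply,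
    smul_eq_mul, dd_yv, one_apply]
  ring

end Crest.Agent.R236.Ex
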