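import Crest.Agent.R236.Liouville
import Crest.Agent.R236.C2

/-!
# Row 236: the Bernstein theorem

* `det_const`: by `exists_nice`, `det_upper`, `det_lower`, `Resc.det_eq` (compare `x` with a fixed
  `x₀`, `h` large) `det` is bounded above and below on `Ω`, so `w = detPower` is bounded; apply
  `liouville` to `w - inf w` and `sup w - w` (`Lop_detPower`).
* `hess_bdd`: in the rescaled graph `c2_bound` and `det ≥ c` give `c' ‖ξ‖² ≤ qf ξ ≤ C' ‖ξ‖²` at `0` and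
  at the rescaled point (smallest eigenvalue `≥ det / C'^{n-1}`), so `qf ξ x ≤ (C'/c') qf ξ x₀`.
* `hess_const`: let `q ξ = sup_x qf ξ x`, `H* i j = (q (e_i + e_j) - q e_i - q e_j)/2`. `liouville` applied
  to the finite family `q ζ - qf ζ`, `ζ ∈ {ξ, e_i, e_i + e_j}`, gives points where `H` is arbitrarily close
  to `H*` and `qf ξ` to `q ξ`; so `q ξ = ξᵀ H* ξ` and `det H* = D` (continuity of `det`). Thus
  `H x ⪯ H*` with equal determinants, hence `H x = H*`.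
* `main`: `u` is a quadratic polynomial on the convex open set `Ω` (`u - quadratic` has zero Hessian,
  so constant gradient); the closed epigraph then forces `Ω` to be closed, hence `Ω = univ`.
-/

set_option autoImplicit false
open scoped ContDiff RealInnerProductSpace ENNReal Topology
open Crest.GeometryTopology.CoordMetric Crest.GeometryTopology.AffineMaximal MeasureTheory

noncomputable section

namespace Crest.Agent.R236

variable {n : ℕ}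

/-- a nice rescaling at `x₀` whose section of height `1/2` contains `x` -/
lemma final_resc {M : AM n} {γ₁ : ℝ} {γ₂ : ℝ → ℝ}
    (hN : ∀ x₀ ∈ M.Ω, ∀ h : ℝ, 0 < h → ∃ (S : E n ≃L[ℝ] E n) (M' : AM n),
      Resc M M' x₀ h S ∧ Nice M' γ₁ γ₂) {x₀ x : E n} (hx₀ : x₀ ∈ M.Ω) (hx : x ∈ M.Ω) :
    ∃ (h : ℝ) (S : E n ≃L[ℝ] E n) (M' : AM n) (z : E n), 0 < h ∧ Resc M M' x₀ h S ∧
      Nice M' γ₁ γ₂ ∧ z ∈ M'.Ω ∧ M'.u z ≤ 1 / 2 ∧ x₀ + S z = x := by
  set a := M.u x - M.u x₀ - ⟪M.grad x₀, x - x₀⟫ with ha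
  have hh : 0 < 2 * |a| + 1 := by positivity
  obtain ⟨S, M', hR, hM'⟩ := hN x₀ hx₀ _ hh
  have e : x₀ + S (S.symm (x - x₀)) = x := by simp
  refine ⟨_, S, M', S.symm (x - x₀), hh, hR, hM', (hR.mem _).2 (by rwa [e]), ?_, e⟩
  rw [hR.val, e, S.apply_symm_apply, ← ha, div_le_iff₀ hh]
  linarith [le_abs_self a]

lemma final_det_lower (hn : 3 ≤ n) (hn' : n ≤ 9) (M : AM n) :
    ∃ c : ℝ, 0 < c ∧ ∀ x ∈ M.Ω, c ≤ M.det x := by
  obtain ⟨γ₁, γ₂, hγ₁, hγ₂, hN⟩ := exists_nice hn hn' M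
  obtain ⟨C, hC, hup⟩ := det_upper n (by omega) hγ₁ γ₂
  obtain ⟨c, hc, hlow⟩ := det_lower n (by omega) hγ₁ hγ₂
  obtain ⟨x₀, hx₀⟩ := M.nonempty
  refine ⟨c / C * M.det x₀, mul_pos (div_pos hc hC) (M.det_pos hx₀), fun x hx => ?_⟩
  obtain ⟨h, S, M', z, hh, hR, hM', hz, hu, e⟩ := final_resc hN hx₀ hx
  have h1 := hlow M' hM' z hz (by linarith)
  have h2 := hup M' hM' 0 hM'.zero_mem (by rw [hM'.u_zero]; norm_num)
  rw [hR.det_eq hh hz, e] at h1
  rw [hR.det_eq hh hM'.zero_mem, map_zero, add_zero] at h2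
  set κ := (S : E n →L[ℝ] E n).det ^ 2 / h ^ n
  have d0 := M.det_pos hx₀
  have d1 := M.det_pos hx
  rw [div_mul_eq_mul_div, div_le_iff₀ hC]
  calc c * M.det x₀ ≤ κ * M.det x * M.det x₀ := by gcongr
    _ = κ * M.det x₀ * M.det x := by ring
    _ ≤ C * M.det x := by gcongr
    _ = M.det x * C := mul_comm _ _

theorem det_const (hn : 3 ≤ n) (hn' : n ≤ 9) (M : AM n) : ∃ D : ℝ, ∀ x ∈ M.Ω, M.det x = D := by
  obtain ⟨c, hc, hlow⟩ := final_det_lower hn hn' M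
  set w := detPower n M.u with hw
  have hexp : -((n : ℝ) + 1) / ((n : ℝ) + 2) < 0 :=
    div_neg_of_neg_of_pos (by have : (0 : ℝ) ≤ n := Nat.cast_nonneg n; linarith) (by positivity)
  have hwd : ∀ x, w x = M.det x ^ (-((n : ℝ) + 1) / ((n : ℝ) + 2)) := fun x => rfl
  have hne : (w '' M.Ω).Nonempty := M.nonempty.image w
  have hb : BddBelow (w '' M.Ω) := ⟨0, by
    rintro _ ⟨x, hx, rfl⟩
    rw [hwd]
    exact (Real.rpow_pos_of_pos (M.det_pos hx) _).le⟩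
  have ha : BddAbove (w '' M.Ω) := ⟨c ^ (-((n : ℝ) + 1) / ((n : ℝ) + 2)), by
    rintro _ ⟨x, hx, rfl⟩
    rw [hwd]
    exact Real.rpow_le_rpow_of_nonpos hc (hlow x hx) hexp.le⟩
  have hw2 : ContDiffOn ℝ 2 w M.Ω := M.contDiffOn_detPower.of_le (ENat.natCast_le_of_coe_top_le_withTop le_rfl 2)
  have hwa : ∀ x ∈ M.Ω, ContDiffAt ℝ 2 w x := fun x hx => hw2.contDiffAt (M.isOpen.mem_nhds hx)
  let σ : Bool → ℝ := fun b => cond b 1 (-1)
  let τ : Bool → ℝ := fun b => cond b (-sInf (w '' M.Ω)) (sSup (w '' M.Ω))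
  have key : ∀ θ : ℝ, 0 < θ → ∃ x ∈ M.Ω, ∀ b, σ b * w x + τ b < θ := fun θ hθ => by
    refine liouville hn hn' M (fun b x => σ b * w x + τ b)
      (fun b => (contDiffOn_const.mul hw2).add contDiffOn_const) ?_ ?_ ?_ hθ
    · rintro (_ | _) x hx
      · have := le_csSup ha ⟨x, hx, rfl⟩
        simp only [σ, τ, cond]; linarith
      · have := csInf_le hb ⟨x, hx, rfl⟩
        simp only [σ, τ, cond]; linarith
    · intro b x hx
      rw [M.Lop_add (f := fun z => σ b * w z) (g := fun _ => τ b)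
        (contDiffAt_const.mul (hwa x hx)) contDiffAt_const, M.Lop_const_mul _ (hwa x hx),
        M.Lop_const, hw, M.Lop_detPower hx]
      simp
    · rintro (_ | _) η hη
      · obtain ⟨_, ⟨x, hx, rfl⟩, h⟩ := exists_lt_of_lt_csSup hne (sub_lt_self _ hη)
        exact ⟨x, hx, by simp only [σ, τ, cond]; linarith⟩
      · obtain ⟨_, ⟨x, hx, rfl⟩, h⟩ := exists_lt_of_csInf_lt hne (lt_add_of_pos_right _ hη)
        exact ⟨x, hx, by simp only [σ, τ, cond]; linarith⟩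
  have hle : sSup (w '' M.Ω) ≤ sInf (w '' M.Ω) := le_of_forall_pos_le_add fun ε hε => by
    obtain ⟨x, -, h⟩ := key (ε / 2) (by positivity)
    have h1 := h true
    have h2 := h false
    simp only [σ, τ, cond] at h1 h2
    linarith
  obtain ⟨x₀, hx₀⟩ := M.nonempty
  refine ⟨M.det x₀, fun x hx => ?_⟩
  have e : w x = w x₀ := le_antisymm
    ((le_csSup ha ⟨x, hx, rfl⟩).trans (hle.trans (csInf_le hb ⟨x₀, hx₀, rfl⟩)))
    ((le_csSup ha ⟨x₀, hx₀, rfl⟩).trans (hle.trans (csInf_le hb ⟨x, hx, rfl⟩)))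
  exact Real.rpow_left_injOn hexp.ne (M.det_pos hx).le (M.det_pos hx₀).le e

theorem hess_bdd (hn : 3 ≤ n) (hn' : n ≤ 9) (M : AM n) (ξ : E n) :
    ∃ b : ℝ, ∀ x ∈ M.Ω, M.qf ξ x ≤ b := by
  obtain ⟨D, hD⟩ := det_const hn hn' M
  obtain ⟨γ₁, γ₂, hγ₁, hγ₂, hN⟩ := exists_nice hn hn' M
  obtain ⟨C, hC, hup⟩ := det_upper n (by omega) hγ₁ γ₂
  obtain ⟨c, hc, hlow⟩ := det_lower n (by omega) hγ₁ hγ₂
  obtain ⟨C', hC', h2⟩ := c2_bound n (by omega) hγ₁ hC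
  obtain ⟨x₀, hx₀⟩ := M.nonempty
  refine ⟨C' * (C' ^ (n - 1) / c) * M.qf ξ x₀, fun x hx => ?_⟩
  obtain ⟨h, S, M', z, hh, hR, hM', hz, hu, e⟩ := final_resc hN hx₀ hx
  have u0 : M'.u 0 ≤ 1 / 2 := by rw [hM'.u_zero]; norm_num
  have hD' : ∀ y ∈ M'.Ω, M'.det y = M'.det 0 := fun y hy => by
    rw [hR.det_eq hh hy, hR.det_eq hh hM'.zero_mem, hD _ ((hR.mem y).1 hy),
      hD _ ((hR.mem 0).1 hM'.zero_mem)]
  have b2 := h2 M' γ₂ _ hM' hD' (hup M' hM' 0 hM'.zero_mem (by linarith))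
  have c0 := hlow M' hM' 0 hM'.zero_mem (by linarith)
  set v := S.symm ξ with hv
  have k1 := b2 z hz hu v
  have k2 := quad_ge_of_det (M'.pos 0 hM'.zero_mem) hC' (fun ζ => by
    have := b2 0 hM'.zero_mem u0 (WithLp.toLp 2 ζ)
    rw [EuclideanSpace.real_norm_sq_eq] at this
    exact this) (fun i => v i)
  rw [← EuclideanSpace.real_norm_sq_eq] at k2
  have k3 : c / C' ^ (n - 1) * ‖v‖ ^ 2 ≤ M'.qf v 0 :=
    le_trans (by gcongr; exact c0) k2
  rw [hR.qf_eq hh hz, e, hv, S.apply_symm_apply, ← hv, div_le_iff₀ hh] at k1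
  rw [hR.qf_eq hh hM'.zero_mem, map_zero, add_zero, hv, S.apply_symm_apply, ← hv,
    le_div_iff₀ hh] at k3
  calc M.qf ξ x ≤ C' * ‖v‖ ^ 2 * h := k1
    _ = C' * (C' ^ (n - 1) / c) * (c / C' ^ (n - 1) * ‖v‖ ^ 2 * h) := by field_simp
    _ ≤ C' * (C' ^ (n - 1) / c) * M.qf ξ x₀ := by gcongr

end Crest.Agent.R236
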