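import Crest.Agent.R236.Final
import Crest.Agent.R236.Closed

/-!
# Row 236: the Bernstein theorem

* `det_const`: by `exists_nice`, `det_upper`, `det_lower`, `Resc.det_eq` (compare `x` with a fixed
  `x₀`, `h` large) `det` is bounded above and below on `Ω`, so `w = detPower` is bounded; apply
  `liouville` to `w - inf w` and `sup w - w` (`Lop_detPower`).
* `hess_bdd`: in the rescaled graph `c2_bound` and `det ≥ c` give `c' ‖ξ‖² ≤ qf ξ ≤ C' ‖ξ‖²` at `0` and
  at the rescaled point (smallest eigenvalue `≥ det / C'^{n-1}`), so `qf ξ x ≤ (C'/c') qf ξ x₀`.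
* `hess_const`: let `q ξ = sup_x qf ξ x`, `H* i j = (q (e_i + e_j) - q e_i - q e_j)/2`. `liouville` applied
  to the finite family `q ζ - qf ζ`, `ζ ∈ {ξ, e_i, e_i + e_j}`, gives points where `H` is arbitrarily close
  to `H*` and `qf ξ` to `q ξ`; so `q ξ = ξᵀ H* ξ` and `det H* = D` (continuity of `det`). Thus
  `H x ⪯ H*` with equal determinants, hence `H x = H*`.
* `main`: `u` is a quadratic polynomial on the convex open set `Ω` (`u - quadratic` has zero Hessian,
  so constant gradient); the closed epigraph then forces `Ω` to be closed, hence `Ω = univ`.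
-/

set_option autoImplicit false
open scoped ContDiff RealInnerProductSpace ENNReal Topology
open Crest.GeometryTopology.CoordMetric Crest.GeometryTopology.AffineMaximal MeasureTheory

noncomputable section

namespace Crest.Agent.R236

variable {n : ℕ}

theorem hess_const (hn : 3 ≤ n) (hn' : n ≤ 9) (M : AM n) :
    ∃ B : Matrix (Fin n) (Fin n) ℝ, ∀ x ∈ M.Ω, M.H x = B := by
  obtain ⟨D, hD⟩ := det_const hn hn' M
  set q : E n → ℝ := fun ξ => sSup (M.qf ξ '' M.Ω) with hq
  have hb : ∀ ξ, BddAbove (M.qf ξ '' M.Ω) := fun ξ => by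
    obtain ⟨b, hb⟩ := hess_bdd hn hn' M ξ
    exact ⟨b, by rintro _ ⟨x, hx, rfl⟩; exact hb x hx⟩
  have hle : ∀ ξ, ∀ x ∈ M.Ω, M.qf ξ x ≤ q ξ := fun ξ x hx => le_csSup (hb ξ) ⟨x, hx, rfl⟩
  set e : Fin n → Fin n → E n := fun i j => EuclideanSpace.single i 1 + EuclideanSpace.single j 1
    with he
  set B : Matrix (Fin n) (Fin n) ℝ :=
    Matrix.of fun i j => (q (e i j) - q (e i i) / 4 - q (e j j) / 4) / 2 with hB
  have hqf : ∀ i j x, M.qf (e i j) x = M.H x i i + M.H x i j + M.H x j i + M.H x j j := by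
    intro i j x
    simp only [AM.qf, he, PiLp.add_apply, PiLp.single_apply, mul_add, mul_ite,
      mul_one, mul_zero, Finset.sum_add_distrib, Finset.sum_ite_eq', Finset.mem_univ,
      if_true]
    ring
  have key : ∀ ξ, q ξ = ∑ i, ∑ j, B i j * ξ i * ξ j ∧ B.det = D := by
    intro ξ
    set ζ : Option (Fin n × Fin n) → E n := fun o => o.elim ξ fun p => e p.1 p.2 with hζ
    have h1 : ∀ k : ℕ, ∃ x ∈ M.Ω, ∀ o, q (ζ o) - M.qf (ζ o) x < 1 / ((k : ℝ) + 1) := by
      intro k
      refine liouville hn hn' M (fun o x => q (ζ o) - M.qf (ζ o) x)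
        (fun o => contDiffOn_const.sub
          ((M.contDiffOn_qf _).of_le (WithTop.coe_le_coe.2 le_top)))
        (fun o x hx => sub_nonneg.2 (hle _ x hx)) (fun o x hx => ?_) (fun o η hη => ?_)
        (by positivity)
      · have c2 := M.coreB_cd (M.contDiffOn_qf (ζ o)) hx
        have e1 : (fun x => q (ζ o) - M.qf (ζ o) x) = fun x => q (ζ o) + -1 * M.qf (ζ o) x := by
          funext x; ring
        rw [e1, M.Lop_add contDiffAt_const (contDiffAt_const.mul c2), M.Lop_const,
          M.Lop_const_mul _ c2]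
        linarith [Lop_qf_nonneg M hD (ζ o) hx]
      · obtain ⟨_, ⟨x, hx, rfl⟩, h⟩ := exists_lt_of_lt_csSup (M.nonempty.image (M.qf (ζ o)))
          (sub_lt_self (q (ζ o)) hη)
        exact ⟨x, hx, by linarith⟩
    choose x hx h1 using h1
    have h2 : ∀ o, Filter.Tendsto (fun k => M.qf (ζ o) (x k)) Filter.atTop (𝓝 (q (ζ o))) := by
      intro o
      have := (tendsto_const_nhds (x := q (ζ o))).sub
        (tendsto_one_div_add_atTop_nhds_zero_nat (𝕜 := ℝ))
      rw [sub_zero] at this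
      exact tendsto_of_tendsto_of_tendsto_of_le_of_le this tendsto_const_nhds
        (fun k => by linarith [h1 k o]) fun k => hle _ _ (hx k)
    have h3 : ∀ i j, Filter.Tendsto (fun k => M.H (x k) i j) Filter.atTop (𝓝 (B i j)) := by
      intro i j
      refine ((((h2 (some (i, j))).sub ((h2 (some (i, i))).div_const 4)).sub
        ((h2 (some (j, j))).div_const 4)).div_const 2).congr fun k => ?_
      simp only [hζ, Option.elim, hqf, M.H_symm (hx k) j i]
      ring
    constructor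
    · exact tendsto_nhds_unique (h2 none) (tendsto_finsetSum _ fun i _ =>
        tendsto_finsetSum _ fun j _ => ((h3 i j).mul_const _).mul_const _)
    · have h4 : Filter.Tendsto (fun k => M.H (x k)) Filter.atTop (𝓝 B) :=
        tendsto_pi_nhds.2 fun i => tendsto_pi_nhds.2 fun j => h3 i j
      have h5 := (continuous_id.matrix_det.tendsto B).comp h4
      exact tendsto_nhds_unique h5 (tendsto_const_nhds.congr fun k => (hD _ (hx k)).symm)
  refine ⟨B, fun x hx => eq_of_le_of_det_eq (M.pos x hx) (fun i j => ?_) (fun ξ => ?_)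
    ((key 0).2.trans (hD x hx).symm)⟩
  · simp only [hB, he, Matrix.of_apply, add_comm (EuclideanSpace.single i (1 : ℝ))]
    ring
  · exact (hle (WithLp.toLp 2 ξ) x hx).trans_eq (key _).1

lemma final2_const {Ω : Set (E n)} (hΩ : IsOpen Ω) (hΩc : Convex ℝ Ω) (hΩn : Ω.Nonempty)
    {f : E n → ℝ} (hf : ∀ x ∈ Ω, DifferentiableAt ℝ f x) (h : ∀ x ∈ Ω, dd f x = 0) :
    ∃ c, ∀ x ∈ Ω, f x = c := by
  obtain ⟨x₀, hx₀⟩ := hΩn
  refine ⟨f x₀, fun x hx => hΩ.is_const_of_fderiv_eq_zero (𝕜 := ℝ) hΩc.isPreconnected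
    (fun y hy => (hf y hy).differentiableWithinAt) (fun y hy => ?_) hx hx₀⟩
  ext v
  rw [fderiv_apply_eq_sum]
  exact Finset.sum_eq_zero fun i _ => by rw [show pderiv i f y = 0 from congrFun (h y hy) i, zero_mul]

lemma final2_lin (b : Fin n → ℝ) (x : E n) : dd (fun z : E n => ∑ i, b i * z i) x = b := by
  funext k
  rw [dd, coreB_pderiv_sum _ fun i _ => (coreB_diff_coord i x).const_mul _]
  simp [coreB_pderiv_mul (differentiableAt_const _) (coreB_diff_coord _ x), coreB_pderiv_const,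
    coreB_pderiv_coord]

lemma final2_quad {B : Matrix (Fin n) (Fin n) ℝ} (hB : ∀ i j, B i j = B j i) (x : E n) :
    dd (fun z : E n => (1 / 2) * ∑ i, ∑ j, B i j * z i * z j) x = fun k => ∑ j, B k j * x j := by
  have d := fun i => coreB_diff_coord i x
  rw [dd_const_mul _ (by fun_prop)]
  funext k
  rw [Pi.smul_apply, dd, coreB_pderiv_sum _ fun i _ => by fun_prop]
  have h : ∀ i, pderiv k (fun z : E n => ∑ j, B i j * z i * z j) x =
      B i k * x i + if i = k then ∑ j, B i j * x j else 0 := by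
    intro i
    rw [coreB_pderiv_sum _ fun j _ => by fun_prop]
    simp only [coreB_pderiv_mul ((d _).const_mul _) (d _),
      coreB_pderiv_mul (differentiableAt_const _) (d _), coreB_pderiv_const, coreB_pderiv_coord,
      Finset.sum_add_distrib]
    split_ifs <;> simp [mul_comm]
  simp only [h, Finset.sum_add_distrib, Finset.sum_ite_eq', Finset.mem_univ, if_true, smul_eq_mul,
    hB _ k]
  ring

theorem main (n : ℕ) (hn : 3 ≤ n) (hn' : n ≤ 9)
    (Ω : Set (EuclideanSpace ℝ (Fin n))) (hΩ : IsOpen Ω) (hΩc : Convex ℝ Ω) (hΩn : Ω.Nonempty)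
    (u : EuclideanSpace ℝ (Fin n) → ℝ) (hu : ContDiffOn ℝ ∞ u Ω)
    (hconv : ∀ x ∈ Ω, (hessianMat u x).PosDef)
    (hmax : ∀ x ∈ Ω, affineMaximalOp n u x = 0)
    (hcomp : IsCompleteOn (graphMetric u) Ω) :
    Ω = Set.univ ∧
      ∃ (A : Matrix (Fin n) (Fin n) ℝ) (b : EuclideanSpace ℝ (Fin n)) (c : ℝ), A.PosDef ∧
        ∀ x, u x = (1 / 2) * (∑ i, ∑ j, A i j * x i * x j) + (∑ i, b i * x i) + c := by
  let M : AM n := ⟨Ω, u, hΩ, hΩc, hΩn, hu, hconv, hmax, isClosed_epi hΩ hΩc hΩn hu hconv hcomp⟩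
  obtain ⟨B, hB⟩ := hess_const hn hn' M
  obtain ⟨x₀, hx₀⟩ := id hΩn
  have hs : ∀ i j, B i j = B j i := fun i j => by rw [← hB x₀ hx₀]; exact M.H_symm hx₀ i j
  have d1 := fun k x (hx : x ∈ Ω) => M.coreB_d (contDiffOn_pderiv hΩ hu k) hx
  have h1 : ∀ k, ∃ c, ∀ x ∈ Ω, pderiv k u x - ∑ j, B k j * x j = c := fun k =>
    final2_const hΩ hΩc hΩn (fun x hx => (d1 k x hx).fun_sub (by fun_prop)) fun x hx => by
      rw [dd_sub (d1 k x hx) (by fun_prop), final2_lin, sub_eq_zero]
      funext i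
      rw [hs k i, ← hB x hx]
      rfl
  choose b hb using h1
  obtain ⟨c, hc⟩ := final2_const hΩ hΩc hΩn
    (f := fun x => u x - ((1 / 2) * (∑ i, ∑ j, B i j * x i * x j) + ∑ i, b i * x i))
    (fun x hx => (M.coreB_d hu hx).fun_sub (by fun_prop)) fun x hx => by
      rw [dd_sub (M.coreB_d hu hx) (by fun_prop), dd_add (by fun_prop) (by fun_prop), final2_lin,
        final2_quad hs, sub_eq_zero]
      funext k
      exact sub_eq_iff_eq_add'.1 (hb k x hx)
  have hcl : IsClosed Ω := by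
    have hc' : Continuous fun x : E n =>
        mkA x ((1 / 2) * (∑ i, ∑ j, B i j * x i * x j) + ∑ i, b i * x i + c) := by
      refine (PiLp.continuous_toLp 2 _).comp (continuous_pi fun a => ?_)
      rcases a with i | a
      · simp only [Sum.elim_inl]; fun_prop
      · simp only [Sum.elim_inr]; fun_prop
    convert M.closed.preimage hc' using 1
    ext x
    simp only [Set.mem_preimage, epi, Set.mem_ofPred_eq, base_mkA, ht_mkA]
    exact ⟨fun hx => ⟨hx, (sub_eq_iff_eq_add'.1 (hc x hx)).le⟩, fun hx => hx.1⟩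
  have huniv : Ω = Set.univ := IsClopen.eq_univ ⟨hcl, hΩ⟩ hΩn
  refine ⟨huniv, B, WithLp.toLp 2 b, c, hB x₀ hx₀ ▸ hconv x₀ hx₀, fun x => ?_⟩
  exact sub_eq_iff_eq_add'.1 (hc x (huniv ▸ Set.mem_univ x))

end Crest.Agent.R236
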