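import Crest.Agent.R236.Geo1

/-!
# Row 236: producing orthant structures

* `limit_normalised`: `‖e_i^k‖ ≤ 2` (as `e_i/2` lies in the cap), `‖y_i^k‖ ≤ C/c` (as
  `-η ≤ y_i ≤ 1` on a ball of radius `c`); take ultralimits.
* `exact_of_pre`: normalise the cap `{X ∈ K' | ∀ i, y i (X - O) ≤ 1}` (convex, bounded, with
  nonempty interior: shrink an interior point towards `O`) by `john`, then `limit_normalised`.
* `pre_two_of_segment` (Caffarelli's tilting): let `y ≥ 0` on `K` be a supporting affine function at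
  the midpoint, `F = K ∩ {y = 0}` (it contains `X, X'`). Choose a linear `z`, `O ∈ F`, `Q ∈ F` with
  `z (· - O) ≥ 0` on `F`, `z (Q - O) > 0` and `F ∩ {z (· - O) ≤ M}` bounded for all `M`
  (`z = H` if `H` is not constant on `F`, else `F` is compact and any `z` with `z X ≠ z X'` works).
  Let `X₀` be interior. Put `e₀ = ε (X₀ - O) / y X₀`, `y₀ = y / ε`, `e₁ = δ (Q - O) / z (Q - O)`,
  `y₁ = z / δ` with `δ` small, then `ε ≪ δ` (the closed convex sets
  `K ∩ {y ≤ ε M, z ≤ δ M}` decrease to a bounded set on which `z ≥ 0`).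
* `pre_succ`: a supporting functional `w` at `Q = O + Σ e_i` kills all `e_i` and is `≥ 0` on
  `K - O`; new direction `ε (X₀ - O) / w (X₀ - O)` and new functional `w / ε`
  (use `Fin.snoc` or `Fin.cons`); `K + e_i ⊆ K` because `K` is closed, convex and contains rays.
-/

set_option autoImplicit false
open scoped Topology

noncomputable section

namespace Crest.Agent.R236

variable {V : Type*} [NormedAddCommGroup V] [InnerProductSpace ℝ V] [FiniteDimensional ℝ V]

omit [FiniteDimensional ℝ V] in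
theorem geo2_base_mem {K : Set V} {j : ℕ} {O : V} {e : Fin j → V} {y : Fin j → V →L[ℝ] ℝ} {η : ℝ}
    (h : PreW K O e y η) (hη : 0 < η) : O ∈ K := by
  simpa using h.ray (fun _ => 0) fun _ => ⟨le_rfl, by positivity⟩

omit [InnerProductSpace ℝ V] [FiniteDimensional ℝ V] in
theorem geo2_mem_interior {K : Set V} {Z : V} {c : ℝ} (hc : 0 < c)
    (h : ∀ v : V, ‖v‖ ≤ c → Z + v ∈ K) : Z ∈ interior K := by
  rw [mem_interior_iff_mem_nhds]
  filter_upwards [Metric.closedBall_mem_nhds Z hc] with X hX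
  simpa using h (X - Z) (mem_closedBall_iff_norm.mp hX)

theorem geo2_small (b : ℝ) {c : ℝ} (hc : 0 < c) : ∀ᶠ t in 𝓝[>] (0 : ℝ), t * b < c := by
  have h : Filter.Tendsto (fun t : ℝ => t * b) (𝓝 0) (𝓝 (0 * b)) :=
    (continuous_id.mul continuous_const).tendsto 0
  rw [zero_mul] at h
  exact (h.eventually (gt_mem_nhds hc)).filter_mono nhdsWithin_le_nhds

omit [FiniteDimensional ℝ V] in
/-- supporting functional at a point outside the interior -/
theorem geo2_support {K : Set V} (hv : Convex ℝ K) (hi : (interior K).Nonempty) {Q : V}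
    (hQ : Q ∉ interior K) : ∃ w : V →L[ℝ] ℝ, (∀ X ∈ K, w Q ≤ w X) ∧
      ∀ X ∈ interior K, w Q < w X := by
  obtain ⟨f, hf⟩ := geometric_hahn_banach_point_open hv.interior isOpen_interior hQ
  refine ⟨f, fun X hX => ?_, hf⟩
  have h1 : X ∈ closure (interior K) := by
    rw [hv.closure_interior_eq_closure_of_nonempty_interior hi]
    exact subset_closure hX
  exact closure_minimal (t := {X | f Q ≤ f X}) (fun X hX => (hf X hX).le)
    (isClosed_le continuous_const f.continuous) h1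

omit [FiniteDimensional ℝ V] in
/-- recession directions -/
theorem geo2_recession {K : Set V} (hc : IsClosed K) (hv : Convex ℝ K) {O d P : V}
    (hd : ∀ t : ℝ, 0 ≤ t → O + t • d ∈ K) (hP : P ∈ K) : P + d ∈ K := by
  have h : Filter.Tendsto (fun t : ℝ => P + d + t • (O - P)) (𝓝[>] 0) (𝓝 (P + d)) := by
    have h1 : Continuous fun t : ℝ => P + d + t • (O - P) := by fun_prop
    have h2 := h1.tendsto 0
    rw [zero_smul, add_zero] at h2
    exact h2.mono_left nhdsWithin_le_nhds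
  refine hc.mem_of_tendsto h ?_
  filter_upwards [self_mem_nhdsWithin, geo2_small 1 one_pos] with t ht ht1
  have ht0 : 0 < t := ht
  have := hv.add_smul_sub_mem hP (hd t⁻¹ (by positivity)) (t := t) ⟨ht0.le, by linarith⟩
  convert this using 1
  rw [add_sub_right_comm, smul_add, smul_inv_smul₀ ht0.ne']
  abel

theorem limit_normalised {j : ℕ} (𝒰 : Ultrafilter ℕ) {Ks : ℕ → Set V} {e : ℕ → Fin j → V}
    {y : ℕ → Fin j → V →L[ℝ] ℝ} {η : ℕ → ℝ} {c : ℝ} {Z : ℕ → V} (hc : 0 < c)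
    (hconv : ∀ k, Convex ℝ (Ks k)) (hη : ∀ k, 0 < η k ∧ η k ≤ 1)
    (hη0 : Filter.Tendsto η 𝒰 (𝓝 0))
    (hpre : ∀ k, PreW (Ks k) 0 (e k) (y k) (η k))
    (hcap : ∀ k, ∀ X ∈ Ks k, (∀ i, y k i X ≤ 1) → ‖X‖ ≤ 1)
    (hball : ∀ k, ∀ v : V, ‖v‖ ≤ c → Z k + v ∈ Ks k ∧ ∀ i, y k i (Z k + v) ≤ 1) :
    ∃ (e' : Fin j → V) (y' : Fin j → V →L[ℝ] ℝ),
      (∀ i, Filter.Tendsto (fun k => e k i) 𝒰 (𝓝 (e' i))) ∧
      (∀ i, Filter.Tendsto (fun k => y k i) 𝒰 (𝓝 (y' i))) ∧ ExactW (ulim 𝒰 Ks) 0 e' y' := by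
  have h0 : ∀ k, (0 : V) ∈ Ks k := fun k => geo2_base_mem (hpre k) (hη k).1
  have h1 : ∀ k, 1 ≤ 1 / η k := fun k => by
    rw [le_div_iff₀ (hη k).1, one_mul]; exact (hη k).2
  have he : ∀ k i, ‖e k i‖ ≤ 2 := by
    intro k i
    have hm := (hpre k).ray (Pi.single i (1 / 2)) fun l => by
      have := h1 k
      by_cases hl : l = i
      · subst hl; rw [Pi.single_eq_same]; constructor <;> linarith
      · rw [Pi.single_eq_of_ne hl]; constructor <;> linarith
    rw [zero_add, Finset.sum_eq_single i (fun l _ hl => by rw [Pi.single_eq_of_ne hl, zero_smul])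
      (by simp), Pi.single_eq_same] at hm
    have := hcap k _ hm fun l => by
      have h2 := (abs_le.mp ((hpre k).bio l i)).2
      have h3 := (hη k).2
      rw [map_smul, smul_eq_mul]
      split_ifs at h2 <;> linarith
    rw [norm_smul, Real.norm_of_nonneg (by norm_num)] at this
    linarith
  have hy : ∀ k i, ‖y k i‖ ≤ 1 / c := by
    intro k i
    have key : ∀ v : V, ‖v‖ ≤ c → |y k i (Z k + v)| ≤ 1 := fun v hv => by
      have h2 := (hpre k).pos _ (hball k v hv).1
        (fun l => by rw [sub_zero]; exact ((hball k v hv).2 l).trans (h1 k)) i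
      rw [sub_zero] at h2
      exact abs_le.mpr ⟨by linarith [(hη k).2], (hball k v hv).2 i⟩
    refine ContinuousLinearMap.opNorm_le_bound _ (by positivity) fun v => ?_
    rcases eq_or_ne v 0 with rfl | hv
    · simp
    have hv' : 0 < ‖v‖ := norm_pos_iff.mpr hv
    have hn : ‖(c / ‖v‖) • v‖ ≤ c := by
      rw [norm_smul, Real.norm_of_nonneg (by positivity), div_mul_cancel₀ _ hv'.ne']
    have k1 := abs_le.mp (key _ hn)
    have k2 := abs_le.mp (key (-((c / ‖v‖) • v)) (by rwa [norm_neg]))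
    simp only [map_add, map_neg, map_smul, smul_eq_mul] at k1 k2
    have k3 : |c / ‖v‖ * y k i v| ≤ 1 := abs_le.mpr ⟨by linarith [k1.1, k2.2], by
      linarith [k1.2, k2.1]⟩
    rw [abs_mul, abs_of_pos (by positivity), div_mul_eq_mul_div, div_le_one hv'] at k3
    rw [Real.norm_eq_abs, one_div, inv_mul_eq_div, le_div_iff₀ hc]
    linarith
  have hZ : ∀ k, ‖Z k‖ ≤ 1 := fun k => by
    have := hball k 0 (by simpa using hc.le)
    rw [add_zero] at this
    exact hcap k _ this.1 this.2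
  choose e' _ he' using fun i => exists_ultra_tendsto 𝒰 (X := fun k => e k i)
    (Filter.Eventually.of_forall fun k => he k i)
  choose y' _ hy' using fun i => exists_ultra_tendsto 𝒰 (X := fun k => y k i)
    (Filter.Eventually.of_forall fun k => hy k i)
  obtain ⟨Z', -, hZ'⟩ := exists_ultra_tendsto 𝒰 (X := Z) (Filter.Eventually.of_forall hZ)
  have happ : ∀ i {X : ℕ → V} {X' : V}, Filter.Tendsto X 𝒰 (𝓝 X') →
      Filter.Tendsto (fun k => y k i (X k)) 𝒰 (𝓝 (y' i X')) := fun i X X' hX =>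
    (isBoundedBilinearMap_apply.continuous.tendsto (y' i, X')).comp ((hy' i).prodMk_nhds hX)
  have hbig : ∀ {a : ℕ → ℝ} {A : ℝ}, Filter.Tendsto a 𝒰 (𝓝 A) →
      ∀ᶠ k in (𝒰 : Filter ℕ), a k ≤ 1 / η k := by
    intro a A ha
    have h2 := ha.mul hη0
    rw [mul_zero] at h2
    filter_upwards [h2.eventually (gt_mem_nhds one_pos)] with k hk
    rw [le_div_iff₀ (hη k).1]
    exact hk.le
  refine ⟨e', y', he', hy', fun i l => ?_, fun a ha => ?_, fun X hX i => ?_, ⟨2, fun X hX hX1 => ?_⟩,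
    ⟨Z', ?_⟩⟩
  · have := le_of_tendsto_of_tendsto' ((happ i (he' l)).sub_const (if i = l then 1 else 0)).abs
      hη0 fun k => (hpre k).bio i l
    exact sub_eq_zero.mp (abs_nonpos_iff.mp this)
  · refine mem_ulim_of_tendsto 𝒰 (X := fun k => 0 + ∑ i, a i • e k i) ?_
      ((tendsto_finsetSum _ fun i _ => (he' i).const_smul (a i)).const_add 0)
    filter_upwards [Filter.eventually_all.mpr fun i => hbig (tendsto_const_nhds (x := a i))]
      with k hk
    exact (hpre k).ray a fun i => ⟨ha i, hk i⟩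
  · obtain ⟨Xs, hXs, hXt⟩ := exists_tendsto_of_mem_ulim 𝒰 (fun k => ⟨0, h0 k⟩) (fun k => (hη k).1) hη0 hX
    have h2 := hη0.neg
    rw [neg_zero] at h2
    refine le_of_tendsto_of_tendsto h2 (happ i (hXt.sub_const 0)) ?_
    filter_upwards [Filter.eventually_all.mpr fun l => hbig (happ l (hXt.sub_const 0))] with k hk
    exact (hpre k).pos _ (hXs k) hk i
  · obtain ⟨Xs, hXs, hXt⟩ := exists_tendsto_of_mem_ulim 𝒰 (fun k => ⟨0, h0 k⟩) (fun k => (hη k).1) hη0 hX
    have h2 := hXt.const_smul (1 / 2 : ℝ)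
    have h3 : ‖(1 / 2 : ℝ) • X‖ ≤ 1 := by
      refine le_of_tendsto h2.norm ?_
      have h4 : ∀ i, y' i ((1 / 2 : ℝ) • X) < 1 := fun i => by
        have := hX1 i
        rw [sub_zero] at this
        rw [map_smul, smul_eq_mul]
        linarith
      filter_upwards [Filter.eventually_all.mpr fun i =>
        (happ i h2).eventually (gt_mem_nhds (h4 i))] with k hk
      exact hcap k _ ((hconv k).smul_mem_of_zero_mem (h0 k) (hXs k) ⟨by norm_num, by norm_num⟩)
        fun i => (hk i).le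
    rw [norm_smul, Real.norm_of_nonneg (by norm_num)] at h3
    rw [sub_zero]
    linarith
  · exact geo2_mem_interior hc fun v hv => mem_ulim_of_tendsto 𝒰 (X := fun k => Z k + v)
      (Filter.Eventually.of_forall fun k => (hball k v hv).1) (hZ'.add_const v)

theorem exact_of_pre {K : Set V} {j : ℕ}
    (h : ∀ η : ℝ, 0 < η → ∃ (K' : Set V) (O : V) (e : Fin j → V) (y : Fin j → V →L[ℝ] ℝ),
      Lim K K' ∧ PreW K' O e y η) :
    ∃ (K' : Set V) (O : V) (e : Fin j → V) (y : Fin j → V →L[ℝ] ℝ), Lim K K' ∧ ExactW K' O e y := by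
  obtain ⟨c, hc, hj⟩ := john (V := V)
  have hpos : ∀ k : ℕ, (0 : ℝ) < 1 / ((k : ℝ) + 1) := fun k => by positivity
  have key : ∀ k : ℕ, ∃ (K' : Set V) (e : Fin j → V) (y : Fin j → V →L[ℝ] ℝ) (Z : V),
      Lim K K' ∧ PreW K' 0 e y (1 / ((k : ℝ) + 1)) ∧
      (∀ X ∈ K', (∀ i, y i X ≤ 1) → ‖X‖ ≤ 1) ∧
      ∀ v : V, ‖v‖ ≤ c → Z + v ∈ K' ∧ ∀ i, y i (Z + v) ≤ 1 := by
    intro k
    obtain ⟨K', O, e, y, hL, hP⟩ := h _ (hpos k)
    have hO := geo2_base_mem hP (hpos k)
    set C : Set V := {X | X ∈ K' ∧ ∀ i, y i (X - O) ≤ 1} with hC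
    have hCv : Convex ℝ C := by
      intro X hX X' hX' a b ha hb hab
      refine ⟨hL.2.1 hX.1 hX'.1 ha hb hab, fun i => ?_⟩
      have e1 : a • X + b • X' - O = a • (X - O) + b • (X' - O) := by
        rw [smul_sub, smul_sub, sub_add_sub_comm, ← add_smul, hab, one_smul]
      rw [e1, map_add, map_smul, map_smul, smul_eq_mul, smul_eq_mul]
      nlinarith [mul_le_mul_of_nonneg_left (hX.2 i) ha, mul_le_mul_of_nonneg_left (hX'.2 i) hb]
    have hCb : Bornology.IsBounded C := by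
      obtain ⟨r, hr⟩ := hP.bdd
      exact (Metric.isBounded_closedBall (x := O) (r := r)).subset fun X hX =>
        mem_closedBall_iff_norm.mpr (hr X hX.1 hX.2)
    have hCi : (interior C).Nonempty := by
      obtain ⟨X₀, hX₀⟩ := hP.int
      obtain ⟨t, ht0, ht1, ht2⟩ := (eventually_mem_nhdsWithin.and ((geo2_small 1 one_pos).and
        (Filter.eventually_all.mpr fun i => geo2_small (y i (X₀ - O)) one_pos))).exists
      refine ⟨O + t • (X₀ - O), ?_⟩
      have h1 := hL.2.1.add_smul_sub_mem_interior hO hX₀ (t := t) ⟨ht0, by linarith⟩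
      rw [mem_interior_iff_mem_nhds] at h1 ⊢
      have h2 : ∀ i, ∀ᶠ X in 𝓝 (O + t • (X₀ - O)), y i (X - O) < 1 := fun i => by
        have h3 : Continuous fun X => y i (X - O) := by fun_prop
        refine (h3.tendsto _).eventually (gt_mem_nhds ?_)
        rw [add_sub_cancel_left, map_smul, smul_eq_mul]
        exact ht2 i
      filter_upwards [h1, Filter.eventually_all.mpr h2] with X hX1 hX2
      exact ⟨hX1, fun i => (hX2 i).le⟩
    obtain ⟨T, Z, hT1, hT2⟩ := hj C O hCv ⟨hO, fun i => by simp⟩ hCb hCi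
    have hcap : ∀ X, O + T X ∈ K' → (∀ i, y i (T X) ≤ 1) → ‖X‖ ≤ 1 := fun X hX hX1 => by
      simpa using hT1 (O + T X) ⟨hX, fun i => by simpa using hX1 i⟩
    refine ⟨{X | O + T X ∈ K'}, fun i => T.symm (e i), fun i => (y i).comp (T : V →L[ℝ] V), Z,
      hL.img ⟨T, O, fun X => Iff.rfl⟩, ⟨fun i l => ?_, fun a ha => ?_, fun X hX hX1 i => ?_,
        ⟨1, fun X hX hX1 => ?_⟩, ⟨Z, geo2_mem_interior hc fun v hv => (hT2 v hv).1⟩⟩, hcap,
      fun v hv => ⟨(hT2 v hv).1, fun i => ?_⟩⟩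
    · simpa using hP.bio i l
    · simpa using hP.ray a ha
    · simpa using hP.pos _ hX (fun l => by simpa using hX1 l) i
    · rw [sub_zero]
      exact hcap X hX fun i => by simpa using hX1 i
    · have := (hT2 v hv).2 i
      rwa [add_sub_cancel_left] at this
  choose Ks e y Z hL hP hcap hball using key
  obtain ⟨e', y', -, -, hW⟩ := limit_normalised (Filter.hyperfilter ℕ) hc (fun k => (hL k).2.1)
    (fun k => ⟨hpos k, by
      rw [div_le_one (by positivity)]
      exact le_add_of_nonneg_left (Nat.cast_nonneg k)⟩)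
    (tendsto_one_div_add_atTop_nhds_zero_nat.mono_left Nat.hyperfilter_le_atTop) hP hcap hball
  exact ⟨_, 0, e', y', lim_ulim _ hL, hW⟩

omit [FiniteDimensional ℝ V] in
theorem geo2_exists_z {K : Set V} (hv : Convex ℝ K) (H : V →L[ℝ] ℝ) (h0 : (0 : V) ∈ K)
    (hH : ∀ X ∈ K, 0 ≤ H X) {r : ℝ} (hb : ∀ X ∈ K, H X ≤ 1 → ‖X‖ ≤ r) {X X' : V}
    (hne : X ≠ X') : ∃ z : V →L[ℝ] ℝ, z X ≠ z X' ∧ ∀ P ∈ K, ‖P‖ ≤ r * (2 + 2 * z P) := by
  have hr : 0 ≤ r := by simpa using hb 0 h0 (by simp)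
  have key : ∀ P ∈ K, ‖P‖ ≤ r * (1 + H P) := by
    intro P hP
    have h1 := hH P hP
    rcases le_or_gt (H P) 1 with h | h
    · have := hb P hP h
      nlinarith
    · have h2 : 0 < H P := by linarith
      have h3 := hb _ (hv.smul_mem_of_zero_mem h0 hP (t := (H P)⁻¹)
        ⟨by positivity, inv_le_one_of_one_le₀ h.le⟩)
        (by rw [map_smul, smul_eq_mul, inv_mul_cancel₀ h2.ne'])
      rw [norm_smul, Real.norm_of_nonneg (by positivity), inv_mul_le_iff₀ h2] at h3
      nlinarith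
  by_cases h : H X = H X'
  · have hd : 0 < ‖X - X'‖ := norm_pos_iff.mpr (sub_ne_zero.mpr hne)
    set s : ℝ := (2 * (‖X - X'‖ * r + 1))⁻¹ with hs
    have hs0 : 0 < s := by positivity
    have hs1 : s * (‖X - X'‖ * r) ≤ 1 / 2 := by
      rw [hs, inv_mul_le_iff₀ (by positivity)]; linarith
    refine ⟨H + s • innerSL ℝ (X - X'), fun hcon => ?_, fun P hP => ?_⟩
    · rw [← sub_eq_zero, ← map_sub, add_apply, map_sub, h, sub_self, zero_add, smul_apply,
        innerSL_apply_apply, real_inner_self_eq_norm_sq, smul_eq_mul] at hcon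
      exact absurd hcon (by positivity)
    · have h1 := key P hP
      have h2 := hH P hP
      have h3 := neg_le_of_abs_le (abs_real_inner_le_norm (X - X') P)
      have h4 : s * (‖X - X'‖ * ‖P‖) ≤ 1 / 2 * (1 + H P) := by
        calc s * (‖X - X'‖ * ‖P‖) ≤ s * (‖X - X'‖ * (r * (1 + H P))) := by gcongr
          _ = s * (‖X - X'‖ * r) * (1 + H P) := by ring
          _ ≤ _ := by gcongr
      rw [add_apply, smul_apply, innerSL_apply_apply, smul_eq_mul]
      refine h1.trans (mul_le_mul_of_nonneg_left ?_ hr)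
      nlinarith [mul_le_mul_of_nonneg_left h3 hs0.le]
  · refine ⟨H, h, fun P hP => (key P hP).trans (mul_le_mul_of_nonneg_left ?_ hr)⟩
    linarith [hH P hP]

theorem pre_two_of_segment {K : Set V} (hc : IsClosed K) (hv : Convex ℝ K)
    (hi : (interior K).Nonempty) (H : V →L[ℝ] ℝ) (h0 : (0 : V) ∈ K) (hH : ∀ X ∈ K, 0 ≤ H X)
    {r : ℝ} (hb : ∀ X ∈ K, H X ≤ 1 → ‖X‖ ≤ r) {X X' : V} (hX : X ∈ K) (hX' : X' ∈ K)
    (hne : X ≠ X') (hmid : (1 / 2 : ℝ) • (X + X') ∉ interior K) {η : ℝ} (hη : 0 < η) :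
    ∃ (O : V) (e : Fin 2 → V) (y : Fin 2 → V →L[ℝ] ℝ), PreW K O e y η := by
  obtain ⟨w, hw, hw'⟩ := geo2_support hv hi hmid
  obtain ⟨z, hz, hzb⟩ := geo2_exists_z hv H h0 hH hb hne
  have hr : 0 ≤ r := by simpa using hb 0 h0 (by simp)
  set m : V := (1 / 2 : ℝ) • (X + X') with hm
  have hwm : w m = (w X + w X') / 2 := by
    rw [hm, map_smul, map_add, smul_eq_mul]; ring
  have hwX : w X = w m := by linarith [hw X hX, hw X' hX']
  have hwX' : w X' = w m := by linarith [hw X hX, hw X' hX']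
  have hcomp : ∀ M : ℝ, IsCompact {P | P ∈ K ∧ z P ≤ M} := fun M => by
    refine Metric.isCompact_of_isClosed_isBounded
      (hc.inter (isClosed_le z.continuous continuous_const)) ?_
    refine (Metric.isBounded_closedBall (x := 0) (r := r * (2 + 2 * M))).subset fun P hP => ?_
    rw [mem_closedBall_zero_iff]
    exact (hzb P hP.1).trans (mul_le_mul_of_nonneg_left (by linarith [hP.2]) hr)
  obtain ⟨O, ⟨⟨hOK, hOX⟩, hOw⟩, hOmin⟩ := ((hcomp (z X)).inter_right
    (isClosed_eq w.continuous (continuous_const (y := w m)))).exists_isMinOn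
      ⟨X, ⟨hX, le_rfl⟩, hwX⟩ z.continuous.continuousOn
  have hOw : w O = w m := hOw
  have hmin : ∀ P ∈ K, w P = w m → z O ≤ z P := fun P hP hPw => by
    rcases le_total (z P) (z X) with h | h
    · exact hOmin ⟨⟨hP, h⟩, hPw⟩
    · exact hOX.trans h
  obtain ⟨Q, hQ, hQw, hQz⟩ : ∃ Q ∈ K, w Q = w m ∧ z O < z Q := by
    rcases lt_or_gt_of_ne hz with h | h
    · exact ⟨X', hX', hwX', hOX.trans_lt h⟩
    · exact ⟨X, hX, hwX, (hmin X' hX' hwX').trans_lt h⟩
  obtain ⟨X₀, hX₀⟩ := id hi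
  have hwu : 0 < w (X₀ - O) := by rw [map_sub, hOw]; exact sub_pos.mpr (hw' X₀ hX₀)
  have hzg : 0 < z (Q - O) := by rw [map_sub]; exact sub_pos.mpr hQz
  have hwg : w (Q - O) = 0 := by rw [map_sub, hOw, hQw, sub_self]
  have hwP : ∀ P ∈ K, 0 ≤ w (P - O) := fun P hP => by
    rw [map_sub, hOw]; exact sub_nonneg.mpr (hw P hP)
  set β : ℝ := η / 2 * z (Q - O) with hβ
  have hβ0 : 0 < β := by positivity
  obtain ⟨μ, hμ0, hμ⟩ := (hcomp (z O - η * β)).exists_forall_le' (f := fun P => w (P - O))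
    (by fun_prop) (a := 0) fun P hP => by
      refine (hwP P hP.1).lt_of_ne fun h => ?_
      have h1 := hmin P hP.1 (by rw [map_sub, hOw] at h; linarith)
      have h2 := hP.2
      have h3 : 0 < η * β := by positivity
      linarith
  obtain ⟨t, ht0, ht1, ht2, ht3⟩ := (eventually_mem_nhdsWithin.and
    ((geo2_small 1 (half_pos hη)).and ((geo2_small |z (X₀ - O)| (mul_pos hη hβ0)).and
      (geo2_small (w (X₀ - O)) (mul_pos hη hμ0))))).exists
  have ht0 : 0 < t := ht0
  set α : ℝ := t * w (X₀ - O) with hα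
  have hα0 : 0 < α := by positivity
  refine ⟨O, ![t • (X₀ - O), (η / 2) • (Q - O)], ![α⁻¹ • w, β⁻¹ • z], ?_, fun a ha => ?_,
    fun P hP hP1 => ?_, ⟨r * (2 + 2 * (z O + β)) + ‖O‖, fun P hP hP1 => ?_⟩, hi⟩
  · simp only [Fin.forall_fin_two, Matrix.cons_val_zero, Matrix.cons_val_one,
      smul_apply, map_smul, smul_eq_mul, hwg]
    refine ⟨⟨?_, ?_⟩, ?_, ?_⟩
    · rw [mul_left_comm, ← hα, inv_mul_cancel₀ hα0.ne']; simpa using hη.le
    · simpa using hη.le
    · rw [if_neg (by decide), sub_zero, abs_mul, abs_mul, abs_of_pos ht0,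
        abs_of_pos (inv_pos.mpr hβ0), mul_left_comm, inv_mul_le_iff₀ hβ0]
      linarith
    · rw [mul_left_comm, ← hβ, inv_mul_cancel₀ hβ0.ne']; simpa using hη.le
  · have h1 := ha 0
    have h2 := ha 1
    rw [le_div_iff₀ hη] at h1 h2
    simp only [Fin.sum_univ_two, Matrix.cons_val_zero, Matrix.cons_val_one, smul_smul]
    have k1 := hv.add_smul_sub_mem hOK (interior_subset hX₀) (t := 2 * (a 0 * t))
      ⟨by have := h1.1; positivity, by nlinarith [h1.1, h1.2]⟩
    have k2 := hv.add_smul_sub_mem hOK hQ (t := 2 * (a 1 * (η / 2)))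
      ⟨by have := h2.1; positivity, by nlinarith [h2.1, h2.2]⟩
    convert hv k1 k2 (a := 1 / 2) (b := 1 / 2) (by norm_num) (by norm_num) (by norm_num) using 1
    module
  · have h1 := hP1 0
    simp only [Fin.forall_fin_two, Matrix.cons_val_zero, Matrix.cons_val_one,
      smul_apply, smul_eq_mul] at h1 ⊢
    refine ⟨le_trans (by linarith) (mul_nonneg (inv_pos.mpr hα0).le (hwP P hP)), ?_⟩
    rw [inv_mul_le_iff₀ hα0, mul_one_div, le_div_iff₀ hη] at h1
    rw [le_inv_mul_iff₀ hβ0]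
    by_contra hcon
    have h2 := hμ P ⟨hP, by rw [map_sub] at hcon; linarith⟩
    nlinarith
  · have h1 := hP1 1
    simp only [Matrix.cons_val_zero, Matrix.cons_val_one, smul_apply, smul_eq_mul] at h1
    rw [inv_mul_le_iff₀ hβ0, map_sub] at h1
    have h2 := (hzb P hP).trans (mul_le_mul_of_nonneg_left
      (by linarith : 2 + 2 * z P ≤ 2 + 2 * (z O + β)) hr)
    exact (norm_sub_le _ _).trans (by linarith)

theorem pre_succ {K : Set V} (hc : IsClosed K) (hv : Convex ℝ K) {j : ℕ} {O : V}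
    {e : Fin j → V} {y : Fin j → V →L[ℝ] ℝ} (hW : ExactW K O e y)
    (hQ : O + ∑ i, e i ∉ interior K) {η : ℝ} (hη : 0 < η) :
    ∃ (e' : Fin (j + 1) → V) (y' : Fin (j + 1) → V →L[ℝ] ℝ), PreW K O e' y' η := by
  obtain ⟨w, hw, hw'⟩ := geo2_support hv hW.int hQ
  have hO : O ∈ K := by simpa using hW.ray (fun _ => 0) fun _ => le_rfl
  have hwe : ∀ i, w (e i) = 0 := by
    intro i
    have key : ∀ s : ℝ, -1 ≤ s → 0 ≤ s * w (e i) := fun s hs => by
      have h1 := hw _ (hW.ray (fun l => 1 + if l = i then s else 0) fun l => by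
        split_ifs <;> linarith)
      simp only [add_smul, one_smul, Finset.sum_add_distrib, ite_smul, zero_smul,
        Finset.sum_ite_eq', Finset.mem_univ, if_true, map_add, map_smul, smul_eq_mul] at h1
      linarith
    linarith [key 1 (by norm_num), key (-1) le_rfl]
  have hwQ : w (O + ∑ i, e i) = w O := by simp [hwe]
  rw [hwQ] at hw hw'
  obtain ⟨X₀, hX₀⟩ := hW.int
  have hwu : 0 < w (X₀ - O) := by rw [map_sub]; exact sub_pos.mpr (hw' X₀ hX₀)
  obtain ⟨t, ht0, ht1, ht2⟩ := (eventually_mem_nhdsWithin.and ((geo2_small 1 hη).and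
    (Filter.eventually_all.mpr fun i => geo2_small |y i (X₀ - O)| hη))).exists
  have ht0 : 0 < t := ht0
  set α : ℝ := t * w (X₀ - O) with hα
  have hα0 : 0 < α := by positivity
  refine ⟨Fin.cons (t • (X₀ - O)) e, Fin.cons (α⁻¹ • w) y, ?_, fun a ha => ?_,
    fun P hP _ => ?_, ?_, hW.int⟩
  · simp only [Fin.forall_fin_succ, Fin.cons_zero, Fin.cons_succ, smul_apply, map_smul,
      smul_eq_mul, hwe, hW.bio, Fin.succ_inj]
    refine ⟨⟨?_, fun i => ?_⟩, fun i => ⟨?_, fun l => ?_⟩⟩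
    · rw [mul_left_comm, ← hα, inv_mul_cancel₀ hα0.ne']; simpa using hη.le
    · rw [if_neg (Fin.succ_ne_zero i).symm]; simpa using hη.le
    · rw [if_neg (Fin.succ_ne_zero i), sub_zero, abs_mul, abs_of_pos ht0]
      exact (ht2 i).le
    · simpa using hη.le
  · simp only [Fin.sum_univ_succ, Fin.cons_zero, Fin.cons_succ, smul_smul, ← add_assoc]
    have h1 := ha 0
    rw [le_div_iff₀ hη] at h1
    refine geo2_recession hc hv (O := O) (fun s hs => ?_)
      (hv.add_smul_sub_mem hO (interior_subset hX₀)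
        ⟨by have := h1.1; positivity, by nlinarith [h1.1, h1.2]⟩)
    simp only [Finset.smul_sum, smul_smul]
    exact hW.ray _ fun i => mul_nonneg hs (ha i.succ).1
  · simp only [Fin.forall_fin_succ, Fin.cons_zero, Fin.cons_succ, smul_apply, smul_eq_mul]
    refine ⟨le_trans (by linarith) (mul_nonneg (inv_pos.mpr hα0).le ?_),
      fun i => le_trans (by linarith) (hW.pos P hP i)⟩
    rw [map_sub]
    exact sub_nonneg.mpr (hw P hP)
  · obtain ⟨r, hr⟩ := hW.bdd
    exact ⟨r, fun P hP hP1 => hr P hP fun i => hP1 i.succ⟩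

end Crest.Agent.R236
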