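import Crest.Agent.R236.Geo2

/-!
# Row 236: centring for the maximal orthant structure, uniform strict convexity

* `centering`: otherwise take data with `κ = 1/(k+1)` failing, normalise the caps by `john`
  (an `ExactW` is a `PreW` for every `η`), pass to the ultralimit by `limit_normalised`. If
  `Q = Σ e'_i` were interior to the limit, `ball_of_near` would give a ball of fixed radius around
  `Q_k` in `K_k`, contradiction. So `pre_succ` and `exact_of_pre` give a structure with `j + 1`.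
  (`|y i (κ T v)| ≤ 1` follows from `Q ± κ T v ∈ K'` and `pos`.)
* `approx_of_exact`: for `a ∈ [d, R]^j` apply the centring to `(a_i e_i, y_i / a_i)`; the maps
  `T_a` are uniformly bounded above and below; take an affine image `K₁` of `K` very close to `K'`
  in a very large ball, use `2 T_a` (or `4 T_a`) and `ball_of_near` (in the coordinates `T_a`, or
  with the uniform lower bound), then pull the data back along the affine map.
* `unif_strict`: by contradiction; ultralimit of the bad sequence, `pre_two_of_segment`,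
  `exact_of_pre`, take `j` maximal (`ExactW.le_finrank`), `centering`, `approx_of_exact`.
-/

set_option autoImplicit false
open scoped Topology

noncomputable section

namespace Crest.Agent.R236

variable {V : Type*} [NormedAddCommGroup V] [InnerProductSpace ℝ V] [FiniteDimensional ℝ V]

theorem ExactW.le_finrank {K : Set V} {j : ℕ} {O : V} {e : Fin j → V}
    {y : Fin j → V →L[ℝ] ℝ} (h : ExactW K O e y) : j ≤ Module.finrank ℝ V := by
  have hli : LinearIndependent ℝ e := by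
    rw [Fintype.linearIndependent_iff]
    intro c hc i
    have h1 := congrArg (y i) hc
    simpa [map_sum, h.bio] using h1
  simpa using hli.fintype_card_le_finrank

omit [FiniteDimensional ℝ V] in
theorem ExactW.geo3_mem {K : Set V} {j : ℕ} {O : V} {e : Fin j → V}
    {y : Fin j → V →L[ℝ] ℝ} (h : ExactW K O e y) : O ∈ K := by
  simpa using h.ray 0 fun _ => le_rfl

omit [FiniteDimensional ℝ V] in
theorem ExactW.geo3_pre {K : Set V} {j : ℕ} {O : V} {e : Fin j → V}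
    {y : Fin j → V →L[ℝ] ℝ} (h : ExactW K O e y) {η : ℝ} (hη : 0 < η) : PreW K O e y η where
  bio i l := by rw [h.bio, sub_self, abs_zero]; exact hη.le
  ray c hc := h.ray c fun i => (hc i).1
  pos X hX _ i := (neg_nonpos.2 hη.le).trans (h.pos X hX i)
  bdd := h.bdd
  int := h.int

omit [FiniteDimensional ℝ V] in
theorem ExactW.geo3_img {K : Set V} {j : ℕ} {O : V} {e : Fin j → V}
    {y : Fin j → V →L[ℝ] ℝ} (h : ExactW K O e y) (T : V ≃L[ℝ] V) :
    ExactW {X | O + T X ∈ K} 0 (fun i => T.symm (e i)) fun i => (y i).comp (T : V →L[ℝ] V) where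
  bio i l := by simp [h.bio]
  ray c hc := by simpa [map_sum] using h.ray c hc
  pos X hX i := by simpa using h.pos _ hX i
  bdd := by
    obtain ⟨r, hr⟩ := h.bdd
    refine ⟨‖(T.symm : V →L[ℝ] V)‖ * r, fun X hX hy => ?_⟩
    have h1 := hr _ hX fun i => by simpa using hy i
    rw [add_sub_cancel_left] at h1
    have h2 := (T.symm : V →L[ℝ] V).le_opNorm (T X)
    simp only [ContinuousLinearEquiv.coe_coe, ContinuousLinearEquiv.symm_apply_apply] at h2
    rw [sub_zero]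
    exact h2.trans (mul_le_mul_of_nonneg_left h1 (norm_nonneg _))
  int := by
    obtain ⟨X, hX⟩ := h.int
    refine ⟨T.symm (X - O), preimage_interior_subset_interior_preimage
      (f := fun X => O + T X) (by fun_prop) ?_⟩
    simpa using hX

omit [FiniteDimensional ℝ V] in
/-- caps of any height are bounded -/
theorem geo3_cap_bdd {K : Set V} (hv : Convex ℝ K) {ι : Type*} {O : V} (hO : O ∈ K)
    {y : ι → V →L[ℝ] ℝ} {r : ℝ} (hr : ∀ X ∈ K, (∀ i, y i (X - O) ≤ 1) → ‖X - O‖ ≤ r) {M : ℝ}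
    (hM : 1 ≤ M) {X : V} (hX : X ∈ K) (hy : ∀ i, y i (X - O) ≤ M) : ‖X - O‖ ≤ M * r := by
  have hM0 : 0 < M := by linarith
  have h1 := hr _ (hv.add_smul_sub_mem hO hX (t := M⁻¹)
    ⟨by positivity, inv_le_one_of_one_le₀ hM⟩) fun i => by
      rw [add_sub_cancel_left, map_smul, smul_eq_mul, inv_mul_le_iff₀ hM0, mul_one]
      exact hy i
  rwa [add_sub_cancel_left, norm_smul, norm_inv, Real.norm_of_nonneg hM0.le,
    inv_mul_le_iff₀ hM0] at h1

omit [FiniteDimensional ℝ V] in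
/-- caps contain balls -/
theorem ExactW.geo3_ball {K : Set V} (hv : Convex ℝ K) {j : ℕ} {O : V} {e : Fin j → V}
    {y : Fin j → V →L[ℝ] ℝ} (h : ExactW K O e y) {d : ℝ} (hd : 0 < d) :
    (interior {X | X ∈ K ∧ ∀ i, y i (X - O) ≤ d}).Nonempty := by
  obtain ⟨X₀, hX₀⟩ := h.int
  have h1 : ∀ᶠ t in 𝓝[>] (0 : ℝ), ∀ i, t * y i (X₀ - O) < d := by
    rw [Filter.eventually_all]
    intro i
    have h2 : Filter.Tendsto (fun t : ℝ => t * y i (X₀ - O)) (𝓝 0) (𝓝 (0 * y i (X₀ - O))) :=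
      (by fun_prop : Continuous fun t : ℝ => t * y i (X₀ - O)).tendsto 0
    rw [zero_mul] at h2
    exact (h2.eventually (eventually_lt_nhds hd)).filter_mono nhdsWithin_le_nhds
  obtain ⟨t, ht, ht'⟩ := (h1.and (Ioc_mem_nhdsGT (zero_lt_one' ℝ))).exists
  have hopen : IsOpen (interior K ∩ ⋂ i, {X | y i (X - O) < d}) :=
    isOpen_interior.inter (isOpen_iInter_of_finite fun i =>
      isOpen_lt (by fun_prop) continuous_const)
  have hsub : interior K ∩ ⋂ i, {X | y i (X - O) < d} ⊆ {X | X ∈ K ∧ ∀ i, y i (X - O) ≤ d} :=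
    fun X hX => ⟨interior_subset hX.1, fun i => le_of_lt (Set.mem_iInter.1 hX.2 i)⟩
  refine ⟨O + t • (X₀ - O), interior_maximal hsub hopen
    ⟨hv.add_smul_sub_mem_interior h.geo3_mem hX₀ ht', Set.mem_iInter.2 fun i => ?_⟩⟩
  simpa using ht i

omit [InnerProductSpace ℝ V] [FiniteDimensional ℝ V] in
theorem geo3_ball_of_interior {C : Set V} {Z : V} (h : Z ∈ interior C) :
    ∃ r : ℝ, 0 < r ∧ ∀ v : V, ‖v‖ ≤ r → Z + v ∈ C := by
  obtain ⟨r, hr, h1⟩ := Metric.nhds_basis_closedBall.mem_iff.1 (mem_interior_iff_mem_nhds.1 h)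
  exact ⟨r, hr, fun v hv => h1 (by simpa using hv)⟩

/-- interior points of the ultralimit are uniformly interior along the sequence -/
theorem geo3_ball_eventually (𝒰 : Ultrafilter ℕ) {Ks : ℕ → Set V} (hc : ∀ k, IsClosed (Ks k))
    (hv : ∀ k, Convex ℝ (Ks k)) {Q : V} (hQ : Q ∈ interior (ulim 𝒰 Ks)) {Qs : ℕ → V}
    (hQs : Filter.Tendsto Qs 𝒰 (𝓝 Q)) :
    ∃ r : ℝ, 0 < r ∧ ∀ᶠ k in (𝒰 : Filter ℕ), ∀ v : V, ‖v‖ ≤ r → Qs k + v ∈ Ks k := by
  obtain ⟨r, hr, h1⟩ := geo3_ball_of_interior hQ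
  refine ⟨r / 4, by positivity, ?_⟩
  filter_upwards [near_ulim 𝒰 Ks (‖Q‖ + r) (r / 4) (by positivity),
    (tendsto_iff_norm_sub_tendsto_zero.1 hQs).eventually
      (eventually_le_nhds (show 0 < r / 4 by positivity))] with k hk hk' v hv'
  have h2 := ball_of_near (hc k) (hv k) (by positivity) hk h1 le_rfl (Qs k - Q + v)
    ((norm_add_le _ _).trans (by linarith))
  rwa [← add_assoc, add_sub_cancel] at h2

omit [FiniteDimensional ℝ V] in
theorem geo3_eval {l : Filter ℕ} {H : ℕ → V →L[ℝ] ℝ} {H' : V →L[ℝ] ℝ} {W : ℕ → V} {W' : V}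
    (hH : Filter.Tendsto H l (𝓝 H')) (hW : Filter.Tendsto W l (𝓝 W')) :
    Filter.Tendsto (fun k => H k (W k)) l (𝓝 (H' W')) :=
  ((isBoundedBilinearMap_apply (𝕜 := ℝ) (E := V) (F := ℝ)).continuous.tendsto (H', W')).comp
    (hH.prodMk_nhds hW)

theorem geo3_tendsto : Filter.Tendsto (fun k : ℕ => 1 / ((k : ℝ) + 1)) (Filter.hyperfilter ℕ) (𝓝 0) :=
  tendsto_one_div_add_atTop_nhds_zero_nat.mono_left Nat.hyperfilter_le_atTop

theorem geo3_eta (k : ℕ) : 0 < 1 / ((k : ℝ) + 1) ∧ 1 / ((k : ℝ) + 1) ≤ 1 :=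
  ⟨by positivity, by
    rw [div_le_one (by positivity)]
    linarith [(Nat.cast_nonneg k : (0 : ℝ) ≤ k)]⟩

theorem centering {K : Set V} {j : ℕ}
    (hmax : ¬ ∃ (K' : Set V) (O : V) (e : Fin (j + 1) → V) (y : Fin (j + 1) → V →L[ℝ] ℝ),
      Lim K K' ∧ ExactW K' O e y) :
    ∃ κ : ℝ, 0 < κ ∧ κ ≤ 1 ∧ ∀ (K' : Set V) (O : V) (e : Fin j → V) (y : Fin j → V →L[ℝ] ℝ),
      Lim K K' → ExactW K' O e y → ∃ T : V ≃L[ℝ] V,
        (∀ X ∈ K', (∀ i, y i (X - O) ≤ 1) → ‖T.symm (X - O)‖ ≤ 1) ∧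
        ∀ v : V, ‖v‖ ≤ 1 → O + ∑ i, e i + κ • T v ∈ K' := by
  by_contra hcon
  have h1 : ∀ k : ℕ, ∃ (K' : Set V) (O : V) (e : Fin j → V) (y : Fin j → V →L[ℝ] ℝ),
      Lim K K' ∧ ExactW K' O e y ∧ ∀ T : V ≃L[ℝ] V,
        (∀ X ∈ K', (∀ i, y i (X - O) ≤ 1) → ‖T.symm (X - O)‖ ≤ 1) →
        ¬ ∀ v : V, ‖v‖ ≤ 1 → O + ∑ i, e i + (1 / ((k : ℝ) + 1)) • T v ∈ K' := by
    intro k
    by_contra h2
    refine hcon ⟨_, (geo3_eta k).1, (geo3_eta k).2, fun K' O e y hL hW => ?_⟩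
    by_contra h3
    exact h2 ⟨K', O, e, y, hL, hW, fun T hT hT' => h3 ⟨T, hT, hT'⟩⟩
  choose K' O e y hL hW hbad using h1
  obtain ⟨c, hc, hjohn⟩ := john (V := V)
  have h2 : ∀ k, ∃ (T : V ≃L[ℝ] V) (Z : V),
      (∀ X ∈ {X | X ∈ K' k ∧ ∀ i, y k i (X - O k) ≤ 1}, ‖T.symm (X - O k)‖ ≤ 1) ∧
      ∀ v : V, ‖v‖ ≤ c → O k + T (Z + v) ∈ {X | X ∈ K' k ∧ ∀ i, y k i (X - O k) ≤ 1} := by
    intro k
    refine hjohn _ _ ?_ ⟨(hW k).geo3_mem, fun i => by simp⟩ ?_
      ((hW k).geo3_ball (hL k).2.1 one_pos)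
    · intro X hX X' hX' a b ha hb hab
      refine ⟨(hL k).2.1 hX.1 hX'.1 ha hb hab, fun i => ?_⟩
      have e1 : a • X + b • X' - O k = a • (X - O k) + b • (X' - O k) := by
        rw [smul_sub, smul_sub, ← add_sub_add_comm, ← add_smul, hab, one_smul]
      rw [e1, map_add, map_smul, map_smul, smul_eq_mul, smul_eq_mul]
      nlinarith [hX.2 i, hX'.2 i]
    · obtain ⟨r, hr⟩ := (hW k).bdd
      exact (Metric.isBounded_closedBall (x := O k) (r := r)).subset fun X hX =>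
        mem_closedBall_iff_norm.2 (hr X hX.1 hX.2)
  choose T Z hT hZ using h2
  let Ks : ℕ → Set V := fun k => {X | O k + T k X ∈ K' k}
  have hI : ∀ k, Img (K' k) (Ks k) := fun k => ⟨T k, O k, fun _ => Iff.rfl⟩
  have hLs : ∀ k, Lim K (Ks k) := fun k => (hL k).img (hI k)
  obtain ⟨e', y', he', -, hE⟩ := limit_normalised (Filter.hyperfilter ℕ) (Ks := Ks) (Z := Z) hc
    (fun k => (hLs k).2.1) geo3_eta geo3_tendsto
    (fun k => ((hW k).geo3_img (T k)).geo3_pre (geo3_eta k).1)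
    (fun k X hX hy => by simpa using hT k _ ⟨hX, fun i => by simpa using hy i⟩)
    (fun k v hv => ⟨(hZ k v hv).1, fun i => by simpa using (hZ k v hv).2 i⟩)
  have hLim := lim_ulim (Filter.hyperfilter ℕ) hLs
  refine hmax (exact_of_pre fun η hη => ?_)
  suffices hQ : 0 + ∑ i, e' i ∉ interior (ulim (Filter.hyperfilter ℕ) Ks) by
    obtain ⟨e'', y'', h3⟩ := pre_succ hLim.1 hLim.2.1 hE hQ hη
    exact ⟨_, 0, e'', y'', hLim, h3⟩
  intro hQ
  obtain ⟨r, hr, h4⟩ := geo3_ball_eventually _ (fun k => (hLs k).1) (fun k => (hLs k).2.1) hQ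
    (Qs := fun k => 0 + ∑ i, (T k).symm (e k i))
    (tendsto_const_nhds.add (tendsto_finsetSum _ fun i _ => he' i))
  obtain ⟨k, hk, hk'⟩ := (h4.and (geo3_tendsto.eventually (eventually_le_nhds hr))).exists
  refine hbad k (T k) (fun X hX hy => hT k X ⟨hX, hy⟩) fun v hv => ?_
  have h5 := hk ((1 / ((k : ℝ) + 1)) • v) (by
    rw [norm_smul, Real.norm_of_nonneg (geo3_eta k).1.le]
    exact (mul_le_of_le_one_right (geo3_eta k).1.le hv).trans hk')
  simpa [Ks, map_sum, add_assoc] using h5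

theorem geo3_scale (T : V ≃L[ℝ] V) {c : ℝ} (hc : c ≠ 0) :
    ∃ T' : V ≃L[ℝ] V, (∀ v, T' v = c • T v) ∧ ∀ w, T'.symm w = c⁻¹ • T.symm w := by
  refine ⟨T.trans (LinearEquiv.smulOfNeZero ℝ V c hc).toContinuousLinearEquiv, fun v => rfl,
    fun w => ?_⟩
  rw [ContinuousLinearEquiv.symm_apply_eq]
  change w = c • T (c⁻¹ • T.symm w)
  rw [map_smul, T.apply_symm_apply, smul_inv_smul₀ hc]

omit [FiniteDimensional ℝ V] in
theorem ApproxW.geo3_img {K K₁ : Set V} (h₁ : Img K K₁) {j : ℕ} {O : V} {e : Fin j → V}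
    {y : Fin j → V →L[ℝ] ℝ} {κ d R : ℝ} (h : ApproxW K₁ O e y κ d R) :
    ∃ (O' : V) (e' : Fin j → V) (y' : Fin j → V →L[ℝ] ℝ), ApproxW K O' e' y' κ d R := by
  obtain ⟨S, O₀, hS⟩ := h₁
  have hm : ∀ X ∈ K, S.symm (X - O₀) ∈ K₁ := fun X hX => (hS _).2 (by simpa using hX)
  have he : ∀ X, S.symm (X - (O₀ + S O)) = S.symm (X - O₀) - O := fun X => by
    rw [← sub_sub, map_sub, S.symm_apply_apply]
  refine ⟨O₀ + S O, fun i => S (e i), fun i => (y i).comp (S.symm : V →L[ℝ] V),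
    fun i l => by simp [h.bio], fun X hX hs i => ?_, fun a ha => ?_⟩
  · simp only [ContinuousLinearMap.comp_apply, ContinuousLinearEquiv.coe_coe, he] at hs ⊢
    exact h.pos _ (hm X hX) hs i
  · obtain ⟨T, hT, hT'⟩ := h.cell a ha
    refine ⟨T.trans S, fun X hX hy => ?_, fun v hv => ⟨?_, fun i => ?_⟩⟩
    · simp only [ContinuousLinearMap.comp_apply, ContinuousLinearEquiv.coe_coe, he] at hy
      have h1 := hT _ (hm X hX) hy
      rwa [← he] at h1
    · simpa [map_sum, add_assoc] using (hS _).1 (hT' v hv).1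
    · simpa using (hT' v hv).2 i

omit [FiniteDimensional ℝ V] in
/-- a convex set that avoids a shell around one of its points is bounded -/
theorem geo3_shell {C : Set V} (hv : Convex ℝ C) {O : V} (hO : O ∈ C) {L : ℝ} (hL : 0 ≤ L)
    (h : ∀ X ∈ C, ‖X - O‖ ≤ L + 1 → ‖X - O‖ ≤ L) {X : V} (hX : X ∈ C) : ‖X - O‖ ≤ L := by
  refine h X hX (not_lt.1 fun h1 => ?_)
  have h2 : 0 < ‖X - O‖ := by linarith
  have h3 : ‖O + ((L + 1) / ‖X - O‖) • (X - O) - O‖ = L + 1 := by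
    rw [add_sub_cancel_left, norm_smul, Real.norm_of_nonneg (by positivity),
      div_mul_cancel₀ _ h2.ne']
  have h4 := h _ (hv.add_smul_sub_mem hO hX (t := (L + 1) / ‖X - O‖)
    ⟨by positivity, (div_le_one h2).2 h1.le⟩) h3.le
  linarith

theorem approx_of_exact {K : Set V} (hc : IsClosed K) (hv : Convex ℝ K) {j : ℕ} {κ : ℝ}
    (hκ : 0 < κ)
    (hcent : ∀ (K' : Set V) (O : V) (e : Fin j → V) (y : Fin j → V →L[ℝ] ℝ),
      Lim K K' → ExactW K' O e y → ∃ T : V ≃L[ℝ] V,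
        (∀ X ∈ K', (∀ i, y i (X - O) ≤ 1) → ‖T.symm (X - O)‖ ≤ 1) ∧
        ∀ v : V, ‖v‖ ≤ 1 → O + ∑ i, e i + κ • T v ∈ K')
    {K' : Set V} {O : V} {e : Fin j → V} {y : Fin j → V →L[ℝ] ℝ} (hL : Lim K K')
    (hW : ExactW K' O e y) {d R : ℝ} (hd : 0 < d) (hR : 0 < R) :
    ∃ (O' : V) (e' : Fin j → V) (y' : Fin j → V →L[ℝ] ℝ), ApproxW K O' e' y' (κ / 16) d R := by
  have hv' := hL.2.1
  have hO := hW.geo3_mem
  obtain ⟨r, hr⟩ := hW.bdd
  have hr0 : 0 ≤ r := by simpa using hr O hO fun i => by simp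
  obtain ⟨Z₀, hZ₀⟩ := hW.geo3_ball hv' hd
  obtain ⟨ρ, hρ, hball⟩ := geo3_ball_of_interior hZ₀
  -- the centring on each cell
  have hcell : ∀ a : Fin j → ℝ, (∀ i, d ≤ a i ∧ a i ≤ R) → ∃ T : V ≃L[ℝ] V,
      (∀ X ∈ K', (∀ i, y i (X - O) ≤ a i) → ‖T.symm (X - O)‖ ≤ 1) ∧
      (∀ v : V, ‖v‖ ≤ 1 → O + ∑ i, a i • e i + κ • T v ∈ K' ∧ ∀ i, |y i (κ • T v)| ≤ a i) ∧
      ∀ w, ρ * ‖T.symm w‖ ≤ ‖w‖ := by
    intro a ha
    have ha0 : ∀ i, 0 < a i := fun i => hd.trans_le (ha i).1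
    have hWa : ExactW K' O (fun i => a i • e i) fun i => (a i)⁻¹ • y i := by
      refine ⟨fun i l => ?_, fun c hc => ?_, fun X hX i => ?_, ?_, hW.int⟩
      · by_cases hil : i = l
        · subst hil
          simp [hW.bio, (ha0 i).ne']
        · simp [hW.bio, hil]
      · simpa [smul_smul] using hW.ray (fun i => c i * a i) fun i => mul_nonneg (hc i) (ha0 i).le
      · exact mul_nonneg (inv_nonneg.2 (ha0 i).le) (hW.pos X hX i)
      · refine ⟨(R + 1) * r, fun X hX hy => geo3_cap_bdd hv' hO hr (by linarith) hX fun i => ?_⟩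
        have h1 : (a i)⁻¹ * y i (X - O) ≤ 1 := hy i
        rw [inv_mul_le_iff₀ (ha0 i)] at h1
        linarith [(ha i).2]
    obtain ⟨T, hT, hT'⟩ := hcent K' O _ _ hL hWa
    have hT1 : ∀ X ∈ K', (∀ i, y i (X - O) ≤ a i) → ‖T.symm (X - O)‖ ≤ 1 := fun X hX hy =>
      hT X hX fun i => by
        change (a i)⁻¹ * y i (X - O) ≤ 1
        rw [inv_mul_le_iff₀ (ha0 i), mul_one]
        exact hy i
    refine ⟨T, hT1, fun v hv => ⟨hT' v hv, fun i => ?_⟩, fun w => ?_⟩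
    · have h1 := hW.pos _ (hT' v hv) i
      have h2 := hW.pos _ (hT' (-v) (by rwa [norm_neg])) i
      simp only [add_assoc, add_sub_cancel_left, map_add, map_sum, map_smul, hW.bio, smul_eq_mul,
        mul_ite, mul_one, mul_zero, Finset.sum_ite_eq, Finset.mem_univ, if_true, map_neg] at h1 h2
      rw [map_smul, smul_eq_mul, abs_le]
      constructor <;> linarith
    · have h1 : ∀ u : V, ‖u‖ ≤ ρ → ‖T.symm u‖ ≤ 1 := by
        intro u hu
        have h2 := hT1 _ (hball u hu).1 fun i => ((hball u hu).2 i).trans (ha i).1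
        have h3 := hT1 _ (hball (-u) (by rwa [norm_neg])).1 fun i =>
          ((hball (-u) (by rwa [norm_neg])).2 i).trans (ha i).1
        have h4 : (2 : ℝ) • T.symm u = T.symm (Z₀ + u - O) - T.symm (Z₀ + -u - O) := by
          rw [← map_sub, ← map_smul, two_smul]
          congr 1
          abel
        have h5 := norm_sub_le (T.symm (Z₀ + u - O)) (T.symm (Z₀ + -u - O))
        rw [← h4, norm_smul, Real.norm_two] at h5
        linarith
      rcases eq_or_ne w 0 with rfl | hw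
      · simp
      · have h2 : 0 < ‖w‖ := norm_pos_iff.2 hw
        have h3 := h1 ((ρ / ‖w‖) • w) (by
          rw [norm_smul, Real.norm_of_nonneg (by positivity), div_mul_cancel₀ _ h2.ne'])
        rwa [map_smul, norm_smul, Real.norm_of_nonneg (by positivity), div_mul_eq_mul_div,
          div_le_one h2] at h3
  -- constants
  set Y : ℝ := ∑ i, ‖y i‖ with hY
  have hY0 : 0 ≤ Y := Finset.sum_nonneg fun _ _ => norm_nonneg _
  have hYi : ∀ i, ‖y i‖ ≤ Y := fun i =>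
    Finset.single_le_sum (f := fun i => ‖y i‖) (fun _ _ => norm_nonneg _) (Finset.mem_univ i)
  obtain ⟨ε, hε, hε1, hερ, hεκ, hεd, hεY⟩ : ∃ ε : ℝ, 0 < ε ∧ ε ≤ 1 ∧ ε ≤ ρ ∧ ε ≤ κ * ρ / 4 ∧
      Y * ε ≤ d / 2 ∧ Y * ε ≤ 1 := by
    have h1 : Filter.Tendsto (fun t : ℝ => Y * t) (𝓝[>] 0) (𝓝 (Y * 0)) :=
      ((by fun_prop : Continuous fun t : ℝ => Y * t).tendsto 0).mono_left nhdsWithin_le_nhds
    rw [mul_zero] at h1
    have h2 : ∀ᶠ t in 𝓝[>] (0 : ℝ), 0 < t ∧ t ≤ 1 ∧ t ≤ ρ ∧ t ≤ κ * ρ / 4 ∧ Y * t ≤ d / 2 ∧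
        Y * t ≤ 1 := by
      filter_upwards [Ioc_mem_nhdsGT (zero_lt_one' ℝ), Ioc_mem_nhdsGT hρ,
        Ioc_mem_nhdsGT (show 0 < κ * ρ / 4 by positivity),
        h1.eventually (eventually_le_nhds (show 0 < d / 2 by positivity)),
        h1.eventually (eventually_le_nhds zero_lt_one)] with t h3 h4 h5 h6 h7
      exact ⟨h3.1, h3.2, h4.2, h5.2, h6, h7⟩
    exact h2.exists
  have hyε : ∀ (w : V) (i), ‖w‖ ≤ ε → |y i w| ≤ Y * ε := fun w i hw =>
    ((y i).le_opNorm w).trans (mul_le_mul (hYi i) hw (norm_nonneg _) hY0)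
  have hsε : ∀ w : V, ‖w‖ ≤ ε → ∑ i, y i w ≤ 1 := by
    intro w hw
    refine le_trans ?_ hεY
    rw [hY, Finset.sum_mul]
    exact Finset.sum_le_sum fun i _ => (le_abs_self _).trans
      (((y i).le_opNorm w).trans (mul_le_mul_of_nonneg_left hw (norm_nonneg _)))
  set M : ℝ := (j + 2) * R with hM
  have hj0 : (0 : ℝ) ≤ j * R := by positivity
  have hM0 : 0 ≤ M := by positivity
  set L : ℝ := (M + 2) * r + 2 with hLdef
  have hL0 : 0 ≤ (M + 2) * r := by positivity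
  obtain ⟨K₁, hI, hN⟩ := hL.2.2 (‖O‖ + L + 2 + κ * ρ) ε hε
  have hκρ : 0 < κ * ρ := by positivity
  have hc₁ := hI.isClosed hc
  have hv₁ := hI.convex hv
  obtain ⟨O₁, hO₁, hOO⟩ := hN.2 O hO (by linarith)
  have hnear : ∀ X ∈ K₁, ∑ i, y i (X - O) ≤ M + 1 → ∃ X' ∈ K', ‖X - X'‖ ≤ ε := by
    intro X hX hs
    have h1 : ‖X - O₁‖ ≤ L := by
      refine geo3_shell (C := {X | X ∈ K₁ ∧ ∑ i, y i (X - O) ≤ M + 1}) ?_
        ⟨hO₁, (hsε _ (by rwa [norm_sub_rev])).trans (by linarith)⟩ (by linarith) ?_ ⟨hX, hs⟩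
      · intro X hX X' hX' a b ha hb hab
        refine ⟨hv₁ hX.1 hX'.1 ha hb hab, ?_⟩
        have e1 : a • X + b • X' - O = a • (X - O) + b • (X' - O) := by
          rw [smul_sub, smul_sub, ← add_sub_add_comm, ← add_smul, hab, one_smul]
        simp only [e1, map_add, map_smul, smul_eq_mul, Finset.sum_add_distrib, ← Finset.mul_sum]
        nlinarith [hX.2, hX'.2]
      · intro X hX hXL
        have h2 : ‖X‖ ≤ ‖X - O₁‖ + ‖O - O₁‖ + ‖O‖ := by
          have e : X = X - O₁ - (O - O₁) + O := by abel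
          conv_lhs => rw [e]
          exact (norm_add_le _ _).trans (add_le_add (norm_sub_le _ _) le_rfl)
        obtain ⟨X', hX', hXX⟩ := hN.1 X hX.1 (by linarith)
        have h3 : ∑ i, y i (X' - O) ≤ M + 2 := by
          have e : X' - O = (X - O) + (X' - X) := by abel
          simp only [e, map_add (y _) (X - O), Finset.sum_add_distrib]
          linarith [hX.2, hsε (X' - X) (by rwa [norm_sub_rev])]
        have h4 := geo3_cap_bdd hv' hO hr (M := M + 2) (by linarith) hX' fun i =>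
          (Finset.single_le_sum (f := fun i => y i (X' - O)) (fun i _ => hW.pos X' hX' i)
            (Finset.mem_univ i)).trans h3
        have e : X - O₁ = (X - X') + (X' - O) + (O - O₁) := by abel
        rw [e]
        linarith [norm_add₃_le (a := X - X') (b := X' - O) (c := O - O₁)]
    have h2 : ‖X‖ ≤ ‖X - O₁‖ + ‖O - O₁‖ + ‖O‖ := by
      have e : X = X - O₁ - (O - O₁) + O := by abel
      conv_lhs => rw [e]
      exact (norm_add_le _ _).trans (add_le_add (norm_sub_le _ _) le_rfl)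
    exact hN.1 X hX (by linarith)
  refine ApproxW.geo3_img hI (O := O) (e := e) (y := y) ⟨hW.bio, fun X hX hs i => ?_, fun a ha => ?_⟩
  · obtain ⟨X', hX', hXX⟩ := hnear X hX (by nlinarith)
    have e : X - O = (X' - O) + (X - X') := by abel
    rw [e, map_add]
    linarith [hW.pos X' hX' i, (abs_le.1 (hyε _ i hXX)).1]
  · obtain ⟨T, hT, hT', hT''⟩ := hcell a ha
    obtain ⟨T', h1, h2⟩ := geo3_scale T (c := 4) (by norm_num)
    have h3 : ∀ v, (κ / 16) • T' v = κ • T ((1 / 4 : ℝ) • v) := fun v => by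
      rw [h1, map_smul, smul_smul, smul_smul]
      congr 1
      ring
    refine ⟨T', fun X hX hy => ?_, fun v hv => ?_⟩
    · have h4 : ∑ i, y i (X - O) ≤ j * R := by
        simpa using Finset.sum_le_sum (s := Finset.univ) fun i _ => (hy i).trans (ha i).2
      obtain ⟨X', hX', hXX⟩ := hnear X hX (by nlinarith)
      have h5 := hT _ (hv'.add_smul_sub_mem hO hX' (t := 1 / 2) ⟨by norm_num, by norm_num⟩)
        fun i => by
          have e : X' - O = (X - O) - (X - X') := by abel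
          rw [add_sub_cancel_left, map_smul, smul_eq_mul, e, map_sub (y i) (X - O)]
          linarith [hy i, (abs_le.1 (hyε _ i hXX)).1, (ha i).1]
      rw [add_sub_cancel_left, map_smul, norm_smul, Real.norm_of_nonneg (by norm_num)] at h5
      have h6 : ‖T.symm (X - X')‖ ≤ 1 :=
        le_of_mul_le_mul_left ((hT'' _).trans (by linarith)) hρ
      have e : X - O = (X' - O) + (X - X') := by abel
      rw [h2, norm_smul, Real.norm_of_nonneg (by norm_num), e, map_add]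
      linarith [norm_add_le (T.symm (X' - O)) (T.symm (X - X'))]
    · have h4 : ‖(1 / 4 : ℝ) • v‖ ≤ 1 / 4 := by
        rw [norm_smul, Real.norm_of_nonneg (by norm_num)]
        linarith
      rw [h3]
      refine ⟨?_, (hT' _ (by linarith)).2⟩
      have h5 : ‖O + ∑ i, a i • e i + κ • T ((1 / 4 : ℝ) • v) - O‖ ≤ (M + 2) * r := by
        refine geo3_cap_bdd hv' hO hr (by linarith) (hT' _ (by linarith)).1 fun i => ?_
        have h6 := (abs_le.1 ((hT' ((1 / 4 : ℝ) • v) (by linarith)).2 i)).2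
        rw [add_assoc, add_sub_cancel_left, map_add]
        simp only [map_sum, map_smul (y i) (a _), hW.bio, smul_eq_mul, mul_ite, mul_one, mul_zero,
          Finset.sum_ite_eq, Finset.mem_univ, if_true]
        nlinarith [(ha i).2]
      have h6 := ball_of_near hc₁ hv₁ hε.le hN (r := κ * ρ / 2)
        (Z := O + ∑ i, a i • e i + κ • T ((1 / 4 : ℝ) • v)) (fun w hw => ?_)
        (by linarith [norm_le_norm_add_norm_sub' (O + ∑ i, a i • e i + κ • T ((1 / 4 : ℝ) • v)) O])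
        0 (by rw [norm_zero]; linarith)
      · rwa [add_zero] at h6
      · have h7 : ‖κ⁻¹ • T.symm w‖ ≤ 1 / 2 := by
          rw [norm_smul, norm_inv, Real.norm_of_nonneg hκ.le, inv_mul_le_iff₀ hκ]
          exact le_of_mul_le_mul_left ((hT'' w).trans (by linarith)) hρ
        have h8 := (hT' ((1 / 4 : ℝ) • v + κ⁻¹ • T.symm w)
          ((norm_add_le _ _).trans (by linarith))).1
        rwa [map_add, smul_add, map_smul T κ⁻¹, T.apply_symm_apply, smul_inv_smul₀ hκ.ne',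
          ← add_assoc] at h8

theorem unif_strict {K : Set V} (hc : IsClosed K) (hv : Convex ℝ K)
    (hW : ∀ j : ℕ, 2 ≤ j → ∀ κ : ℝ, 0 < κ → κ ≤ 1 → ∃ d R : ℝ, 0 < d ∧ 0 < R ∧
      ∀ (O : V) (e : Fin j → V) (y : Fin j → V →L[ℝ] ℝ), ¬ ApproxW K O e y κ d R)
    {c₁ r₁ H₀ c₀ : ℝ} (hc₁ : 0 < c₁) (hc₀ : 0 < c₀) :
    ∃ γ : ℝ, 0 < γ ∧ ∀ K' : Set V, Img K K' → ∀ H : V →L[ℝ] ℝ, (0 : V) ∈ K' →
      (∀ X ∈ K', 0 ≤ H X) → (∀ X ∈ K', H X ≤ 1 → ‖X‖ ≤ r₁) →
      (∃ Z : V, ∀ v : V, ‖v‖ ≤ c₁ → Z + v ∈ K' ∧ H (Z + v) ≤ 1) →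
      ∀ X ∈ K', ∀ X' ∈ K', H X ≤ H₀ → H X' ≤ H₀ → c₀ ≤ ‖X - X'‖ →
        ∀ v : V, ‖v‖ ≤ γ → (1 / 2 : ℝ) • (X + X') + v ∈ K' := by
  by_contra hcon
  have h1 : ∀ k : ℕ, ∃ (K' : Set V) (H : V →L[ℝ] ℝ) (Z X X' v : V), Img K K' ∧ (0 : V) ∈ K' ∧
      (∀ X ∈ K', 0 ≤ H X) ∧ (∀ X ∈ K', H X ≤ 1 → ‖X‖ ≤ r₁) ∧
      (∀ v : V, ‖v‖ ≤ c₁ → Z + v ∈ K' ∧ H (Z + v) ≤ 1) ∧ X ∈ K' ∧ X' ∈ K' ∧ H X ≤ H₀ ∧
      H X' ≤ H₀ ∧ c₀ ≤ ‖X - X'‖ ∧ ‖v‖ ≤ 1 / ((k : ℝ) + 1) ∧ (1 / 2 : ℝ) • (X + X') + v ∉ K' := by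
    intro k
    by_contra h2
    refine hcon ⟨_, (geo3_eta k).1, fun K' hI H h0 hH hb ⟨Z, hZ⟩ X hX X' hX' a b c v hv => ?_⟩
    by_contra h3
    exact h2 ⟨K', H, Z, X, X', v, hI, h0, hH, hb, hZ, hX, hX', a, b, c, hv, h3⟩
  choose Ks H Z X X' v hI h0 hH hb hZ hX hX' hXH hXH' hXX hv' hbad using h1
  have hcs : ∀ k, IsClosed (Ks k) := fun k => (hI k).isClosed hc
  have hvs : ∀ k, Convex ℝ (Ks k) := fun k => (hI k).convex hv
  have hcap : ∀ k, ∀ M : ℝ, 1 ≤ M → ∀ X ∈ Ks k, H k X ≤ M → ‖X‖ ≤ M * r₁ := by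
    intro k M hM X hX hXM
    simpa using geo3_cap_bdd (hvs k) (h0 k) (y := fun _ : Unit => H k) (r := r₁)
      (fun X hX hy => by simpa using hb k X hX (by simpa using hy ())) hM hX
      fun _ => by simpa using hXM
  have hHb : ∀ k, ‖H k‖ ≤ 1 / c₁ := by
    intro k
    refine ContinuousLinearMap.opNorm_le_of_unit_norm (by positivity) fun w hw => ?_
    have h2 : ‖c₁ • w‖ ≤ c₁ := by rw [norm_smul, hw, mul_one, Real.norm_of_nonneg hc₁.le]
    have h3 := hZ k _ h2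
    have h4 := hH k _ h3.1
    have h5 := hZ k 0 (by simpa using hc₁.le)
    have h6 := hH k _ h5.1
    have h7 := h3.2
    have h8 := h5.2
    rw [map_add, map_smul, smul_eq_mul] at h4 h7
    rw [add_zero] at h6 h8
    rw [Real.norm_eq_abs, le_div_iff₀ hc₁, ← abs_of_pos hc₁, ← abs_mul, abs_le]
    constructor <;> linarith
  set 𝒰 := Filter.hyperfilter ℕ
  obtain ⟨H', -, tH⟩ := exists_ultra_tendsto 𝒰 (Filter.Eventually.of_forall hHb)
  obtain ⟨Z', -, tZ⟩ := exists_ultra_tendsto 𝒰 (X := Z) (r := r₁)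
    (Filter.Eventually.of_forall fun k => by
      have h5 := hZ k 0 (by simpa using hc₁.le)
      rw [add_zero] at h5
      exact hb k _ h5.1 h5.2)
  obtain ⟨Y, -, tY⟩ := exists_ultra_tendsto 𝒰 (X := X) (Filter.Eventually.of_forall fun k =>
    hcap k (max 1 H₀) (le_max_left _ _) _ (hX k) ((hXH k).trans (le_max_right _ _)))
  obtain ⟨Y', -, tY'⟩ := exists_ultra_tendsto 𝒰 (X := X') (Filter.Eventually.of_forall fun k =>
    hcap k (max 1 H₀) (le_max_left _ _) _ (hX' k) ((hXH' k).trans (le_max_right _ _)))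
  have hLim : Lim K (ulim 𝒰 Ks) := lim_ulim 𝒰 fun k => Lim.of_img hc hv (hI k)
  have hint : (interior (ulim 𝒰 Ks)).Nonempty := by
    refine ⟨Z', mem_interior_iff_mem_nhds.2 (Filter.mem_of_superset
      (Metric.closedBall_mem_nhds Z' hc₁) fun W hW => ?_)⟩
    have h2 := mem_ulim_of_tendsto 𝒰 (X := fun k => Z k + (W - Z'))
      (Filter.Eventually.of_forall fun k => (hZ k _ (mem_closedBall_iff_norm.1 hW)).1)
      (tZ.add_const _)
    rwa [add_sub_cancel] at h2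
  have hne : Y ≠ Y' := by
    intro h2
    have h3 := ge_of_tendsto' (tY.sub tY').norm hXX
    rw [h2, sub_self, norm_zero] at h3
    linarith
  have hmid : (1 / 2 : ℝ) • (Y + Y') ∉ interior (ulim 𝒰 Ks) := by
    intro hQ
    have tv : Filter.Tendsto v 𝒰 (𝓝 0) :=
      tendsto_zero_iff_norm_tendsto_zero.2 (squeeze_zero (fun _ => norm_nonneg _) hv' geo3_tendsto)
    have h2 := ((tY.add tY').const_smul (1 / 2 : ℝ)).add tv
    rw [add_zero] at h2
    obtain ⟨r, hr, h3⟩ := geo3_ball_eventually 𝒰 hcs hvs hQ h2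
    obtain ⟨k, hk⟩ := h3.exists
    exact hbad k (by simpa using hk 0 (by simpa using hr.le))
  have h2 : ∃ (K' : Set V) (O : V) (e : Fin 2 → V) (y : Fin 2 → V →L[ℝ] ℝ),
      Lim K K' ∧ ExactW K' O e y := by
    refine exact_of_pre fun η hη => ?_
    obtain ⟨O, e, y, h3⟩ := pre_two_of_segment hLim.1 hLim.2.1 hint H'
      (mem_ulim_of_tendsto 𝒰 (X := fun _ => 0) (Filter.Eventually.of_forall h0) tendsto_const_nhds)
      (fun W hW => by
        obtain ⟨Ws, hWs, tW⟩ := exists_tendsto_of_mem_ulim_atTop 𝒰 Nat.hyperfilter_le_atTop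
          (fun k => ⟨0, h0 k⟩) hW
        exact ge_of_tendsto' (geo3_eval tH tW) fun k => hH k _ (hWs k))
      (r := 2 * r₁) (fun W hW hW1 => by
        obtain ⟨Ws, hWs, tW⟩ := exists_tendsto_of_mem_ulim_atTop 𝒰 Nat.hyperfilter_le_atTop
          (fun k => ⟨0, h0 k⟩) hW
        refine le_of_tendsto tW.norm ?_
        filter_upwards [(geo3_eval tH tW).eventually (eventually_le_nhds (show H' W < 2 by linarith))]
          with k hk
        exact hcap k 2 (by norm_num) _ (hWs k) hk)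
      (mem_ulim_of_tendsto 𝒰 (Filter.Eventually.of_forall hX) tY)
      (mem_ulim_of_tendsto 𝒰 (Filter.Eventually.of_forall hX') tY') hne hmid hη
    exact ⟨_, O, e, y, hLim, h3⟩
  have h3 : ∃ j : ℕ, 2 ≤ j ∧ (∃ (K' : Set V) (O : V) (e : Fin j → V) (y : Fin j → V →L[ℝ] ℝ),
      Lim K K' ∧ ExactW K' O e y) ∧ ¬ ∃ (K' : Set V) (O : V) (e : Fin (j + 1) → V)
      (y : Fin (j + 1) → V →L[ℝ] ℝ), Lim K K' ∧ ExactW K' O e y := by
    by_contra h4
    have h5 : ∀ j : ℕ, 2 ≤ j → ∃ (K' : Set V) (O : V) (e : Fin j → V) (y : Fin j → V →L[ℝ] ℝ),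
        Lim K K' ∧ ExactW K' O e y := by
      intro j hj
      induction j, hj using Nat.le_induction with
      | base => exact h2
      | succ j hj ih => exact by_contra fun h6 => h4 ⟨j, hj, ih, h6⟩
    obtain ⟨K', O, e, y, -, h6⟩ := h5 (Module.finrank ℝ V + 2) (by omega)
    have := h6.le_finrank
    omega
  obtain ⟨j, hj, ⟨K', O, e, y, hL, hE⟩, hmax⟩ := h3
  obtain ⟨κ, hκ, hκ1, hcent⟩ := centering hmax
  obtain ⟨d, R, hd, hR, hno⟩ := hW j hj (κ / 16) (by positivity) (by linarith)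
  obtain ⟨O', e', y', h4⟩ := approx_of_exact hc hv hκ hcent hL hE hd hR
  exact hno O' e' y' h4

end Crest.Agent.R236
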