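import Crest.Agent.R236.StepAux

/-!
# Row 236, Step I: the energy of `log ỹ_i` is bounded by the mass

Notation: `m = (n-2)/2`, `ε = 1/32`, `Λ = Lm`, `ν_i = nui`, `ỹ_i = yt`, `ξ_i = y_i (xi x)`.
Basic relations (CoreB, with `bio`): `Dv dΛ = n`, `Dv dν_i = 0`, `Dv dỹ_i = n ξ_i`,
`ip dΛ dỹ_i = Λ ξ_i + ỹ_i - 2 d`, `ip dν_l dỹ_i = ν_l ξ_i - δ_{li}`.
`dG = R + P` with `R = (1 + εδ) dΛ + ε Σ ỹ_i dν_i`, `P = ε Σ ν_i dỹ_i`. Put `ϱ = R/G`, `π_G = P/G`,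
`p_i = dỹ_i / ỹ_i`, `θ = 1/G`. On `CR R`: `B̃ ≥ δ Λ / 2 > 0`, `|ỹ_i ν_i| ≤ B̃ ≤ 32 G`, `d ≤ 2 ỹ_i`, and
* `ip R dỹ_i = G ξ_i + (1+εδ)(ỹ_i - 2d) - ε ỹ_i`, so `ξ_i / ỹ_i = ip ϱ p_i + O(θ)`;
* `Dv R = εΣ ν_i ξ_i + O(1)`, `Dv P = (n+1) εΣ ν_i ξ_i + O(1)`, `ip R P = G εΣ ν_i ξ_i + O(G)`, hence
  `Dv ϱ = -|ϱ|² + O(θ)`, `Dv π_G = n ⟨ϱ, π_G⟩ - |π_G|² + O(θ)`,
  `Dv p_i = -|p_i|² + n ⟨ϱ, p_i⟩ + O(θ)`.
With `t = 1 - s/R`, `φ = (t⁺)ⁿ` use the form
`V = G^{-m} [φ ((n-m) ϱ + m π_G + δ₁ Σ p_i) - dφ]`, `dφ = n (t⁺)^{n-1} dt`, on the open set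
`U = {x ∈ Ω | G > 0, ỹ_i > 0}`. The `⟨ϱ, dφ⟩` and `⟨ϱ, π_G⟩` terms cancel and
`G^m Dv V = t^{n-2} [-(n-m)(1+m)|tϱ|² - m(1+m)|tπ_G|² + 2mn ⟨tπ_G, dt⟩ - n(n-1)|dt|²
  + δ₁ Σ(-|t p_i|² + (n-m)⟨tϱ, t p_i⟩ - m ⟨tπ_G, t p_i⟩ + n ⟨dt, t p_i⟩)] + O(θ)`
(`Dv dt = -(n/R) Σ ξ_i`, and `(1/R) Σ ξ_i = -⟨ϱ, dt⟩ + O(θ)` because `s ≤ R`).
As `m² n² < m (1+m) n (n-1)`, for `δ₁ = δ₁(n, j)` small this is `≤ -(δ₁/2) φ Σ |p_i|² + C θ`
(use `exists_frame` to reduce to scalar inequalities). Integrate with `integral_Dv_eq_zero`.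
-/

set_option autoImplicit false
open scoped ContDiff RealInnerProductSpace ENNReal Topology
open Crest.GeometryTopology.CoordMetric Crest.GeometryTopology.AffineMaximal MeasureTheory

noncomputable section

namespace Crest.Agent.R236

lemma step1_scalar {j : ℕ} (N m δ₁ a b c : ℝ) (p : Fin j → ℝ) (hN : 3 ≤ N) (hm : m = (N - 2) / 2)
    (hδ : 0 ≤ δ₁) (hδ' : δ₁ * (6 * N ^ 2 * j) ≤ 1) :
    -((N - m) * (1 + m)) * (a * a) - m * (1 + m) * (b * b) + 2 * m * N * (b * c)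
      - N * (N - 1) * (c * c)
      + δ₁ * (-(∑ i, p i * p i) + (N - m) * (a * ∑ i, p i) - m * (b * ∑ i, p i)
        + N * (c * ∑ i, p i)) ≤ -(δ₁ / 2 * ∑ i, p i * p i) := by
  set q := (N - m) * a - m * b + N * c with hq
  have h1 : -(∑ i, p i * p i) / 2 + q * ∑ i, p i ≤ j * (q ^ 2 / 2) := by
    have : ∑ i, (-(p i * p i) / 2 + q * p i) ≤ ∑ _i : Fin j, q ^ 2 / 2 :=
      Finset.sum_le_sum fun i _ => by nlinarith [sq_nonneg (p i - q)]
    simpa [Finset.sum_add_distrib, ← Finset.sum_div, ← Finset.mul_sum] using this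
  have hm0 : 0 ≤ m := by rw [hm]; linarith
  have hmN : m ≤ N := by rw [hm]; linarith
  have h2 : q ^ 2 ≤ 3 * N ^ 2 * (a * a + b * b + c * c) := by
    have e1 : ((N - m) * a) ^ 2 ≤ N ^ 2 * (a * a) := by
      have : (N - m) ^ 2 ≤ N ^ 2 := by nlinarith
      nlinarith [mul_self_nonneg a]
    have e2 : (m * b) ^ 2 ≤ N ^ 2 * (b * b) := by
      have : m ^ 2 ≤ N ^ 2 := by nlinarith
      nlinarith [mul_self_nonneg b]
    have e3 : q ^ 2 ≤ 3 * (((N - m) * a) ^ 2 + (m * b) ^ 2 + (N * c) ^ 2) := by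
      rw [hq]
      nlinarith [sq_nonneg ((N - m) * a + m * b), sq_nonneg ((N - m) * a - N * c),
        sq_nonneg (m * b + N * c)]
    nlinarith
  have hs : 0 ≤ a * a + b * b + c * c := by nlinarith [mul_self_nonneg a, mul_self_nonneg b, mul_self_nonneg c]
  have h3 : δ₁ * (j * (q ^ 2 / 2)) ≤ 1 / 4 * (a * a + b * b + c * c) := by
    have hj : (0 : ℝ) ≤ j := Nat.cast_nonneg j
    calc δ₁ * (j * (q ^ 2 / 2)) ≤ δ₁ * (j * (3 * N ^ 2 * (a * a + b * b + c * c) / 2)) := by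
          gcongr
      _ = δ₁ * (6 * N ^ 2 * j) * (1 / 4 * (a * a + b * b + c * c)) := by ring
      _ ≤ 1 * (1 / 4 * (a * a + b * b + c * c)) := by gcongr
      _ = _ := one_mul _
  have h4 : -((N - m) * (1 + m)) * (a * a) - m * (1 + m) * (b * b) + 2 * m * N * (b * c)
      - N * (N - 1) * (c * c) ≤ -(1 / 4 * (a * a + b * b + c * c)) := by
    have e : -((N - m) * (1 + m)) * (a * a) - m * (1 + m) * (b * b) + 2 * m * N * (b * c)
      - N * (N - 1) * (c * c)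
        = -(N * (N + 2) / 4 * (a * a)) - N * (N - 2) / 4 * (b - 2 * c) ^ 2 - N * (c * c) := by
      rw [hm]; ring
    rw [e]
    have f1 : 1 / 4 * (a * a) ≤ N * (N + 2) / 4 * (a * a) :=
      mul_le_mul_of_nonneg_right (by nlinarith) (mul_self_nonneg a)
    have f2 : 3 / 4 * (b - 2 * c) ^ 2 ≤ N * (N - 2) / 4 * (b - 2 * c) ^ 2 :=
      mul_le_mul_of_nonneg_right (by nlinarith) (sq_nonneg _)
    have f3 : 3 * (c * c) ≤ N * (c * c) := mul_le_mul_of_nonneg_right hN (mul_self_nonneg c)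
    nlinarith [sq_nonneg (b - 4 * c), mul_self_nonneg c, sq_nonneg (b - 2 * c)]
  have h5 := mul_le_mul_of_nonneg_left h1 hδ
  have e : δ₁ * (-(∑ i, p i * p i) + (N - m) * (a * ∑ i, p i) - m * (b * ∑ i, p i)
        + N * (c * ∑ i, p i))
      = δ₁ * (-(∑ i, p i * p i) / 2 + q * ∑ i, p i) - δ₁ / 2 * ∑ i, p i * p i := by
    rw [hq]; ring
  rw [e]; linarith

lemma step1_alg (N j m δ δ₁ G t Ξ K A Cq D2 E1 E2 E3 En F1 F2 F3 κs κR : ℝ) (hG : 0 < G)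
    (e2 : D2 = G * Ξ + K) :
    t ^ 2 * (((N - m) * ((N + (Ξ - j + δ * N) / 32) / G - (A + D2 / 32) / G ^ 2)
        + m / 32 * (((N + 1) * Ξ - j) / G - (D2 + Cq / 32) / G ^ 2)
        + δ₁ * (N * (F1 - κs) / G - En))
        - m / G * ((N - m) / G * (A + D2 / 32) + m / 32 / G * (D2 + Cq / 32)
          + δ₁ * (F1 + F2 / 32)))
      + N * t * (((N - m) / G * E1 + m / 32 / G * E2 + δ₁ * F3) - N * (E1 + κR) / G
        + m / G * (E1 + E2 / 32))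
      - N * (N - 1) * E3
    = (-((N - m) * (1 + m)) * (t ^ 2 * A / G ^ 2) - m * (1 + m) * (t ^ 2 * Cq / (32 * G) ^ 2)
        + 2 * m * N * (t * E2 / (32 * G)) - N * (N - 1) * E3
        + δ₁ * (-(t ^ 2 * En) + (N - m) * (t ^ 2 * F1 / G) - m * (t ^ 2 * F2 / (32 * G))
          + N * (t * F3)))
      + (t ^ 2 * ((N - m) * (N + (δ * N - j) / 32 - K / (32 * G))
          + m * (-j / 32 - (N + 1) * (K / (32 * G))) - δ₁ * N * κs) - N ^ 2 * t * κR) / G := by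
  subst e2
  field_simp
  ring

lemma step1_coef (N j m δ δ₁ t q κs κR : ℝ) (hN : 3 ≤ N) (hj : 1 ≤ j) (hm : m = (N - 2) / 2)
    (_hδ : 0 < δ) (hδ' : δ ≤ 1) (hδ₁ : 0 ≤ δ₁) (hδ₁' : δ₁ ≤ 1) (ht0 : 0 ≤ t) (ht1 : t ≤ 1)
    (hq : |q| ≤ 7 * j) (hs : |κs| ≤ 7 * j) (hR : |κR| ≤ 7) :
    t ^ 2 * ((N - m) * (N + (δ * N - j) / 32 - q)
          + m * (-j / 32 - (N + 1) * q) - δ₁ * N * κs) - N ^ 2 * t * κR
      ≤ N * (2 * N + 7 * j) + N * ((N + 1) * (7 * j)) + N * (7 * j) + N ^ 2 * 7 := by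
  have hm0 : 0 ≤ m := by rw [hm]; linarith
  have hmN : m ≤ N := by rw [hm]; linarith
  obtain ⟨hq1, hq2⟩ := abs_le.1 hq
  obtain ⟨hs1, hs2⟩ := abs_le.1 hs
  obtain ⟨hR1, hR2⟩ := abs_le.1 hR
  have h1 : (N - m) * (N + (δ * N - j) / 32 - q) ≤ N * (2 * N + 7 * j) := by
    have : N + (δ * N - j) / 32 - q ≤ 2 * N + 7 * j := by nlinarith
    calc (N - m) * (N + (δ * N - j) / 32 - q) ≤ (N - m) * (2 * N + 7 * j) :=
          mul_le_mul_of_nonneg_left this (by linarith)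
      _ ≤ _ := mul_le_mul_of_nonneg_right (by linarith) (by linarith)
  have h2 : m * (-j / 32 - (N + 1) * q) ≤ N * ((N + 1) * (7 * j)) := by
    have : -j / 32 - (N + 1) * q ≤ (N + 1) * (7 * j) := by nlinarith
    calc m * (-j / 32 - (N + 1) * q) ≤ m * ((N + 1) * (7 * j)) :=
          mul_le_mul_of_nonneg_left this hm0
      _ ≤ _ := mul_le_mul_of_nonneg_right hmN (by positivity)
  have h3 : -(δ₁ * N * κs) ≤ N * (7 * j) := by
    have : δ₁ * (-κs) ≤ 7 * j := by nlinarith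
    nlinarith
  have h4 : -(N ^ 2 * t * κR) ≤ N ^ 2 * 7 := by
    have : t * (-κR) ≤ 7 := by nlinarith
    nlinarith [sq_nonneg N]
  have h5 : t ^ 2 * ((N - m) * (N + (δ * N - j) / 32 - q)
          + m * (-j / 32 - (N + 1) * q) - δ₁ * N * κs)
      ≤ N * (2 * N + 7 * j) + N * ((N + 1) * (7 * j)) + N * (7 * j) := by
    have ht2 : t ^ 2 ≤ 1 := by nlinarith
    calc _ ≤ t ^ 2 * (N * (2 * N + 7 * j) + N * ((N + 1) * (7 * j)) + N * (7 * j)) :=
          mul_le_mul_of_nonneg_left (by linarith) (sq_nonneg t)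
      _ ≤ 1 * (N * (2 * N + 7 * j) + N * ((N + 1) * (7 * j)) + N * (7 * j)) :=
          mul_le_mul_of_nonneg_right ht2 (by positivity)
      _ = _ := one_mul _
  linarith

namespace WD

variable {n j : ℕ} (W : WD n j) (M : AM n)

def Ps : Form n := fun x => ∑ i, (W.yt M i x)⁻¹ • dd (W.yt M i) x
def W1 (m δ₁ : ℝ) : Form n := fun x =>
  ((n - m) * (W.G M x)⁻¹) • W.RG M x + (m / 32 * (W.G M x)⁻¹) • W.Pb M x + δ₁ • W.Ps M x
def tt (R : ℝ) (x : E n) : ℝ := 1 - W.s M x / R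
def kap (i : Fin j) (x : E n) : ℝ := (1 + W.δ / 32) * (W.yt M i x - 2 * W.d) - W.yt M i x / 32

variable {W M}

lemma cd_Ps (k : Fin n) : ContDiffOn ℝ ∞ (fun z => W.Ps M z k) (W.UU M) := by
  simp only [Ps, Finset.sum_apply, Pi.smul_apply, smul_eq_mul]
  exact ContDiffOn.sum fun i _ => (((W.cd_yt M i).mono UU_sub).inv
    fun x hx => (hx.2.2.2 i).ne').mul ((contDiffOn_dd M.isOpen (W.cd_yt M i) k).mono UU_sub)

lemma cd_W1 (m δ₁ : ℝ) (k : Fin n) : ContDiffOn ℝ ∞ (fun z => W.W1 M m δ₁ z k) (W.UU M) := by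
  simp only [W1, Pi.add_apply, Pi.smul_apply, smul_eq_mul]
  have hG : ContDiffOn ℝ ∞ (fun z => (W.G M z)⁻¹) (W.UU M) :=
    ((W.cd_G M).mono UU_sub).inv fun x hx => hx.2.1.ne'
  exact (((contDiffOn_const.mul hG).mul ((W.cd_RG M k).mono UU_sub)).add
    ((contDiffOn_const.mul hG).mul ((W.cd_Pb M k).mono UU_sub))).add
    (contDiffOn_const.mul (cd_Ps k))

lemma cd_tt (R : ℝ) : ContDiffOn ℝ ∞ (W.tt M R) M.Ω :=
  contDiffOn_const.sub ((W.cd_s M).div_const _)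

lemma dd_inv' {f : E n → ℝ} {x : E n} (hf : DifferentiableAt ℝ f x) (h0 : f x ≠ 0) :
    dd (fun z => (f z)⁻¹) x = (-(f x ^ 2)⁻¹) • dd f x :=
  dd_comp hf (hasDerivAt_inv h0)

lemma dd_tt (R : ℝ) {x : E n} (hx : x ∈ M.Ω) :
    dd (W.tt M R) x = (-R⁻¹) • ∑ i, dd (W.yt M i) x := by
  have hy := fun i => diffAt_of_contDiffOn M.isOpen (W.cd_yt M i) hx
  have hs : DifferentiableAt ℝ (fun z => ∑ i, W.yt M i z) x :=
    DifferentiableAt.fun_sum fun i _ => hy i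
  have e : W.tt M R = fun z => 1 + (-R⁻¹) * ∑ i, W.yt M i z := by
    funext z; simp only [tt, s]; ring
  rw [e, dd_add (differentiableAt_const _) (hs.const_mul _), dd_const, zero_add,
    dd_const_mul _ hs, dd_sum _ (fun i _ => hy i)]

lemma Dv_dd_tt (hbio : ∀ i l, W.y i (W.e l) = if i = l then 1 else 0) (R : ℝ) {x : E n}
    (hx : x ∈ W.UU M) :
    M.Dv (dd (W.tt M R)) x
      = n * (M.ip x (W.RG M x) (dd (W.tt M R) x) + (∑ i, W.kap M i x) / R) / W.G M x := by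
  have hy : ∀ i, Diff1 (dd (W.yt M i)) x := fun i =>
    diff1_of_contDiffOn M.isOpen (contDiffOn_dd M.isOpen (W.cd_yt M i)) hx.1
  have hs : Diff1 (fun z => ∑ i, dd (W.yt M i) z) x := fun k => by
    simp only [Finset.sum_apply]
    exact DifferentiableAt.fun_sum fun i _ => hy i k
  have e : dd (W.tt M R) =ᶠ[𝓝 x] fun z => (-R⁻¹) • ∑ i, dd (W.yt M i) z :=
    Filter.eventually_of_mem (M.isOpen.mem_nhds hx.1) fun z hz => dd_tt R hz
  rw [M.Dv_congr e, M.Dv_const_smul _ hx.1 hs, M.Dv_sum _ hx.1 (fun i _ => hy i), dd_tt R hx.1]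
  simp only [Dv_dd_yt hx.1, M.ip_smul_right, M.ip_sum_right, ip_RG_yt hbio hx.1, kap,
    Finset.sum_add_distrib, ← Finset.mul_sum]
  have := hx.2.1.ne'
  field_simp
  ring

lemma Dv_Ps (hbio : ∀ i l, W.y i (W.e l) = if i = l then 1 else 0) {x : E n}
    (hx : x ∈ W.UU M) :
    M.Dv (W.Ps M) x = n * (M.ip x (W.RG M x) (W.Ps M x) - ∑ i, W.kap M i x / W.yt M i x) / W.G M x
      - W.En M x := by
  have hy0 := fun i => diffAt_of_contDiffOn M.isOpen (W.cd_yt M i) hx.1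
  have hy : ∀ i, Diff1 (dd (W.yt M i)) x := fun i =>
    diff1_of_contDiffOn M.isOpen (contDiffOn_dd M.isOpen (W.cd_yt M i)) hx.1
  have hi : ∀ i, DifferentiableAt ℝ (fun z => (W.yt M i z)⁻¹) x := fun i =>
    (hy0 i).inv (hx.2.2.2 i).ne'
  have h1 : ∀ i, Diff1 (fun z => (W.yt M i z)⁻¹ • dd (W.yt M i) z) x := fun i k =>
    (hi i).mul (hy i k)
  have e : W.Ps M = fun z => ∑ i, (W.yt M i z)⁻¹ • dd (W.yt M i) z := rfl
  rw [e, M.Dv_sum _ hx.1 (fun i _ => h1 i)]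
  simp only [M.ip_sum_right, M.ip_smul_right, ip_RG_yt hbio hx.1, En, kap, Finset.mul_sum,
    Finset.sum_div, ← Finset.sum_sub_distrib]
  refine Finset.sum_congr rfl fun i _ => ?_
  rw [M.Dv_smul hx.1 (hi i) (hy i), dd_inv' (hy0 i) (hx.2.2.2 i).ne', Dv_dd_yt hx.1,
    M.ip_smul_left]
  have := hx.2.1.ne'
  have := (hx.2.2.2 i).ne'
  field_simp
  ring

lemma Dv_W1 (hbio : ∀ i l, W.y i (W.e l) = if i = l then 1 else 0) (m δ₁ : ℝ) {x : E n}
    (hx : x ∈ W.UU M) :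
    M.Dv (W.W1 M m δ₁) x
      = (n - m) * ((n + (W.Xi M x - j + W.δ * n) / 32) / W.G M x
          - (M.ip x (W.RG M x) (W.RG M x) + M.ip x (W.RG M x) (W.Pb M x) / 32) / W.G M x ^ 2)
        + m / 32 * (((n + 1) * W.Xi M x - j) / W.G M x
          - (M.ip x (W.RG M x) (W.Pb M x) + M.ip x (W.Pb M x) (W.Pb M x) / 32) / W.G M x ^ 2)
        + δ₁ * (n * (M.ip x (W.RG M x) (W.Ps M x) - ∑ i, W.kap M i x / W.yt M i x) / W.G M x
          - W.En M x) := by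
  have hxΩ := hx.1
  have hG := diffAt_of_contDiffOn M.isOpen (W.cd_G M) hxΩ
  have hRG : Diff1 (W.RG M) x := diff1_of_contDiffOn M.isOpen (W.cd_RG M) hxΩ
  have hPb : Diff1 (W.Pb M) x := diff1_of_contDiffOn M.isOpen (W.cd_Pb M) hxΩ
  have hPs : Diff1 (W.Ps M) x := diff1_of_contDiffOn isOpen_UU cd_Ps hx
  have hGi : DifferentiableAt ℝ (fun z => (W.G M z)⁻¹) x := hG.inv hx.2.1.ne'
  have hf1 : DifferentiableAt ℝ (fun z => (n - m) * (W.G M z)⁻¹) x := hGi.const_mul _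
  have hf2 : DifferentiableAt ℝ (fun z => m / 32 * (W.G M z)⁻¹) x := hGi.const_mul _
  have h1 : Diff1 (fun z => ((n - m) * (W.G M z)⁻¹) • W.RG M z) x := fun k => hf1.mul (hRG k)
  have h2 : Diff1 (fun z => (m / 32 * (W.G M z)⁻¹) • W.Pb M z) x := fun k => hf2.mul (hPb k)
  have h12 : Diff1 (fun z => ((n - m) * (W.G M z)⁻¹) • W.RG M z
    + (m / 32 * (W.G M z)⁻¹) • W.Pb M z) x := fun k => (h1 k).add (h2 k)
  have h3 : Diff1 (fun z => δ₁ • W.Ps M z) x := fun k => (hPs k).const_mul _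
  have e : W.W1 M m δ₁ = fun z => (((n - m) * (W.G M z)⁻¹) • W.RG M z
    + (m / 32 * (W.G M z)⁻¹) • W.Pb M z) + δ₁ • W.Ps M z := rfl
  rw [e, M.Dv_add hxΩ h12 h3, M.Dv_add hxΩ h1 h2, M.Dv_smul hxΩ hf1 hRG, M.Dv_smul hxΩ hf2 hPb,
    M.Dv_const_smul _ hxΩ hPs, Dv_RG hbio hxΩ, Dv_Pb hbio hxΩ, Dv_Ps hbio hx, dd_const_mul _ hGi,
    dd_const_mul _ hGi, dd_inv' hG hx.2.1.ne', dd_G hxΩ]
  simp only [M.ip_smul_left, M.ip_add_left, M.ip_comm hxΩ (W.Pb M x) (W.RG M x)]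
  have := hx.2.1.ne'
  field_simp
  ring

lemma abs_kap_le {R : ℝ} (h : W.Good M R) {x : E n} (hx : x ∈ W.CR M R) (i : Fin j) :
    |W.kap M i x| ≤ 7 * W.yt M i x := by
  have h1 := h.yt_ge x hx i
  have h2 := h.d_pos
  have h3 := h.δ_pos
  have h4 := h.δ_le
  unfold kap
  rw [abs_le]
  constructor <;> nlinarith

lemma step1_pointwise (hn : 3 ≤ n) (hj : 1 ≤ j) {R : ℝ} (hR : 0 < R) (h : W.Good M R) {x : E n}
    (hx : x ∈ W.CR M R) {m δ₁ : ℝ} (hm : m = ((n : ℝ) - 2) / 2)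
    (hδ₁ : δ₁ = 1 / (6 * (n : ℝ) ^ 2 * j)) :
    W.tt M R x ^ 2 * (M.Dv (W.W1 M m δ₁) x
        - m / W.G M x * M.ip x (dd (W.G M) x) (W.W1 M m δ₁ x))
      + n * W.tt M R x * (M.ip x (dd (W.tt M R) x) (W.W1 M m δ₁ x) - M.Dv (dd (W.tt M R)) x
        + m / W.G M x * M.ip x (dd (W.G M) x) (dd (W.tt M R) x))
      - n * (n - 1) * M.ip x (dd (W.tt M R) x) (dd (W.tt M R) x)
      ≤ -(δ₁ / 2 * (W.tt M R x ^ 2 * W.En M x))
        + (n * (2 * n + 7 * j) + n * ((n + 1) * (7 * j)) + n * (7 * j) + n ^ 2 * 7) / W.G M x := by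
  have hxU := h.CR_sub_UU hj hx
  have hxΩ := hx.1
  have hG := hxU.2.1
  have hB := hxU.2.2.1
  have hΛ := h.Lm_pos x hx
  have hN : (3 : ℝ) ≤ n := by exact_mod_cast hn
  have hj' : (1 : ℝ) ≤ j := by exact_mod_cast hj
  have hden : (1 : ℝ) ≤ 6 * (n : ℝ) ^ 2 * j := by nlinarith
  have hδ0 : 0 ≤ δ₁ := by rw [hδ₁]; positivity
  have hδ1 : δ₁ ≤ 1 := by rw [hδ₁, div_le_one (by linarith)]; exact hden
  have hδ2 : δ₁ * (6 * (n : ℝ) ^ 2 * j) ≤ 1 := by rw [hδ₁]; field_simp; rfl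
  have hs0 : 0 ≤ W.s M x := Finset.sum_nonneg fun i _ => (hxU.2.2.2 i).le
  have ht0 : 0 ≤ W.tt M R x := by
    have : W.s M x / R ≤ 1 := by rw [div_le_one hR]; exact hx.2
    unfold tt; linarith
  have ht1 : W.tt M R x ≤ 1 := by
    have : 0 ≤ W.s M x / R := by positivity
    unfold tt; linarith
  set K : ℝ := (1 + W.δ / 32) * (W.B0 M x - 2 * W.d * W.Sn M x) - W.B0 M x / 32 with hK
  have hKs : K = ∑ i, W.nui M i x * W.kap M i x := by
    simp only [hK, B0, Sn, kap, Finset.mul_sum, Finset.sum_div, ← Finset.sum_sub_distrib]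
    exact Finset.sum_congr rfl fun i _ => by ring
  have hq : |K / (32 * W.G M x)| ≤ 7 * j := by
    rw [abs_div, abs_of_pos (by positivity : 0 < 32 * W.G M x), div_le_iff₀ (by positivity), hKs]
    refine (Finset.abs_sum_le_sum_abs _ _).trans ?_
    have h1 : ∀ i, |W.nui M i x * W.kap M i x| ≤ 7 * (32 * W.G M x) := by
      intro i
      have h2 := h.abs_yt_nui_le hj hx i
      rw [abs_mul, abs_of_pos (hxU.2.2.2 i)] at h2
      have h3 := abs_kap_le h hx i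
      have eG : W.G M x = W.Lm M x + 1 / 32 * W.Bt M x := rfl
      rw [abs_mul]
      nlinarith [mul_le_mul_of_nonneg_left h3 (abs_nonneg (W.nui M i x))]
    refine (Finset.sum_le_sum fun i _ => h1 i).trans (le_of_eq ?_)
    simp only [Finset.sum_const, Finset.card_univ, Fintype.card_fin, nsmul_eq_mul]; ring
  have hks : |∑ i, W.kap M i x / W.yt M i x| ≤ 7 * j := by
    refine (Finset.abs_sum_le_sum_abs _ _).trans ?_
    have h1 : ∀ i, |W.kap M i x / W.yt M i x| ≤ 7 := by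
      intro i
      rw [abs_div, abs_of_pos (hxU.2.2.2 i), div_le_iff₀ (hxU.2.2.2 i)]
      exact abs_kap_le h hx i
    refine (Finset.sum_le_sum fun i _ => h1 i).trans (le_of_eq ?_)
    simp only [Finset.sum_const, Finset.card_univ, Fintype.card_fin, nsmul_eq_mul]; ring
  have hkR : |(∑ i, W.kap M i x) / R| ≤ 7 := by
    rw [abs_div, abs_of_pos hR, div_le_iff₀ hR]
    refine (Finset.abs_sum_le_sum_abs _ _).trans ?_
    refine (Finset.sum_le_sum fun i _ => abs_kap_le h hx i).trans ?_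
    rw [← Finset.mul_sum]
    have : W.s M x ≤ R := hx.2
    unfold s at this; linarith
  have hc := step1_coef n j m W.δ δ₁ _ _ _ _ hN hj' hm h.δ_pos (by linarith [h.δ_le]) hδ0 hδ1 ht0
    ht1 hq hks hkR
  have hc' := div_le_div_of_nonneg_right hc hG.le
  have e1 : M.ip x (dd (W.G M) x) (W.W1 M m δ₁ x)
      = (n - m) / W.G M x * (M.ip x (W.RG M x) (W.RG M x) + M.ip x (W.RG M x) (W.Pb M x) / 32)
        + m / 32 / W.G M x * (M.ip x (W.RG M x) (W.Pb M x) + M.ip x (W.Pb M x) (W.Pb M x) / 32)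
        + δ₁ * (M.ip x (W.RG M x) (W.Ps M x) + M.ip x (W.Pb M x) (W.Ps M x) / 32) := by
    rw [dd_G hxΩ]
    simp only [W1, M.ip_smul_left, M.ip_smul_right, M.ip_add_left, M.ip_add_right,
      M.ip_comm hxΩ (W.Pb M x) (W.RG M x)]
    ring
  have e2 : M.ip x (dd (W.tt M R) x) (W.W1 M m δ₁ x)
      = (n - m) / W.G M x * M.ip x (W.RG M x) (dd (W.tt M R) x)
        + m / 32 / W.G M x * M.ip x (W.Pb M x) (dd (W.tt M R) x)
        + δ₁ * M.ip x (dd (W.tt M R) x) (W.Ps M x) := by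
    simp only [W1, M.ip_smul_right, M.ip_add_right, M.ip_comm hxΩ (dd (W.tt M R) x) (W.RG M x),
      M.ip_comm hxΩ (dd (W.tt M R) x) (W.Pb M x)]
    ring
  have e3 : M.ip x (dd (W.G M) x) (dd (W.tt M R) x)
      = M.ip x (W.RG M x) (dd (W.tt M R) x) + M.ip x (W.Pb M x) (dd (W.tt M R) x) / 32 := by
    rw [dd_G hxΩ]
    simp only [M.ip_smul_left, M.ip_add_left]
    ring
  rw [Dv_W1 h.bio m δ₁ hxU, e1, e2, e3, Dv_dd_tt h.bio R hxU,
    step1_alg n j m W.δ δ₁ _ _ _ K _ _ _ _ _ _ _ _ _ _ _ _ hG (ip_RG_Pb h.bio hxΩ)]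
  refine add_le_add ?_ hc'
  obtain ⟨f, hf⟩ := M.exists_frame hxΩ
  set G := W.G M x
  set t := W.tt M R x
  have hEn : t ^ 2 * W.En M x = ∑ k, ∑ i, (t * (f k (dd (W.yt M i) x) / W.yt M i x))
      * (t * (f k (dd (W.yt M i) x) / W.yt M i x)) := by
    rw [Finset.sum_comm]
    simp only [En, hf, Finset.sum_div, Finset.mul_sum]
    refine Finset.sum_congr rfl fun i _ => Finset.sum_congr rfl fun k _ => ?_
    have := (hxU.2.2.2 i).ne'
    field_simp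
  have hPs : ∀ k, t * f k (W.Ps M x) = ∑ i, t * (f k (dd (W.yt M i) x) / W.yt M i x) := by
    intro k
    simp only [Ps, map_sum, map_smul, smul_eq_mul, Finset.mul_sum]
    exact Finset.sum_congr rfl fun i _ => by ring
  have key := Finset.sum_le_sum (s := Finset.univ) fun k _ =>
    step1_scalar n m δ₁ (t * f k (W.RG M x) / G) (t * f k (W.Pb M x) / (32 * G))
      (f k (dd (W.tt M R) x)) (fun i => t * (f k (dd (W.yt M i) x) / W.yt M i x)) hN hm hδ0 hδ2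
  simp only [← hPs] at key
  rw [hEn]
  refine le_of_eq_of_le ?_ (le_of_le_of_eq key ?_)
  · simp only [hf, Finset.mul_sum, Finset.sum_div, ← Finset.sum_neg_distrib,
      ← Finset.sum_sub_distrib, ← Finset.sum_add_distrib]
    refine Finset.sum_congr rfl fun k _ => ?_
    simp only [Finset.sum_neg_distrib]
    have := hG.ne'
    field_simp
  · simp only [Finset.sum_neg_distrib, ← Finset.mul_sum]

end WD

theorem step1 (n j : ℕ) (hn : 3 ≤ n) (hj : 1 ≤ j) : ∃ C : ℝ, 0 < C ∧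
    ∀ (M : AM n) (W : WD n j) (R : ℝ), 0 < R → W.Good M R →
      M.mass (fun x => (max (1 - W.s M x / R) 0) ^ n * W.G M x ^ (-((n : ℝ) - 2) / 2) * W.En M x)
          (W.CR M R)
        ≤ ENNReal.ofReal C * M.mass (fun x => W.G M x ^ (-(n : ℝ) / 2)) (W.CR M R) := by
  obtain ⟨k, rfl⟩ : ∃ k, n = k + 3 := ⟨n - 3, by omega⟩
  set N : ℝ := ((k + 3 : ℕ) : ℝ) with hN
  have hN3 : (3 : ℝ) ≤ N := by rw [hN]; exact_mod_cast hn
  have hj' : (1 : ℝ) ≤ j := by exact_mod_cast hj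
  set δ₁ : ℝ := 1 / (6 * N ^ 2 * j) with hδ₁
  have hδ0 : 0 < δ₁ := by rw [hδ₁]; positivity
  set C₁ : ℝ := N * (2 * N + 7 * j) + N * ((N + 1) * (7 * j)) + N * (7 * j) + N ^ 2 * 7 with hC₁
  have hC0 : 0 < C₁ := by rw [hC₁]; positivity
  refine ⟨C₁ / (δ₁ / 2), by positivity, fun M W R hR h => ?_⟩
  set m : ℝ := (N - 2) / 2 with hm
  have hCU := h.CR_sub_UU hj
  have hUo : IsOpen (W.UU M) := WD.isOpen_UU
  have htt : ContDiffOn ℝ 1 (W.tt M R) (W.UU M) := ((WD.cd_tt R).mono WD.UU_sub).of_le (by simp)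
  have hφ1 : ContDiffOn ℝ 1 (fun z => (max (W.tt M R z) 0) ^ (k + 1 + 2)) (W.UU M) :=
    (contDiff_posPart_pow (k + 1)).comp_contDiffOn htt
  have hφ2 : ContDiffOn ℝ 1 (fun z => N * (max (W.tt M R z) 0) ^ (k + 2)) (W.UU M) :=
    contDiffOn_const.mul ((contDiff_posPart_pow k).comp_contDiffOn htt)
  have hGm : ContDiffOn ℝ 1 (fun z => W.G M z ^ (-m)) (W.UU M) :=
    (WD.cd_G_rpow (-m)).of_le (by simp)
  have hdt : ∀ i, ContDiffOn ℝ ∞ (fun z => dd (W.tt M R) z i) (W.UU M) := fun i =>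
    (contDiffOn_dd M.isOpen (WD.cd_tt R) i).mono WD.UU_sub
  have key := M.mass_le_of_Dv hUo WD.UU_sub h.compact hCU MeasurableSet.univ
    (fun z => (W.G M z ^ (-m)) • ((max (W.tt M R z) 0) ^ (k + 1 + 2) • W.W1 M m δ₁ z
      - (N * (max (W.tt M R z) 0) ^ (k + 2)) • dd (W.tt M R) z))
    (fun i => hGm.mul ((hφ1.mul ((WD.cd_W1 m δ₁ i).of_le (by simp))).sub
      (hφ2.mul ((hdt i).of_le (by simp)))))
    (f := fun x => (max (1 - W.s M x / R) 0) ^ (k + 3) * W.G M x ^ (-(N - 2) / 2) * W.En M x)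
    (g := fun x => W.G M x ^ (-N / 2)) (a := δ₁ / 2) (b := C₁)
    ?_ ?_ ?_ ?_ ?_ (by positivity) hC0.le ?_
  · rwa [Set.inter_univ] at key
  · intro x hxU hxC
    have hs : R < W.s M x := by
      by_contra hc
      exact hxC ⟨hxU.1, not_lt.1 hc⟩
    have : W.tt M R x < 0 := by
      have : 1 < W.s M x / R := by rw [lt_div_iff₀ hR]; linarith
      unfold WD.tt; linarith
    simp [max_eq_right this.le]
  · exact ((hφ1.continuousOn.mono hCU).mul ((WD.cd_G_rpow _).continuousOn.mono hCU)).mul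
      (WD.continuousOn_En.mono hCU)
  · exact (WD.cd_G_rpow _).continuousOn.mono hCU
  · intro x hx
    exact mul_nonneg (mul_nonneg (pow_nonneg (le_max_right _ _) _)
      (Real.rpow_nonneg (hCU hx).2.1.le _)) (WD.En_nonneg hx.1)
  · intro x hx
    exact Real.rpow_nonneg (hCU hx).2.1.le _
  · intro x hx
    have hxU := hCU hx
    have hG := hxU.2.1
    have ht0 : 0 ≤ W.tt M R x := by
      have : W.s M x / R ≤ 1 := by rw [div_le_one hR]; exact hx.2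
      unfold WD.tt; linarith
    have ht1 : W.tt M R x ≤ 1 := by
      have hs0 : 0 ≤ W.s M x := Finset.sum_nonneg fun i _ => (hxU.2.2.2 i).le
      have : 0 ≤ W.s M x / R := by positivity
      unfold WD.tt; linarith
    have hc0 : DifferentiableAt ℝ (W.tt M R) x := diffAt_of_contDiffOn M.isOpen (WD.cd_tt R) hx.1
    have hGd : DifferentiableAt ℝ (W.G M) x := diffAt_of_contDiffOn M.isOpen (W.cd_G M) hx.1
    have hd1 := hasDerivAt_posPart_pow (k + 1) (W.tt M R x)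
    have hd1' := hasDerivAt_posPart_pow k (W.tt M R x)
    have hd2 : HasDerivAt (fun t : ℝ => t ^ (-m)) (-m * W.G M x ^ (-m - 1)) (W.G M x) :=
      Real.hasDerivAt_rpow_const (Or.inl hG.ne')
    have hA : DifferentiableAt ℝ (fun z => (max (W.tt M R z) 0) ^ (k + 1 + 2)) x :=
      hd1.differentiableAt.comp x hc0
    have hA0 : DifferentiableAt ℝ (fun z => (max (W.tt M R z) 0) ^ (k + 2)) x :=
      hd1'.differentiableAt.comp x hc0
    have hA' : DifferentiableAt ℝ (fun z => N * (max (W.tt M R z) 0) ^ (k + 2)) x :=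
      hA0.const_mul _
    have hB : DifferentiableAt ℝ (fun z => W.G M z ^ (-m)) x := hd2.differentiableAt.comp x hGd
    have hW1 : Diff1 (W.W1 M m δ₁) x := diff1_of_contDiffOn hUo (WD.cd_W1 m δ₁) hxU
    have hdt' : Diff1 (dd (W.tt M R)) x := diff1_of_contDiffOn hUo hdt hxU
    have h1 : Diff1 (fun z => (max (W.tt M R z) 0) ^ (k + 1 + 2) • W.W1 M m δ₁ z) x :=
      fun i => hA.mul (hW1 i)
    have h2 : Diff1 (fun z => (N * (max (W.tt M R z) 0) ^ (k + 2)) • dd (W.tt M R) z) x :=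
      fun i => hA'.mul (hdt' i)
    have h12 : Diff1 (fun z => (max (W.tt M R z) 0) ^ (k + 1 + 2) • W.W1 M m δ₁ z
      - (N * (max (W.tt M R z) 0) ^ (k + 2)) • dd (W.tt M R) z) x := fun i => (h1 i).sub (h2 i)
    rw [M.Dv_smul hx.1 hB h12, M.Dv_sub hx.1 h1 h2, M.Dv_smul hx.1 hA hW1,
      M.Dv_smul hx.1 hA' hdt', dd_const_mul _ hA0,
      dd_comp (F := fun r : ℝ => (max r 0) ^ (k + 1 + 2)) hc0 hd1,
      dd_comp (F := fun r : ℝ => (max r 0) ^ (k + 2)) hc0 hd1',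
      dd_comp (F := fun t : ℝ => t ^ (-m)) hGd hd2]
    simp only [M.ip_sub_right, M.ip_smul_left, M.ip_smul_right, Set.indicator_univ]
    have e1 : W.G M x ^ (-m - 1) = W.G M x ^ (-m) / W.G M x := Real.rpow_sub_one hG.ne' _
    have e2 : W.G M x ^ (-N / 2) = W.G M x ^ (-m) / W.G M x := by
      rw [← e1]; congr 1; rw [hm]; ring
    have e3 : W.G M x ^ (-(N - 2) / 2) = W.G M x ^ (-m) := by
      congr 1; rw [hm]; ring
    have hP : 0 < W.G M x ^ (-m) := Real.rpow_pos_of_pos hG _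
    have hk := WD.step1_pointwise hn hj hR h hx hm hδ₁
    have hT0 : 0 ≤ W.tt M R x ^ (k + 1) := pow_nonneg ht0 _
    have hT1 : W.tt M R x ^ (k + 1) ≤ 1 := pow_le_one₀ ht0 ht1
    have hk' := mul_le_mul_of_nonneg_left hk (mul_nonneg hP.le hT0)
    have ec : (1 - W.s M x / R) = W.tt M R x := rfl
    rw [ec, max_eq_left ht0, e1, e2, e3]
    have h5 : W.G M x ^ (-m) * W.tt M R x ^ (k + 1) * (C₁ / W.G M x)
        ≤ C₁ * (W.G M x ^ (-m) / W.G M x) := by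
      have : 0 ≤ C₁ * (W.G M x ^ (-m) / W.G M x) := by positivity
      calc _ = W.tt M R x ^ (k + 1) * (C₁ * (W.G M x ^ (-m) / W.G M x)) := by ring
        _ ≤ 1 * _ := mul_le_mul_of_nonneg_right hT1 this
        _ = _ := one_mul _
    rw [← hN, ← hC₁, mul_add (W.G M x ^ (-m) * W.tt M R x ^ (k + 1))
      (-(δ₁ / 2 * (W.tt M R x ^ 2 * W.En M x)))] at hk'
    refine le_of_eq_of_le ?_ (hk'.trans (add_le_add (le_of_eq ?_) h5))
    · have hNk : N = k + 3 := by rw [hN]; push_cast; ring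
      rw [hNk]; push_cast; ring
    · ring

end Crest.Agent.R236
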