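import Mathlib

set_option autoImplicit false

namespace Crest.Agent.R236

/-- the quadratic form of the key identity is negative definite for `3 ≤ n ≤ 9` -/
lemma quad_scalar (n : ℕ) (hn : 3 ≤ n) (hn' : n ≤ 9) (m l t x y z : ℝ)
    (hm : m = ((n : ℝ) - 2) / 2) (hl : l = 15 * ((n : ℝ) - 2) / (16 * n)) (ht0 : 0 ≤ t)
    (ht1 : t ≤ 1) :
    -(l * (1 + m)) * (x * x) - y * y - (1 + m * t) * (z * z) - m * (x * y)
      + (m + 1 / 20 - l * t - l * m * t) * (x * z)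
      + (n - (2 * m + 1 / 20 - l * t) - m * t) * (y * z)
      ≤ -(1 / 100) * (x * x + y * y + z * z) := by
  have ht1' : 0 ≤ 1 - t := by linarith
  subst hm hl
  interval_cases n
  · norm_num
    nlinarith [mul_nonneg ht1' (sq_nonneg (x + (200 / 367 : ℝ) * y + (-220 / 367 : ℝ) * z)),
      mul_nonneg ht1' (sq_nonneg (y + (-60565 / 62666 : ℝ) * z)),
      mul_nonneg ht1' (sq_nonneg z),
      mul_nonneg ht0 (sq_nonneg (x + (200 / 367 : ℝ) * y + (-65 / 734 : ℝ) * z)),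
      mul_nonneg ht0 (sq_nonneg (y + (-252235 / 250664 : ℝ) * z)),
      mul_nonneg ht0 (sq_nonneg z)]
  · norm_num
    nlinarith [mul_nonneg ht1' (sq_nonneg (x + (200 / 371 : ℝ) * y + (-30 / 53 : ℝ) * z)),
      mul_nonneg ht1' (sq_nonneg (y + (-51345 / 53458 : ℝ) * z)),
      mul_nonneg ht1' (sq_nonneg z),
      mul_nonneg ht0 (sq_nonneg (x + (200 / 371 : ℝ) * y + (-45 / 742 : ℝ) * z)),
      mul_nonneg ht0 (sq_nonneg (y + (-403085 / 427664 : ℝ) * z)),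
      mul_nonneg ht0 (sq_nonneg z)]
  · norm_num
    nlinarith [mul_nonneg ht1' (sq_nonneg (x + (600 / 1117 : ℝ) * y + (-620 / 1117 : ℝ) * z)),
      mul_nonneg ht1' (sq_nonneg (y + (-41605 / 43722 : ℝ) * z)),
      mul_nonneg ht1' (sq_nonneg z),
      mul_nonneg ht0 (sq_nonneg (x + (600 / 1117 : ℝ) * y + (-115 / 2234 : ℝ) * z)),
      mul_nonneg ht0 (sq_nonneg (y + (-139295 / 174888 : ℝ) * z)),
      mul_nonneg ht0 (sq_nonneg z)]
  · norm_num
    nlinarith [mul_nonneg ht1' (sq_nonneg (x + (200 / 373 : ℝ) * y + (-205 / 373 : ℝ) * z)),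
      mul_nonneg ht1' (sq_nonneg (y + (-31735 / 33854 : ℝ) * z)),
      mul_nonneg ht1' (sq_nonneg z),
      mul_nonneg ht0 (sq_nonneg (x + (200 / 373 : ℝ) * y + (-35 / 746 : ℝ) * z)),
      mul_nonneg ht0 (sq_nonneg (y + (-35895 / 67708 : ℝ) * z)),
      mul_nonneg ht0 (sq_nonneg z)]
  · norm_num
    nlinarith [mul_nonneg ht1' (sq_nonneg (x + (1000 / 1867 : ℝ) * y + (-1020 / 1867 : ℝ) * z)),
      mul_nonneg ht1' (sq_nonneg (y + (-109065 / 119666 : ℝ) * z)),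
      mul_nonneg ht1' (sq_nonneg z),
      mul_nonneg ht0 (sq_nonneg (x + (1000 / 1867 : ℝ) * y + (-165 / 3734 : ℝ) * z)),
      mul_nonneg ht0 (sq_nonneg (y + (-47945 / 3350648 : ℝ) * z)),
      mul_nonneg ht0 (sq_nonneg z)]
  · norm_num
    nlinarith [mul_nonneg ht1' (sq_nonneg (x + (600 / 1121 : ℝ) * y + (-610 / 1121 : ℝ) * z)),
      mul_nonneg ht1' (sq_nonneg (y + (-565 / 666 : ℝ) * z)),
      mul_nonneg ht1' (sq_nonneg z),
      mul_nonneg ht0 (sq_nonneg (x + (600 / 1121 : ℝ) * y + (-5 / 118 : ℝ) * z)),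
      mul_nonneg ht0 (sq_nonneg (y + (283385 / 223776 : ℝ) * z)),
      mul_nonneg ht0 (sq_nonneg z)]
  · norm_num
    nlinarith [mul_nonneg ht1' (sq_nonneg (x + (1400 / 2617 : ℝ) * y + (-1420 / 2617 : ℝ) * z)),
      mul_nonneg ht1' (sq_nonneg (y + (-13315 / 28166 : ℝ) * z)),
      mul_nonneg ht1' (sq_nonneg z),
      mul_nonneg ht0 (sq_nonneg (x + (1400 / 2617 : ℝ) * y + (-215 / 5234 : ℝ) * z)),
      mul_nonneg ht0 (sq_nonneg (y + (3029245 / 337992 : ℝ) * z)),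
      mul_nonneg ht0 (sq_nonneg z)]

end Crest.Agent.R236
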