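import Crest.Agent.R236.StepAux
import Crest.Agent.R236.Quad

/-!
# Row 236, Step II: the key identity (this is where `n ≤ 9` is used)
-/

set_option autoImplicit false
open scoped ContDiff RealInnerProductSpace ENNReal Topology
open Crest.GeometryTopology.CoordMetric Crest.GeometryTopology.AffineMaximal MeasureTheory

noncomputable section

namespace Crest.Agent.R236

/-- the logarithmic cutoff -/
def WD.chi {n j : ℕ} (W : WD n j) (M : AM n) (L : ℝ) (x : E n) : ℝ :=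
  max (1 - (∑ i, Real.log (W.yt M i x) ^ 2) / L ^ 2) 0

lemma key_alg (n j m l δ d G B Λ B0 S Ξ A Bq Cq D1 D2 D3 : ℝ) (hG : 0 < G) (hB : 0 < B)
    (hm : m = (n - 2) / 2) (eG : G = Λ + 1 / 32 * B) (eB : B = B0 + δ * Λ)
    (e3 : D3 = B * Ξ - B0 + δ * (B0 - 2 * d * S))
    (e2 : D2 = G * Ξ + ((1 + δ / 32) * (B0 - 2 * d * S) - B0 / 32)) :
    l * ((n + (Ξ - j + δ * n) / 32) / G - (A + D2 / 32) / G ^ 2)
      + (((Ξ - j + δ * n) + ((n + 1) * Ξ - j)) / B - (Bq + 2 * D3 + Cq) / B ^ 2)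
      - m / G * (l * (A + D2 / 32) / G + (D1 + D2 + D3 / 32 + Cq / 32) / B)
    = (-(l * (1 + m)) * (A / G ^ 2) - Bq / B ^ 2 - (1 + m * (B / (32 * G))) * (Cq / B ^ 2)
        - m * (D1 / (G * B))
        + (m + 1 / 20 - l * (B / (32 * G)) - l * m * (B / (32 * G))) * (D2 / (G * B))
        + (n - (2 * m + 1 / 20 - l * (B / (32 * G))) - m * (B / (32 * G))) * (D3 / B ^ 2))
      + (l * n - (2 * m + 1 / 20) * (1 - 2 * d * S / B)
          + (1 / 32) * ((B0 - δ * B0 + 2 * d * δ * S - δ * B) / B) * (2 * m + 1 / 20 + l)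
          - l / 32 * (j - (n + 1) * δ)) / G
      + ((4 - 1 / 20) * ((B0 - δ * B0 + 2 * d * δ * S - δ * B) / B)
          - 2 * (j - (n + 1) * δ)) / B := by
  have hΛ : Λ = G - B / 32 := by linarith
  have hB0 : B0 = B - δ * (G - B / 32) := by rw [← hΛ]; linarith
  subst e3 e2 hm
  rw [hB0]
  field_simp
  ring

lemma coef_bound (n : ℕ) (hn : 3 ≤ n) (hn' : n ≤ 9) (j m l δ e c1 : ℝ) (hj : 2 ≤ j)
    (hm : m = ((n : ℝ) - 2) / 2) (hl : l = 15 * ((n : ℝ) - 2) / (16 * n)) (hδ : 0 < δ)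
    (hδ' : δ ≤ 1 / 500) (he : e ≤ 1 / 100) (hc : c1 ≤ 1) :
    l * n - (2 * m + 1 / 20) * (1 - e) + (1 / 32) * c1 * (2 * m + 1 / 20 + l)
          - l / 32 * (j - (n + 1) * δ) ≤ -(1 / 20) ∧
      (4 - 1 / 20) * c1 - 2 * (j - (n + 1) * δ) ≤ 0 := by
  subst hm hl
  interval_cases n <;> norm_num <;> constructor <;> nlinarith

lemma absorb_scalar (q a b c w χ l : ℝ) (hl0 : 0 ≤ l) (hl1 : l ≤ 1)
    (hs : q ≤ -(1 / 100) * (a * a + b * b + c * c)) :
    χ ^ 2 * q + 2 * χ * (w * (l * a + b + c)) ≤ 300 * (w * w) := by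
  have h1 := mul_le_mul_of_nonneg_left hs (sq_nonneg χ)
  have h2 : (l * a) ^ 2 ≤ a * a := by
    have : l ^ 2 ≤ 1 := by nlinarith
    nlinarith [mul_self_nonneg a]
  have h3 := mul_le_mul_of_nonneg_left h2 (sq_nonneg χ)
  nlinarith [sq_nonneg (χ * (l * a) - 100 * w), sq_nonneg (χ * b - 100 * w),
    sq_nonneg (χ * c - 100 * w)]

namespace WD

variable {n j : ℕ} (W : WD n j) (M : AM n)

def W0 (l : ℝ) : Form n := fun x =>
  (l * (W.G M x)⁻¹) • W.RG M x + (W.Bt M x)⁻¹ • (W.Rb M x + W.Pb M x)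

def chi0 (L : ℝ) (x : E n) : ℝ := 1 - (∑ i, Real.log (W.yt M i x) ^ 2) / L ^ 2

variable {W M}

lemma cd_W0 (l : ℝ) (k : Fin n) : ContDiffOn ℝ ∞ (fun z => W.W0 M l z k) (W.UU M) := by
  simp only [W0, Pi.add_apply, Pi.smul_apply, smul_eq_mul]
  refine ContDiffOn.add (ContDiffOn.mul (contDiffOn_const.mul
    (((W.cd_G M).mono UU_sub).inv fun x hx => hx.2.1.ne')) ((W.cd_RG M k).mono UU_sub))
    (ContDiffOn.mul (((W.cd_Bt M).mono UU_sub).inv fun x hx => hx.2.2.1.ne')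
      (((W.cd_Rb M k).mono UU_sub).add ((W.cd_Pb M k).mono UU_sub)))

lemma cd_chi0 (L : ℝ) : ContDiffOn ℝ ∞ (W.chi0 M L) (W.UU M) := by
  unfold chi0
  refine contDiffOn_const.sub (ContDiffOn.div_const (ContDiffOn.sum fun i _ => ?_) _)
  exact (((W.cd_yt M i).mono UU_sub).log fun x hx => (hx.2.2.2 i).ne').pow 2

lemma dd_inv {f : E n → ℝ} {x : E n} (hf : DifferentiableAt ℝ f x) (h0 : f x ≠ 0) :
    dd (fun z => (f z)⁻¹) x = (-(f x ^ 2)⁻¹) • dd f x :=
  dd_comp hf (hasDerivAt_inv h0)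

lemma Dv_W0 (hbio : ∀ i l, W.y i (W.e l) = if i = l then 1 else 0) (l : ℝ) {x : E n}
    (hx : x ∈ W.UU M) :
    M.Dv (W.W0 M l) x
      = l * ((n + (W.Xi M x - j + W.δ * n) / 32) / W.G M x
          - (M.ip x (W.RG M x) (W.RG M x) + M.ip x (W.RG M x) (W.Pb M x) / 32) / W.G M x ^ 2)
        + (((W.Xi M x - j + W.δ * n) + ((n + 1) * W.Xi M x - j)) / W.Bt M x
          - (M.ip x (W.Rb M x) (W.Rb M x) + 2 * M.ip x (W.Rb M x) (W.Pb M x)
              + M.ip x (W.Pb M x) (W.Pb M x)) / W.Bt M x ^ 2) := by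
  have hxΩ := hx.1
  have hG := diffAt_of_contDiffOn M.isOpen (W.cd_G M) hxΩ
  have hB := diffAt_of_contDiffOn M.isOpen (W.cd_Bt M) hxΩ
  have hRG : Diff1 (W.RG M) x := diff1_of_contDiffOn M.isOpen (W.cd_RG M) hxΩ
  have hRb : Diff1 (W.Rb M) x := diff1_of_contDiffOn M.isOpen (W.cd_Rb M) hxΩ
  have hPb : Diff1 (W.Pb M) x := diff1_of_contDiffOn M.isOpen (W.cd_Pb M) hxΩ
  have hRP : Diff1 (fun z => W.Rb M z + W.Pb M z) x := fun k => (hRb k).add (hPb k)
  have hGi : DifferentiableAt ℝ (fun z => (W.G M z)⁻¹) x := hG.inv hx.2.1.ne'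
  have hf1 : DifferentiableAt ℝ (fun z => l * (W.G M z)⁻¹) x := hGi.const_mul l
  have hf2 : DifferentiableAt ℝ (fun z => (W.Bt M z)⁻¹) x := hB.inv hx.2.2.1.ne'
  have h1 : Diff1 (fun z => (l * (W.G M z)⁻¹) • W.RG M z) x := fun k => hf1.mul (hRG k)
  have h2 : Diff1 (fun z => (W.Bt M z)⁻¹ • (W.Rb M z + W.Pb M z)) x := fun k => hf2.mul (hRP k)
  have e : W.W0 M l = fun z => (l * (W.G M z)⁻¹) • W.RG M z
    + (W.Bt M z)⁻¹ • (W.Rb M z + W.Pb M z) := rfl
  rw [e, M.Dv_add hxΩ h1 h2, M.Dv_smul hxΩ hf1 hRG, M.Dv_smul hxΩ hf2 hRP,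
    M.Dv_add hxΩ hRb hPb, Dv_RG hbio hxΩ, Dv_Rb hbio hxΩ, Dv_Pb hbio hxΩ, dd_const_mul _ hGi,
    dd_inv hG hx.2.1.ne', dd_inv hB hx.2.2.1.ne', dd_G hxΩ, dd_Bt hxΩ]
  simp only [M.ip_smul_left, M.ip_add_left, M.ip_add_right, M.ip_comm hxΩ (W.Pb M x) (W.RG M x),
    M.ip_comm hxΩ (W.Pb M x) (W.Rb M x)]
  have := hx.2.1.ne'
  have := hx.2.2.1.ne'
  field_simp
  ring

lemma ip_dG_W0 (l : ℝ) {x : E n} (hx : x ∈ W.UU M) :
    M.ip x (dd (W.G M) x) (W.W0 M l x)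
      = l * (M.ip x (W.RG M x) (W.RG M x) + M.ip x (W.RG M x) (W.Pb M x) / 32) / W.G M x
        + (M.ip x (W.RG M x) (W.Rb M x) + M.ip x (W.RG M x) (W.Pb M x)
          + M.ip x (W.Rb M x) (W.Pb M x) / 32 + M.ip x (W.Pb M x) (W.Pb M x) / 32) / W.Bt M x := by
  have hxΩ := hx.1
  rw [dd_G hxΩ]
  simp only [W0, M.ip_smul_left, M.ip_smul_right, M.ip_add_left, M.ip_add_right,
    M.ip_comm hxΩ (W.Pb M x) (W.RG M x), M.ip_comm hxΩ (W.Pb M x) (W.Rb M x)]
  have := hx.2.1.ne'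
  have := hx.2.2.1.ne'
  field_simp
  ring

lemma dd_chi0 (L : ℝ) {x : E n} (hx : x ∈ W.UU M) :
    dd (W.chi0 M L) x
      = ∑ i, (-(2 * Real.log (W.yt M i x) / W.yt M i x) / L ^ 2) • dd (W.yt M i) x := by
  have hy := fun i => diffAt_of_contDiffOn M.isOpen (W.cd_yt M i) hx.1
  have hd : ∀ i, HasDerivAt (fun t => -(Real.log t ^ 2 / L ^ 2))
      (-(2 * Real.log (W.yt M i x) / W.yt M i x) / L ^ 2) (W.yt M i x) := by
    intro i
    have := (((Real.hasDerivAt_log (hx.2.2.2 i).ne').pow 2).div_const (L ^ 2)).neg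
    refine this.congr_deriv ?_
    simp only [Nat.cast_ofNat, Nat.add_one_sub_one, pow_one]
    ring
  have e : W.chi0 M L = fun z => 1 + ∑ i, -(Real.log (W.yt M i z) ^ 2 / L ^ 2) := by
    funext z
    simp only [chi0, Finset.sum_neg_distrib, Finset.sum_div]; ring
  have hm : ∀ i, DifferentiableAt ℝ (fun z => -(Real.log (W.yt M i z) ^ 2 / L ^ 2)) x :=
    fun i => (hd i).differentiableAt.comp x (hy i)
  rw [e, dd_add (differentiableAt_const _) (DifferentiableAt.fun_sum fun i _ => hm i), dd_const,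
    zero_add, dd_sum _ (fun i _ => hm i)]
  exact Finset.sum_congr rfl fun i _ => dd_comp (F := fun t => -(Real.log t ^ 2 / L ^ 2))
    (hy i) (hd i)

lemma ip_dd_chi0_le {L : ℝ} (hL : 0 < L) {x : E n} (hx : x ∈ W.UU M) (h0 : 0 ≤ W.chi0 M L x) :
    M.ip x (dd (W.chi0 M L) x) (dd (W.chi0 M L) x) ≤ 4 / L ^ 2 * W.En M x := by
  obtain ⟨f, hf⟩ := M.exists_frame hx.1
  have hs : ∑ i, Real.log (W.yt M i x) ^ 2 ≤ L ^ 2 := by
    have : (∑ i, Real.log (W.yt M i x) ^ 2) / L ^ 2 ≤ 1 := by unfold chi0 at h0; linarith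
    rwa [div_le_one (by positivity)] at this
  rw [dd_chi0 L hx, hf]
  simp only [En, hf, Finset.sum_div]
  rw [Finset.sum_comm, Finset.mul_sum]
  refine Finset.sum_le_sum fun k _ => ?_
  simp only [map_sum, map_smul, smul_eq_mul]
  have hcs := Finset.sum_mul_sq_le_sq_mul_sq Finset.univ (fun i => Real.log (W.yt M i x))
    (fun i => f k (dd (W.yt M i) x) / W.yt M i x)
  have e1 : ∑ i, -(2 * Real.log (W.yt M i x) / W.yt M i x) / L ^ 2 * f k (dd (W.yt M i) x)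
      = -(2 / L ^ 2) * ∑ i, Real.log (W.yt M i x) * (f k (dd (W.yt M i) x) / W.yt M i x) := by
    rw [Finset.mul_sum]; exact Finset.sum_congr rfl fun i _ => by ring
  have e2 : ∑ i, f k (dd (W.yt M i) x) * f k (dd (W.yt M i) x) / W.yt M i x ^ 2
      = ∑ i, (f k (dd (W.yt M i) x) / W.yt M i x) ^ 2 :=
    Finset.sum_congr rfl fun i _ => by rw [div_pow]; ring
  rw [e1, e2]
  have hp : 0 ≤ ∑ i, (f k (dd (W.yt M i) x) / W.yt M i x) ^ 2 :=
    Finset.sum_nonneg fun i _ => sq_nonneg _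
  set T := ∑ i, Real.log (W.yt M i x) * (f k (dd (W.yt M i) x) / W.yt M i x)
  set Q := ∑ i, (f k (dd (W.yt M i) x) / W.yt M i x) ^ 2
  have h3 : T ^ 2 ≤ L ^ 2 * Q := hcs.trans (mul_le_mul_of_nonneg_right hs hp)
  have : -(2 / L ^ 2) * T * (-(2 / L ^ 2) * T) = 4 / L ^ 2 * (T ^ 2 / L ^ 2) := by
    field_simp; ring
  rw [this]
  refine mul_le_mul_of_nonneg_left ?_ (by positivity)
  rw [div_le_iff₀ (by positivity)]; linarith

lemma log_sq_le_of_chi0 {L : ℝ} (hL : 0 < L) {x : E n} (h0 : 0 ≤ W.chi0 M L x) (i : Fin j) :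
    |Real.log (W.yt M i x)| ≤ L := by
  have hs : ∑ i, Real.log (W.yt M i x) ^ 2 ≤ L ^ 2 := by
    have : (∑ i, Real.log (W.yt M i x) ^ 2) / L ^ 2 ≤ 1 := by unfold chi0 at h0; linarith
    rwa [div_le_one (by positivity)] at this
  have h1 : Real.log (W.yt M i x) ^ 2 ≤ L ^ 2 :=
    (Finset.single_le_sum (f := fun i => Real.log (W.yt M i x) ^ 2) (fun i _ => sq_nonneg _)
      (Finset.mem_univ i)).trans hs
  exact abs_le_of_sq_le_sq' h1 hL.le |> abs_le.2

/-- the pointwise inequality on the support of the cutoff -/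
lemma key_pointwise (hn : 3 ≤ n) (hn' : n ≤ 9) (hj : 2 ≤ j) {R L : ℝ} (hL : 0 < L)
    (h : W.Good M R) (hd : 2 * j * W.d * Real.exp L ≤ 1 / 100) {x : E n} (hx : x ∈ W.CR M R)
    (h0 : 0 ≤ W.chi0 M L x) {m l : ℝ} (hm : m = ((n : ℝ) - 2) / 2)
    (hl : l = 15 * ((n : ℝ) - 2) / (16 * n)) :
    W.chi0 M L x ^ 2 * (M.Dv (W.W0 M l) x - m / W.G M x * M.ip x (dd (W.G M) x) (W.W0 M l x))
      + 2 * W.chi0 M L x * M.ip x (dd (W.chi0 M L) x) (W.W0 M l x)
      ≤ -(1 / 20 * (W.chi0 M L x ^ 2 / W.G M x)) + 1200 / L ^ 2 * W.En M x := by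
  have hj1 : 1 ≤ j := by omega
  have hxU := h.CR_sub_UU hj1 hx
  have hxΩ := hx.1
  have hG := hxU.2.1
  have hB := hxU.2.2.1
  have hΛ := h.Lm_pos x hx
  have hδ := h.δ_pos
  have eG : W.G M x = W.Lm M x + 1 / 32 * W.Bt M x := rfl
  have eB : W.Bt M x = W.B0 M x + W.δ * W.Lm M x := rfl
  rw [Dv_W0 h.bio l hxU, ip_dG_W0 l hxU,
    key_alg n j m l W.δ W.d _ _ _ _ (W.Sn M x) _ _ _ _ _ _ _ hG hB hm eG eB (ip_Rb_Pb h.bio hxΩ)
      (ip_RG_Pb h.bio hxΩ)]
  -- bound on `S`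
  have hS : |2 * W.d * W.Sn M x| ≤ W.Bt M x / 100 := by
    have h1 : ∀ i, |W.nui M i x| ≤ Real.exp L * W.Bt M x := by
      intro i
      have hy := hxU.2.2.2 i
      have h2 := h.abs_yt_nui_le hj1 hx i
      rw [abs_mul, abs_of_pos hy] at h2
      have h3 : Real.exp (-L) ≤ W.yt M i x := by
        have := (abs_le.1 (log_sq_le_of_chi0 hL h0 i)).1
        calc Real.exp (-L) ≤ Real.exp (Real.log (W.yt M i x)) := Real.exp_le_exp.2 this
          _ = _ := Real.exp_log hy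
      have h4 : Real.exp (-L) * |W.nui M i x| ≤ W.Bt M x :=
        (mul_le_mul_of_nonneg_right h3 (abs_nonneg _)).trans h2
      have h5 : Real.exp L * Real.exp (-L) = 1 := by rw [← Real.exp_add]; simp
      calc |W.nui M i x| = Real.exp L * (Real.exp (-L) * |W.nui M i x|) := by
            rw [← mul_assoc, h5, one_mul]
        _ ≤ _ := mul_le_mul_of_nonneg_left h4 (Real.exp_pos L).le
    have h2 : |W.Sn M x| ≤ j * (Real.exp L * W.Bt M x) := by
      refine (Finset.abs_sum_le_sum_abs _ _).trans ?_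
      refine (Finset.sum_le_sum fun i _ => h1 i).trans ?_
      simp
    have hd0 := h.d_pos
    rw [abs_mul, abs_of_pos (by positivity : 0 < 2 * W.d)]
    calc 2 * W.d * |W.Sn M x| ≤ 2 * W.d * (j * (Real.exp L * W.Bt M x)) := by gcongr
      _ = (2 * j * W.d * Real.exp L) * W.Bt M x := by ring
      _ ≤ 1 / 100 * W.Bt M x := by gcongr
      _ = _ := by ring
  have he : 2 * W.d * W.Sn M x / W.Bt M x ≤ 1 / 100 := by
    rw [div_le_iff₀ hB]; linarith [(abs_le.1 hS).2]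
  have hc1 : (W.B0 M x - W.δ * W.B0 M x + 2 * W.d * W.δ * W.Sn M x - W.δ * W.Bt M x) / W.Bt M x
      ≤ 1 := by
    rw [div_le_one hB]
    have h1 : W.B0 M x ≤ W.Bt M x := by rw [eB]; nlinarith
    have h2 := (abs_le.1 hS).2
    have h3 := h.δ_le
    nlinarith [mul_le_mul_of_nonneg_left h2 hδ.le,
      mul_le_mul_of_nonneg_left h1 (by linarith : (0 : ℝ) ≤ 1 - W.δ), mul_pos hδ hB]
  obtain ⟨hθ, hβ⟩ := coef_bound n hn hn' j m l W.δ _ _ (by exact_mod_cast hj) hm hl hδ h.δ_le he hc1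
  have hθ' := div_le_div_of_nonneg_right hθ hG.le
  have hβ' := div_nonpos_of_nonpos_of_nonneg hβ hB.le
  -- the quadratic part
  obtain ⟨f, hf⟩ := M.exists_frame hxΩ
  set G := W.G M x with hGdef
  set B := W.Bt M x with hBdef
  set χ := W.chi0 M L x with hχ
  have ht0 : 0 ≤ B / (32 * G) := by positivity
  have ht1 : B / (32 * G) ≤ 1 := by rw [div_le_one (by positivity)]; linarith
  have hl0 : 0 ≤ l := by
    have : (3 : ℝ) ≤ n := by exact_mod_cast hn
    rw [hl]; apply div_nonneg <;> linarith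
  have hl1 : l ≤ 1 := by
    have : (3 : ℝ) ≤ n := by exact_mod_cast hn
    rw [hl, div_le_one (by linarith)]; linarith
  have hq : χ ^ 2 * (-(l * (1 + m)) * (M.ip x (W.RG M x) (W.RG M x) / G ^ 2)
        - M.ip x (W.Rb M x) (W.Rb M x) / B ^ 2
        - (1 + m * (B / (32 * G))) * (M.ip x (W.Pb M x) (W.Pb M x) / B ^ 2)
        - m * (M.ip x (W.RG M x) (W.Rb M x) / (G * B))
        + (m + 1 / 20 - l * (B / (32 * G)) - l * m * (B / (32 * G)))
          * (M.ip x (W.RG M x) (W.Pb M x) / (G * B))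
        + (n - (2 * m + 1 / 20 - l * (B / (32 * G))) - m * (B / (32 * G)))
          * (M.ip x (W.Rb M x) (W.Pb M x) / B ^ 2))
      + 2 * χ * M.ip x (dd (W.chi0 M L) x) (W.W0 M l x)
      ≤ 300 * M.ip x (dd (W.chi0 M L) x) (dd (W.chi0 M L) x) := by
    simp only [hf, W0, map_add, map_smul, smul_eq_mul, Finset.sum_div, Finset.mul_sum,
      ← Finset.sum_sub_distrib, ← Finset.sum_add_distrib, ← hGdef, ← hBdef]
    refine Finset.sum_le_sum fun k _ => ?_
    have hs := quad_scalar n hn hn' m l (B / (32 * G)) (f k (W.RG M x) / G) (f k (W.Rb M x) / B)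
      (f k (W.Pb M x) / B) hm hl ht0 ht1
    set a := f k (W.RG M x) / G with ha
    set b := f k (W.Rb M x) / B with hb
    set c := f k (W.Pb M x) / B with hc
    set w := f k (dd (W.chi0 M L) x)
    have e1 : f k (W.RG M x) = a * G := by rw [ha]; field_simp
    have e2 : f k (W.Rb M x) = b * B := by rw [hb]; field_simp
    have e3 : f k (W.Pb M x) = c * B := by rw [hc]; field_simp
    rw [e1, e2, e3]
    have r1 : a * G * (a * G) / G ^ 2 = a * a := by field_simp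
    have r2 : b * B * (b * B) / B ^ 2 = b * b := by field_simp
    have r3 : c * B * (c * B) / B ^ 2 = c * c := by field_simp
    have r4 : a * G * (b * B) / (G * B) = a * b := by field_simp
    have r5 : a * G * (c * B) / (G * B) = a * c := by field_simp
    have r6 : b * B * (c * B) / B ^ 2 = b * c := by field_simp
    have r7 : l * G⁻¹ * (a * G) + B⁻¹ * (b * B + c * B) = l * a + b + c := by
      field_simp; ring
    rw [r1, r2, r3, r4, r5, r6, r7]
    exact absorb_scalar _ a b c w χ l hl0 hl1 hs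
  have hE := ip_dd_chi0_le hL hxU h0
  have h4 := mul_le_mul_of_nonneg_left hθ' (sq_nonneg χ)
  have h5 := mul_nonpos_of_nonneg_of_nonpos (sq_nonneg χ) hβ'
  have e4 : χ ^ 2 * (-(1 / 20) / G) = -(1 / 20 * (χ ^ 2 / G)) := by ring
  have e5 : 1200 / L ^ 2 * W.En M x = 300 * (4 / L ^ 2 * W.En M x) := by ring
  rw [mul_add, mul_add]
  linarith

end WD

theorem step2 (n j : ℕ) (hn : 3 ≤ n) (hn' : n ≤ 9) (hj : 2 ≤ j) : ∃ C : ℝ, 0 < C ∧
    ∀ (M : AM n) (W : WD n j) (R L : ℝ), 0 < L → W.Good M R → j * Real.exp L ≤ R →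
      2 * j * W.d * Real.exp L ≤ 1 / 100 →
      M.mass (fun x => W.chi M L x ^ 2 * W.G M x ^ (-(n : ℝ) / 2)) (W.CR M R)
        ≤ ENNReal.ofReal (C / L ^ 2) *
          M.mass (fun x => W.G M x ^ (-((n : ℝ) - 2) / 2) * W.En M x)
            (W.CR M R ∩ {x | ∀ i, W.yt M i x ≤ Real.exp L}) := by
  refine ⟨24000, by norm_num, fun M W R L hL h hR hd => ?_⟩
  have hj1 : 1 ≤ j := by omega
  set m : ℝ := ((n : ℝ) - 2) / 2 with hm
  set l : ℝ := 15 * ((n : ℝ) - 2) / (16 * n) with hl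
  have hCU := h.CR_sub_UU hj1
  have hUo : IsOpen (W.UU M) := WD.isOpen_UU
  let S : Set (E n) := W.UU M ∩ {x | ∀ i, W.yt M i x ≤ Real.exp L}
  have hSm : MeasurableSet S := by
    have : S = W.UU M \ ⋃ i, (W.UU M ∩ W.yt M i ⁻¹' Set.Ioi (Real.exp L)) := by
      ext x
      simp only [S, Set.mem_inter_iff, Set.mem_ofPred_eq, Set.mem_sdiff, Set.mem_iUnion,
        Set.mem_preimage, Set.mem_Ioi, not_exists, not_and, not_lt]
      exact ⟨fun h => ⟨h.1, fun i _ => h.2 i⟩, fun h => ⟨h.1, fun i => h.2 i h.1⟩⟩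
    rw [this]
    exact hUo.measurableSet.diff (MeasurableSet.iUnion fun i =>
      (((W.cd_yt M i).continuousOn.mono WD.UU_sub).isOpen_inter_preimage hUo
        isOpen_Ioi).measurableSet)
  have hCS : W.CR M R ∩ S = W.CR M R ∩ {x | ∀ i, W.yt M i x ≤ Real.exp L} := by
    ext x; exact ⟨fun hx => ⟨hx.1, hx.2.2⟩, fun hx => ⟨hx.1, hCU hx.1, hx.2⟩⟩
  have hchi1 : ContDiffOn ℝ 1 (fun z => (max (W.chi0 M L z) 0) ^ (0 + 2)) (W.UU M) :=
    (contDiff_posPart_pow 0).comp_contDiffOn ((WD.cd_chi0 L).of_le (by simp))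
  have hGm : ContDiffOn ℝ 1 (fun z => W.G M z ^ (-m)) (W.UU M) :=
    (WD.cd_G_rpow (-m)).of_le (by simp)
  have hf1 : ContDiffOn ℝ 1 (fun z => (max (W.chi0 M L z) 0) ^ (0 + 2) * W.G M z ^ (-m))
    (W.UU M) := hchi1.mul hGm
  have key := M.mass_le_of_Dv hUo WD.UU_sub h.compact hCU hSm
    (fun z => ((max (W.chi0 M L z) 0) ^ (0 + 2) * W.G M z ^ (-m)) • W.W0 M l z)
    (fun k => hf1.mul ((WD.cd_W0 l k).of_le (by simp)))
    (f := fun x => W.chi M L x ^ 2 * W.G M x ^ (-(n : ℝ) / 2))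
    (g := fun x => W.G M x ^ (-((n : ℝ) - 2) / 2) * W.En M x) (a := 1 / 20) (b := 1200 / L ^ 2)
    ?_ ?_ ?_ ?_ ?_ (by norm_num) (by positivity) ?_
  · rw [hCS] at key
    have : 1200 / L ^ 2 / (1 / 20) = 24000 / L ^ 2 := by ring
    rwa [this] at key
  · -- vanishing off the cap
    intro x hxU hxC
    have hs : R < W.s M x := by
      by_contra hc
      exact hxC ⟨hxU.1, not_lt.1 hc⟩
    have : W.chi0 M L x < 0 := by
      by_contra hc
      have h1 : ∀ i, W.yt M i x ≤ Real.exp L := fun i => by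
        have := (abs_le.1 (WD.log_sq_le_of_chi0 hL (not_lt.1 hc) i)).2
        calc W.yt M i x = Real.exp (Real.log (W.yt M i x)) := (Real.exp_log (hxU.2.2.2 i)).symm
          _ ≤ _ := Real.exp_le_exp.2 this
      have h2 : W.s M x ≤ j * Real.exp L := by
        refine (Finset.sum_le_sum fun i _ => h1 i).trans ?_
        simp
      linarith
    simp [max_eq_right this.le]
  · exact ((hchi1.continuousOn.mono hCU).mul ((WD.cd_G_rpow _).continuousOn.mono hCU))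
  · exact ((WD.cd_G_rpow _).continuousOn.mono hCU).mul (WD.continuousOn_En.mono hCU)
  · intro x hx
    exact mul_nonneg (sq_nonneg _) (Real.rpow_nonneg (hCU hx).2.1.le _)
  · intro x hx
    exact mul_nonneg (Real.rpow_nonneg (hCU hx).2.1.le _) (WD.En_nonneg hx.1)
  · intro x hx
    have hxU := hCU hx
    have hG := hxU.2.1
    have hc0 : DifferentiableAt ℝ (W.chi0 M L) x := diffAt_of_contDiffOn hUo (WD.cd_chi0 L) hxU
    have hGd : DifferentiableAt ℝ (W.G M) x := diffAt_of_contDiffOn M.isOpen (W.cd_G M) hx.1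
    have hd1 := hasDerivAt_posPart_pow 0 (W.chi0 M L x)
    have hd2 : HasDerivAt (fun t : ℝ => t ^ (-m)) (-m * W.G M x ^ (-m - 1)) (W.G M x) :=
      Real.hasDerivAt_rpow_const (Or.inl hG.ne')
    have hA : DifferentiableAt ℝ (fun z => (max (W.chi0 M L z) 0) ^ (0 + 2)) x :=
      hd1.differentiableAt.comp x hc0
    have hB : DifferentiableAt ℝ (fun z => W.G M z ^ (-m)) x := hd2.differentiableAt.comp x hGd
    have hAB : DifferentiableAt ℝ
      (fun z => (max (W.chi0 M L z) 0) ^ (0 + 2) * W.G M z ^ (-m)) x := hA.mul hB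
    rw [M.Dv_smul hx.1 hAB (diff1_of_contDiffOn hUo (WD.cd_W0 l) hxU), dd_mul hA hB,
      dd_comp (F := fun r : ℝ => (max r 0) ^ (0 + 2)) hc0 hd1,
      dd_comp (F := fun t : ℝ => t ^ (-m)) hGd hd2]
    simp only [M.ip_add_left, M.ip_smul_left]
    have e1 : W.G M x ^ (-m - 1) = W.G M x ^ (-m) / W.G M x := Real.rpow_sub_one hG.ne' _
    have e2 : W.G M x ^ (-(n : ℝ) / 2) = W.G M x ^ (-m) / W.G M x := by
      rw [← e1]; congr 1; rw [hm]; ring
    have e3 : W.G M x ^ (-((n : ℝ) - 2) / 2) = W.G M x ^ (-m) := by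
      congr 1; rw [hm]; ring
    have hP : 0 < W.G M x ^ (-m) := Real.rpow_pos_of_pos hG _
    by_cases h0 : 0 ≤ W.chi0 M L x
    · have hxS : x ∈ S := ⟨hxU, fun i => by
        have := (abs_le.1 (WD.log_sq_le_of_chi0 hL h0 i)).2
        calc W.yt M i x = Real.exp (Real.log (W.yt M i x)) := (Real.exp_log (hxU.2.2.2 i)).symm
          _ ≤ _ := Real.exp_le_exp.2 this⟩
      have hk := WD.key_pointwise hn hn' hj hL h hd hx h0 hm hl
      have hk' := mul_le_mul_of_nonneg_left hk hP.le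
      have ec : W.chi M L x = W.chi0 M L x := max_eq_left h0
      rw [Set.indicator_of_mem hxS, ec, max_eq_left h0, e1, e2, e3]
      refine le_of_eq_of_le ?_ (le_of_le_of_eq hk' ?_)
      · push_cast; ring
      · ring
    · have hlt := not_le.1 h0
      have ec : W.chi M L x = 0 := max_eq_right hlt.le
      rw [ec, max_eq_right hlt.le]
      have : 0 ≤ S.indicator (fun x => W.G M x ^ (-((n : ℝ) - 2) / 2) * W.En M x) x := by
        by_cases hxS : x ∈ S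
        · rw [Set.indicator_of_mem hxS]
          exact mul_nonneg (Real.rpow_nonneg hG.le _) (WD.En_nonneg hx.1)
        · rw [Set.indicator_of_notMem hxS]
      have h2 : 0 ≤ 1200 / L ^ 2 * S.indicator
          (fun x => W.G M x ^ (-((n : ℝ) - 2) / 2) * W.En M x) x := by positivity
      simpa using h2

end Crest.Agent.R236
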