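import Crest.Agent.R236.CellLower
import Crest.Agent.R236.Step1
import Crest.Agent.R236.Step2

/-!
# Row 236: no centred approximate orthant structure for `3 ≤ n ≤ 9`

Choose `δ = min (1/500) (κ/8)`, a large natural number `N`, `L = N`, `R = 2^{3N}` (or `exp (3N)`),
`d = 1/R`, `R₂ = d + 2 j R / δ`. Let `μ(U) = mass (G^{-n/2}) U`.
* Upper bound: `CR R` is covered by the `(6N+2)^j` dyadic cells `a_i = (d/2) 2^{k_i}`, so
  `μ(CR R) ≤ C (6N+2)^j` (`dyadic_upper`; `lintegral_mono_set`, `lintegral_iUnion_le`/`biUnion`).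
* On `{ỹ_i ≤ exp L}` we have `1 - s/R ≥ 1/2`, so `step2` and `step1` give
  `mass (χ² G^{-n/2}) ≤ (C/N²) 2ⁿ C μ(CR R)`.
* Lower bound: with `K₀ = 2/ε₀` the cells `(ε₀ a_i, 2 a_i]`, `a_i = K₀^{l_i}`, `l : Fin j → Fin N'`,
  `N' = ⌊N / (2 j (log K₀ + 1))⌋ - 1` or so, are pairwise disjoint, `χ ≥ 1/2` on them
  (`|log ỹ_i| ≤ N/(2j)`), and each has `μ ≥ c₀` (`cell_lower`).
So `c₀ N'^j / 4 ≤ C' (6N+2)^j / N²`, false for large `N`.
-/

set_option autoImplicit false
open scoped ContDiff RealInnerProductSpace ENNReal Topology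
open Crest.GeometryTopology.CoordMetric Crest.GeometryTopology.AffineMaximal MeasureTheory

noncomputable section

namespace Crest.Agent.R236

lemma now_measurable {n : ℕ} {C : Set (E n)} (hC : MeasurableSet C) {f : E n → ℝ}
    (hf : ContinuousOn f C) {T : Set ℝ} (hT : MeasurableSet T) : MeasurableSet (C ∩ f ⁻¹' T) := by
  have h1 : MeasurableSet ((C.domRestrict f) ⁻¹' T) := hf.domRestrict.measurable hT
  have h2 := hC.subtype_image h1
  have e : Subtype.val '' ((C.domRestrict f) ⁻¹' T) = C ∩ f ⁻¹' T := by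
    ext x
    simp only [Set.mem_image, Set.mem_preimage, Set.domRestrict_apply, Subtype.exists, exists_and_right,
      exists_eq_right, Set.mem_inter_iff, exists_prop]
  rwa [e] at h2

lemma now_measurable_cell {n j : ℕ} {W : WD n j} {M : AM n} {R : ℝ} (h : W.Good M R)
    (T : Fin j → Set ℝ) (hT : ∀ i, MeasurableSet (T i)) :
    MeasurableSet (W.CR M R ∩ {x | ∀ i, W.yt M i x ∈ T i}) := by
  have hC := h.compact.measurableSet
  have e : W.CR M R ∩ {x | ∀ i, W.yt M i x ∈ T i} =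
      W.CR M R ∩ ⋂ i, (W.CR M R ∩ W.yt M i ⁻¹' T i) := by
    ext x
    simp only [Set.mem_inter_iff, Set.mem_ofPred_eq, Set.mem_iInter, Set.mem_preimage]
    exact ⟨fun h => ⟨h.1, fun i => ⟨h.1, h.2 i⟩⟩, fun h => ⟨h.1, fun i => (h.2 i).2⟩⟩
  rw [e]
  exact hC.inter (MeasurableSet.iInter fun i =>
    now_measurable hC ((W.cd_yt M i).continuousOn.mono fun _ hx => hx.1) (hT i))

lemma now_mass_mono {n : ℕ} (M : AM n) (f : E n → ℝ) {U U' : Set (E n)} (h : U ⊆ U') :
    M.mass f U ≤ M.mass f U' := lintegral_mono_set h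

lemma now_mass_le_mul {n : ℕ} (M : AM n) {f g : E n → ℝ} {U : Set (E n)} (hU : MeasurableSet U)
    (hΩ : U ⊆ M.Ω) {c : ℝ} (hc : 0 ≤ c) (h : ∀ x ∈ U, f x ≤ c * g x) :
    M.mass f U ≤ ENNReal.ofReal c * M.mass g U := by
  unfold AM.mass
  rw [← lintegral_const_mul' _ _ ENNReal.ofReal_ne_top]
  refine setLIntegral_mono' hU fun x hx => ?_
  rw [← ENNReal.ofReal_mul hc, ← mul_div_assoc]
  exact ENNReal.ofReal_le_ofReal (div_le_div_of_nonneg_right (h x hx) (M.rho_pos (hΩ hx)).le)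

lemma now_yt_le {n j : ℕ} {W : WD n j} {M : AM n} {R : ℝ} (h : W.Good M R) {x : E n}
    (hx : x ∈ W.CR M R) (i : Fin j) : W.yt M i x ≤ R :=
  (Finset.single_le_sum (f := fun i => W.yt M i x) (fun i _ => (h.yt_pos hx i).le)
    (Finset.mem_univ i)).trans hx.2

/-- covering by dyadic cells -/
lemma now_upper {n j : ℕ} {W : WD n j} {M : AM n} {R : ℝ} (h : W.Good M R) (f : E n → ℝ) (k₀ : ℕ)
    (hR : R = W.d / 2 * 2 ^ k₀) {C : ℝ}
    (hC : ∀ a : Fin j → ℝ, (∀ i, W.d / 2 ≤ a i ∧ a i ≤ R) →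
      M.mass f (W.CR M R ∩ {x | ∀ i, a i ≤ W.yt M i x ∧ W.yt M i x ≤ 2 * a i}) ≤ ENNReal.ofReal C) :
    M.mass f (W.CR M R) ≤ ENNReal.ofReal (((k₀ : ℝ) + 1) ^ j * C) := by
  have hd := h.d_pos
  let a : (Fin j → Fin (k₀ + 1)) → Fin j → ℝ := fun k i => W.d / 2 * 2 ^ (k i : ℕ)
  have hcov : W.CR M R ⊆ ⋃ k : Fin j → Fin (k₀ + 1),
      W.CR M R ∩ {x | ∀ i, a k i ≤ W.yt M i x ∧ W.yt M i x ≤ 2 * a k i} := by
    intro x hx
    have h1 : ∀ i, ∃ k : Fin (k₀ + 1), W.d / 2 * 2 ^ (k : ℕ) ≤ W.yt M i x ∧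
        W.yt M i x ≤ 2 * (W.d / 2 * 2 ^ (k : ℕ)) := by
      intro i
      have h2 : 1 ≤ W.yt M i x / (W.d / 2) := (one_le_div (by positivity)).2 (h.yt_ge x hx i)
      obtain ⟨k, hk1, hk2⟩ := exists_nat_pow_near h2 (one_lt_two (α := ℝ))
      rw [le_div_iff₀ (by positivity)] at hk1
      rw [div_lt_iff₀ (by positivity), pow_succ] at hk2
      have h3 : (2 : ℝ) ^ k ≤ 2 ^ k₀ := by
        have h4 := now_yt_le h hx i
        rw [hR] at h4
        apply le_of_mul_le_mul_left _ (show 0 < W.d / 2 by positivity)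
        linarith
      have h4 : k ≤ k₀ := (pow_le_pow_iff_right₀ one_lt_two).1 h3
      exact ⟨⟨k, by omega⟩, by simpa [mul_comm] using hk1, by simp only; linarith⟩
    choose k hk using h1
    exact Set.mem_iUnion.2 ⟨k, hx, hk⟩
  refine (now_mass_mono M f hcov).trans ?_
  refine (lintegral_iUnion_le _ _).trans ?_
  rw [tsum_fintype]
  refine (Finset.sum_le_sum (g := fun _ => ENNReal.ofReal C) fun k _ => hC (a k) fun i => ⟨?_, ?_⟩).trans ?_
  · exact le_mul_of_one_le_right (by positivity) (one_le_pow₀ one_le_two)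
  · rw [hR]
    exact mul_le_mul_of_nonneg_left (pow_le_pow_right₀ one_le_two (Nat.lt_succ_iff.1 (k i).2))
      (by positivity)
  · rw [Finset.sum_const, Finset.card_univ, Fintype.card_fun, Fintype.card_fin, Fintype.card_fin,
      nsmul_eq_mul, ENNReal.ofReal_mul (by positivity), ← ENNReal.ofReal_natCast]
    push_cast
    exact le_rfl

/-- packing by geometric cells -/
lemma now_lower {n j : ℕ} {W : WD n j} {M : AM n} {R : ℝ} (h : W.Good M R) (f : E n → ℝ) (m : ℕ)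
    {ε c : ℝ} (hε : 0 < ε) (hε' : ε ≤ 1 / 4)
    (hc : ∀ l : Fin j → Fin m, ENNReal.ofReal c ≤ M.mass f (W.CR M R ∩
      {x | ∀ i, ε * (2 / ε) ^ (l i : ℕ) < W.yt M i x ∧ W.yt M i x ≤ 2 * (2 / ε) ^ (l i : ℕ)})) :
    ENNReal.ofReal ((m : ℝ) ^ j * c) ≤ M.mass f (W.CR M R ∩
      {x | ∀ i, W.yt M i x ∈ Set.Icc ((2 / ε) ^ m)⁻¹ ((2 / ε) ^ m)}) := by
  have hK : 2 ≤ 2 / ε := by rw [le_div_iff₀ hε]; linarith
  have hK1 : 1 ≤ 2 / ε := by linarith
  let cell : (Fin j → Fin m) → Set (E n) := fun l => W.CR M R ∩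
      {x | ∀ i, W.yt M i x ∈ Set.Ioc (ε * (2 / ε) ^ (l i : ℕ)) (2 * (2 / ε) ^ (l i : ℕ))}
  have hm : ∀ l, MeasurableSet (cell l) := fun l => now_measurable_cell h _ fun _ => measurableSet_Ioc
  have hlt : ∀ a b : ℕ, a < b → 2 * (2 / ε) ^ a ≤ ε * (2 / ε) ^ b := by
    intro a b hab
    have h1 : 2 * (2 / ε) ^ a = ε * (2 / ε) ^ (a + 1) := by rw [pow_succ]; field_simp
    rw [h1]
    exact mul_le_mul_of_nonneg_left (pow_le_pow_right₀ hK1 hab) hε.le
  have hd : Pairwise (Function.onFun Disjoint cell) := by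
    intro l l' hll
    rw [Function.onFun, Set.disjoint_left]
    intro x hx hx'
    apply hll
    funext i
    have h1 := hx.2 i
    have h2 := hx'.2 i
    apply Fin.ext
    rcases lt_trichotomy (l i : ℕ) (l' i) with h3 | h3 | h3
    · linarith [hlt _ _ h3, h1.2, h2.1]
    · exact h3
    · linarith [hlt _ _ h3, h1.1, h2.2]
  have hsub : (⋃ l, cell l) ⊆ W.CR M R ∩
      {x | ∀ i, W.yt M i x ∈ Set.Icc ((2 / ε) ^ m)⁻¹ ((2 / ε) ^ m)} := by
    intro x hx
    obtain ⟨l, hx⟩ := Set.mem_iUnion.1 hx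
    refine ⟨hx.1, fun i => ⟨?_, ?_⟩⟩
    · refine le_trans ?_ (hx.2 i).1.le
      have h1 : ((2 / ε) ^ m)⁻¹ ≤ (2 / ε)⁻¹ :=
        inv_anti₀ (by linarith) (le_self_pow₀ hK1 (by have := (l i).2; omega))
      have h2 : (2 / ε)⁻¹ ≤ ε := by rw [inv_div]; linarith
      exact (h1.trans h2).trans (le_mul_of_one_le_right hε.le (one_le_pow₀ hK1))
    · refine (hx.2 i).2.trans ((hlt _ _ (l i).2).trans ?_)
      exact mul_le_of_le_one_left (by positivity) (by linarith)
  refine le_trans ?_ (now_mass_mono M f hsub)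
  unfold AM.mass
  rw [lintegral_iUnion hm hd, tsum_fintype]
  refine le_trans ?_ (Finset.sum_le_sum (f := fun _ => ENNReal.ofReal c) fun l _ => hc l)
  rw [Finset.sum_const, Finset.card_univ, Fintype.card_fun, Fintype.card_fin, Fintype.card_fin,
    nsmul_eq_mul, ENNReal.ofReal_mul (by positivity), ← ENNReal.ofReal_natCast]
  push_cast
  exact le_rfl

set_option maxHeartbeats 2000000 in
theorem no_approxW (n j : ℕ) (hn : 3 ≤ n) (hn' : n ≤ 9) (hj : 2 ≤ j) {κ : ℝ} (hκ : 0 < κ)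
    (hκ1 : κ ≤ 1) : ∃ d R : ℝ, 0 < d ∧ 0 < R ∧ ∀ (M : AM n) (O : A n) (e : Fin j → A n)
      (y : Fin j → A n →L[ℝ] ℝ), ¬ ApproxW M.K O e y κ d R := by
  have hj1 : 1 ≤ j := by omega
  have hj' : (2 : ℝ) ≤ j := by exact_mod_cast hj
  obtain ⟨ε, c, hε, hε', hc, hlow⟩ := cell_lower n j (by omega) hj1 hκ hκ1
  obtain ⟨C₁, hC₁, h1⟩ := step1 n j hn hj1
  obtain ⟨C₂, hC₂, h2⟩ := step2 n j hn hn' hj
  obtain ⟨C₃, hC₃, h3⟩ := dyadic_upper n j hj1 hκ
  have hK : 2 ≤ 2 / ε := by rw [le_div_iff₀ hε]; linarith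
  have hlogK : 0 ≤ Real.log (2 / ε) := Real.log_nonneg (by linarith)
  obtain ⟨q, hq⟩ := exists_nat_gt (j * Real.log (2 / ε))
  have hq0 : (0 : ℝ) < q := lt_of_le_of_lt (by positivity) hq
  have hq1 : (1 : ℝ) ≤ q := by exact_mod_cast (Nat.cast_pos.1 hq0)
  set D : ℝ := 4 * C₂ * 2 ^ n * C₁ * C₃ * (8 * q) ^ j / c with hD
  have hD0 : 0 ≤ D := by positivity
  obtain ⟨m, hm⟩ := exists_nat_gt (D + 200 * j + 4 * j ^ 2 + 1 / ε + 1)
  have hε1 : 0 < 1 / ε := by positivity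
  have hm1 : (1 : ℝ) ≤ m := by nlinarith
  set N : ℕ := m * q with hN
  have hN' : (N : ℝ) = m * q := by rw [hN]; push_cast; rfl
  have hmN : (m : ℝ) ≤ N := by rw [hN']; exact le_mul_of_one_le_right (by linarith) hq1
  have hN2 : (N : ℝ) ≤ 2 ^ N := by exact_mod_cast (Nat.lt_two_pow_self (n := N)).le
  have hexp : Real.exp N ≤ 4 ^ N := by
    rw [← mul_one (N : ℝ), Real.exp_nat_mul]
    exact pow_le_pow_left₀ (Real.exp_pos _).le (by linarith [Real.exp_one_lt_d9]) N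
  set R : ℝ := 2 ^ N * 4 ^ N with hR
  have h4N : (1 : ℝ) ≤ 4 ^ N := one_le_pow₀ (by norm_num)
  have hR0 : 0 < R := by positivity
  have hRN : ∀ t : ℝ, 0 ≤ t → t ≤ N → t * Real.exp N ≤ R := fun t ht htN =>
    mul_le_mul (htN.trans hN2) hexp (Real.exp_pos _).le (by positivity)
  have hE1 : 1 ≤ Real.exp N := Real.one_le_exp (Nat.cast_nonneg _)
  have hR1 : 1 ≤ R := le_trans (by linarith) (hRN 1 zero_le_one (by linarith))
  set δ : ℝ := min (1 / 500) (κ / 8) with hδ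
  have hδ0 : 0 < δ := by positivity
  have hδ1 : δ ≤ 1 / 500 := min_le_left _ _
  refine ⟨1 / R, 1 / R + 2 * j * R / δ, by positivity, by positivity, fun M O e y hA => ?_⟩
  let W : WD n j := ⟨O, e, y, 1 / R, δ⟩
  have hWd : W.d = 1 / R := rfl
  have hA' : ApproxW M.K W.O W.e W.y κ W.d (1 / R + 2 * j * R / δ) := hA
  have hG : W.Good M R := good_of_approx hj1 hκ hA' (by positivity) hδ0 hδ1
    ((div_le_one hR0).2 hR1 |>.trans hR1) le_rfl
  have h4R : 4 * R ≤ 1 / R + 2 * j * R / δ := by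
    have h5 : 4 * R ≤ 2 * j * R / δ := by
      rw [le_div_iff₀ hδ0]
      nlinarith
    have : 0 < 1 / R := by positivity
    linarith
  have hup := now_upper hG (fun x => W.G M x ^ (-(n : ℝ) / 2)) (6 * N + 1)
    (by
      have : (2 : ℝ) ^ (6 * N + 1) = R * R * 2 := by
        rw [hR, ← mul_pow, ← mul_pow, pow_succ, pow_mul]
        norm_num
      rw [hWd, this]
      field_simp)
    (h3 M W R _ hA' hG (min_le_right _ _) h4R)
  have hKm : (2 / ε) ^ m = Real.exp (m * Real.log (2 / ε)) := by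
    rw [Real.exp_nat_mul, Real.exp_log (by linarith)]
  have hmK : m * Real.log (2 / ε) ≤ N / j := by
    rw [le_div_iff₀ (by linarith), hN', mul_assoc]
    exact mul_le_mul_of_nonneg_left (by linarith) (by linarith)
  have hNj : (N : ℝ) / j ≤ N := div_le_self (Nat.cast_nonneg _) (by linarith)
  have hlo := now_lower hG (fun x => W.G M x ^ (-(n : ℝ) / 2)) m hε hε' (c := c) (fun l => by
    refine hlow M W R _ hA' hG (by linarith) (fun i => (2 / ε) ^ (l i : ℕ)) (fun i => ?_) ?_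
    · refine le_trans ?_ (le_mul_of_one_le_right hε.le (one_le_pow₀ (by linarith)))
      rw [hWd, one_div_le hR0 hε]
      exact le_trans (le_mul_of_one_le_right hε1.le hE1) (hRN _ hε1.le (by nlinarith))
    · have h5 : ∑ i, (2 / ε) ^ (l i : ℕ) ≤ ∑ _i : Fin j, Real.exp N := by
        refine Finset.sum_le_sum fun i _ => ?_
        refine (pow_le_pow_right₀ (by linarith) (l i).2.le).trans ?_
        rw [hKm]
        exact Real.exp_le_exp.2 (hmK.trans hNj)
      rw [Finset.sum_const, Finset.card_univ, Fintype.card_fin, nsmul_eq_mul] at h5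
      refine (mul_le_mul_of_nonneg_left h5 (by positivity)).trans ?_
      rw [← mul_assoc]
      exact hRN _ (by positivity) (by nlinarith))
  have hN0 : (0 : ℝ) < N := by linarith
  have hchi := now_mass_le_mul M (f := fun x => W.G M x ^ (-(n : ℝ) / 2))
    (g := fun x => W.chi M N x ^ 2 * W.G M x ^ (-(n : ℝ) / 2))
    (now_measurable_cell hG (fun _ => Set.Icc ((2 / ε) ^ m)⁻¹ ((2 / ε) ^ m)) fun _ => measurableSet_Icc)
    (fun x hx => hx.1.1) (c := 4) (by norm_num) (fun x hx => by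
      have h5 : ∀ i, Real.log (W.yt M i x) ^ 2 ≤ (N / j) ^ 2 := by
        intro i
        have h6 := hx.2 i
        have h7 := hG.yt_pos hx.1 i
        rw [hKm, ← Real.exp_neg, Set.mem_Icc, ← Real.le_log_iff_exp_le h7, ← Real.log_le_iff_le_exp h7] at h6
        exact sq_le_sq' (by linarith [h6.1]) (by linarith [h6.2])
      have h6 : ∑ i, Real.log (W.yt M i x) ^ 2 ≤ ∑ _i : Fin j, ((N : ℝ) / j) ^ 2 :=
        Finset.sum_le_sum fun i _ => h5 i
      rw [Finset.sum_const, Finset.card_univ, Fintype.card_fin, nsmul_eq_mul] at h6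
      have h7 : (j : ℝ) * (N / j) ^ 2 / N ^ 2 = 1 / j := by field_simp
      have h8 : (∑ i, Real.log (W.yt M i x) ^ 2) / (N : ℝ) ^ 2 ≤ 1 / 2 := by
        refine (div_le_div_of_nonneg_right h6 (by positivity)).trans ?_
        rw [h7]
        exact one_div_le_one_div_of_le (by norm_num) hj'
      have h9 : 1 / 2 ≤ W.chi M N x := le_trans (by linarith) (le_max_left _ _)
      rw [← mul_assoc]
      exact le_mul_of_one_le_left (Real.rpow_nonneg (hG.G_pos hj1 hx.1).le _) (by nlinarith))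
  have hs2 := h2 M W R N hN0 hG (hRN _ (by linarith) (by nlinarith)) (by
    have h5 := hRN (200 * j) (by linarith) (by nlinarith)
    rw [hWd]
    have : 2 * j * (1 / R) * Real.exp N = 200 * j * Real.exp N / R / 100 := by ring
    rw [this]
    exact div_le_div_of_nonneg_right ((div_le_one hR0).2 h5) (by norm_num))
  have hmid := now_mass_le_mul M (f := fun x => W.G M x ^ (-((n : ℝ) - 2) / 2) * W.En M x)
    (g := fun x => (max (1 - W.s M x / R) 0) ^ n * W.G M x ^ (-((n : ℝ) - 2) / 2) * W.En M x)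
    (now_measurable_cell hG (fun _ => Set.Iic (Real.exp N)) fun _ => measurableSet_Iic)
    (fun x hx => hx.1.1) (c := 2 ^ n) (by positivity) (fun x hx => by
      have h5 : W.s M x ≤ ∑ _i : Fin j, Real.exp N := Finset.sum_le_sum fun i _ => hx.2 i
      rw [Finset.sum_const, Finset.card_univ, Fintype.card_fin, nsmul_eq_mul] at h5
      have h6 := hRN (2 * j) (by linarith) (by nlinarith)
      have h7 : W.s M x / R ≤ 1 / 2 := by rw [div_le_iff₀ hR0]; linarith
      have h8 : 1 ≤ 2 * max (1 - W.s M x / R) 0 := by linarith [le_max_left (1 - W.s M x / R) 0]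
      rw [mul_assoc, ← mul_assoc, ← mul_pow]
      exact le_mul_of_one_le_left (mul_nonneg (Real.rpow_nonneg (hG.G_pos hj1 hx.1).le _)
        (WD.En_nonneg hx.1.1)) (one_le_pow₀ h8))
  have hs1 := h1 M W R hR0 hG
  have hfin : ENNReal.ofReal ((m : ℝ) ^ j * c) ≤ ENNReal.ofReal 4 * (ENNReal.ofReal (C₂ / N ^ 2) *
      (ENNReal.ofReal (2 ^ n) * (ENNReal.ofReal C₁ *
        ENNReal.ofReal ((((6 * N + 1 : ℕ) : ℝ) + 1) ^ j * C₃)))) := by
    refine hlo.trans (hchi.trans ?_)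
    refine mul_le_mul_right (((now_mass_mono M _ Set.inter_subset_left).trans hs2).trans ?_) _
    refine mul_le_mul_right (hmid.trans ?_) _
    refine mul_le_mul_right (((now_mass_mono M _ Set.inter_subset_left).trans hs1).trans ?_) _
    exact mul_le_mul_right hup _
  rw [← ENNReal.ofReal_mul hC₁.le, ← ENNReal.ofReal_mul (by positivity),
    ← ENNReal.ofReal_mul (by positivity), ← ENNReal.ofReal_mul (by positivity),
    ENNReal.ofReal_le_ofReal_iff (by positivity)] at hfin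
  have h5 : (((6 * N + 1 : ℕ) : ℝ) + 1) ^ j ≤ m ^ j * (8 * q) ^ j := by
    rw [← mul_pow]
    refine pow_le_pow_left₀ (by positivity) ?_ j
    push_cast
    linarith
  have h6 : (m : ℝ) ^ j * c ≤ m ^ j * (D * c / N ^ 2) := by
    refine hfin.trans ?_
    have : (m : ℝ) ^ j * (D * c / N ^ 2) =
        4 * (C₂ / N ^ 2 * (2 ^ n * (C₁ * (m ^ j * (8 * q) ^ j * C₃)))) := by
      rw [hD]; field_simp
    rw [this]
    gcongr
  have h7 := le_of_mul_le_mul_left h6 (by positivity)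
  rw [le_div_iff₀ (by positivity), mul_comm D] at h7
  have h8 := le_of_mul_le_mul_left h7 hc
  nlinarith

end Crest.Agent.R236
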