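import Crest.Agent.R236.Rescale
import Crest.Agent.R236.Geo3
import Crest.Agent.R236.NoW

/-!
# Row 236: rescaling, and uniformly nice normalised sections

`exists_resc`: the Hessian of `ξ ↦ f (x₀ + S ξ)` is `Sᵀ D²f S` (matrix of `S` in the standard basis),
so `det` is multiplied by `(det S)² / hⁿ`, `detPower` by a positive constant, and the trace
`tr((D²u)⁻¹ D²w)` by `h`; the epigraph is an affine image of the epigraph.
`exists_nice`: the section `{x ∈ Ω | u x - ℓ_{x₀} x ≤ h}` is convex, bounded (it is closed by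
`M.closed`; strict convexity gives linear growth along rays: on a small sphere around `x₀`,
`u - ℓ ≥ c > 0`) and has interior; normalise it by `john` (in `E n`) to get `S`. For the rescaled `M'`
the set `M'.K` is an `Img` of `M.K`, `H = ht`, `K' ∩ {ht ≤ 1}` lies in the ball of radius `2` and
contains a ball of radius `c₁` (around `(Z/2, 3/4)`, using convexity `u'(ξ/2) ≤ u'(ξ)/2`). Apply
`unif_strict` (with `no_approxW`) with `H₀ = 4`: for `ball` use `X = (x, u x)`, `X' = (x, u x + 1)`,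
`c₀ = 1`; for `strict` use graph points and the vertical vector `v = (0, -γ)`.
-/

set_option autoImplicit false
open scoped ContDiff RealInnerProductSpace ENNReal Topology
open Crest.GeometryTopology.CoordMetric Crest.GeometryTopology.AffineMaximal MeasureTheory

noncomputable section

namespace Crest.Agent.R236

variable {n : ℕ}

lemma niceEx_norm_sq (X : A n) : ‖X‖ ^ 2 = ‖base X‖ ^ 2 + ht X ^ 2 := by
  rw [← real_inner_self_eq_norm_sq, inner_A, real_inner_self_eq_norm_sq, sq (ht X)]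

lemma niceEx_base_le (X : A n) : ‖base X‖ ≤ ‖X‖ := by
  refine (pow_le_pow_iff_left₀ (norm_nonneg _) (norm_nonneg _) two_ne_zero).1 ?_
  rw [niceEx_norm_sq]
  nlinarith [sq_nonneg (ht X)]

lemma niceEx_ht_le (X : A n) : |ht X| ≤ ‖X‖ := by
  refine (pow_le_pow_iff_left₀ (abs_nonneg _) (norm_nonneg _) two_ne_zero).1 ?_
  rw [niceEx_norm_sq, sq_abs]
  nlinarith [sq_nonneg ‖base X‖]

lemma niceEx_norm_le (X : A n) : ‖X‖ ≤ ‖base X‖ + |ht X| := by
  refine (pow_le_pow_iff_left₀ (norm_nonneg _) (by positivity) two_ne_zero).1 ?_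
  rw [niceEx_norm_sq, ← sq_abs (ht X)]
  nlinarith [mul_nonneg (norm_nonneg (base X)) (abs_nonneg (ht X))]

lemma AM.niceEx_support_lt (M : AM n) {x z : E n} (hx : x ∈ M.Ω) (hz : z ∈ M.Ω) (hxz : x ≠ z) :
    M.u x + ⟪M.grad x, z - x⟫ < M.u z := by
  obtain ⟨θ, hθ, h⟩ := exists_hasDerivAt_eq_slope (fun s : ℝ => M.u (x + s • (z - x)))
    (fun s : ℝ => ⟪M.grad (x + s • (z - x)), z - x⟫) one_pos
    (fun t ht => (M.a1_hasDerivAt_line M.smooth
      (M.a1_mem_line hx hz ht)).continuousAt.continuousWithinAt)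
    (fun t ht => by
      have := M.a1_hasDerivAt_line M.smooth (M.a1_mem_line hx hz (Set.Ioo_subset_Icc_self ht))
      rwa [AM.fderiv_u_apply] at this)
  have h2 := M.a1_strictMono hx hz hxz (Set.left_mem_Icc.2 zero_le_one)
    (Set.Ioo_subset_Icc_self hθ) hθ.1
  simp only [zero_smul, add_zero, one_smul, add_sub_cancel, sub_zero, div_one] at h h2
  linarith

/-- the section at `x₀` of height `h` -/
def AM.niceSec (M : AM n) (x₀ : E n) (h : ℝ) : Set (E n) :=
  {x | x ∈ M.Ω ∧ M.u x - M.u x₀ - ⟪M.grad x₀, x - x₀⟫ ≤ h}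

lemma AM.niceEx_comb (M : AM n) (x₀ : E n) {x y : E n} (hx : x ∈ M.Ω) (hy : y ∈ M.Ω) {a b : ℝ}
    (ha : 0 ≤ a) (hb : 0 ≤ b) (hab : a + b = 1) :
    M.u (a • x + b • y) - M.u x₀ - ⟪M.grad x₀, a • x + b • y - x₀⟫ ≤
      a * (M.u x - M.u x₀ - ⟪M.grad x₀, x - x₀⟫) + b * (M.u y - M.u x₀ - ⟪M.grad x₀, y - x₀⟫) := by
  have h1 := M.convexOn_u.2 hx hy ha hb hab
  have h2 : a • x + b • y - x₀ = a • (x - x₀) + b • (y - x₀) := by
    rw [smul_sub, smul_sub, sub_add_sub_comm, ← add_smul, hab, one_smul]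
  have h3 : M.u x₀ = a * M.u x₀ + b * M.u x₀ := by rw [← add_mul, hab, one_mul]
  rw [h2, inner_add_right, real_inner_smul_right, real_inner_smul_right]
  simp only [smul_eq_mul] at h1
  linarith

lemma AM.niceSec_convex (M : AM n) (x₀ : E n) (h : ℝ) : Convex ℝ (M.niceSec x₀ h) := by
  intro x hx y hy a b ha hb hab
  refine ⟨M.convex hx.1 hy.1 ha hb hab, (M.niceEx_comb x₀ hx.1 hy.1 ha hb hab).trans ?_⟩
  calc _ ≤ a * h + b * h :=
        add_le_add (mul_le_mul_of_nonneg_left hx.2 ha) (mul_le_mul_of_nonneg_left hy.2 hb)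
    _ = h := by rw [← add_mul, hab, one_mul]

lemma AM.niceEx_cont (M : AM n) (x₀ : E n) :
    ContinuousOn (fun x => M.u x - M.u x₀ - ⟪M.grad x₀, x - x₀⟫) M.Ω :=
  (M.smooth.continuousOn.sub continuousOn_const).sub (by fun_prop)

lemma AM.niceSec_interior (M : AM n) {x₀ : E n} (hx₀ : x₀ ∈ M.Ω) {h : ℝ} (hh : 0 < h) :
    x₀ ∈ interior (M.niceSec x₀ h) := by
  rw [mem_interior_iff_mem_nhds]
  have h1 := M.isOpen.mem_nhds hx₀
  have h2 := ((M.niceEx_cont x₀).continuousAt h1).eventually_lt_const (u := h) (by simpa using hh)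
  filter_upwards [h1, h2] with x h3 h4
  exact ⟨h3, h4.le⟩

lemma AM.niceSec_bounded (M : AM n) {x₀ : E n} (hx₀ : x₀ ∈ M.Ω) (h : ℝ) :
    Bornology.IsBounded (M.niceSec x₀ h) := by
  obtain ⟨r, hr, hsub⟩ := Metric.nhds_basis_closedBall.mem_iff.1 (M.isOpen.mem_nhds hx₀)
  have hsph : Metric.sphere x₀ r ⊆ M.Ω := Metric.sphere_subset_closedBall.trans hsub
  obtain ⟨c, hc, hc'⟩ := (isCompact_sphere x₀ r).exists_forall_le' (a := 0)
    ((M.niceEx_cont x₀).mono hsph) (fun y hy => by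
      have hne : x₀ ≠ y := by
        rintro rfl
        simp only [Metric.mem_sphere, dist_self] at hy
        exact hr.ne hy
      have := M.niceEx_support_lt hx₀ (hsph hy) hne
      linarith)
  refine (Metric.isBounded_closedBall (x := x₀) (r := max r (r * h / c))).subset fun x hx => ?_
  rw [mem_closedBall_iff_norm]
  rcases le_or_gt ‖x - x₀‖ r with h1 | h1
  · exact h1.trans (le_max_left _ _)
  refine le_trans ?_ (le_max_right _ _)
  have h2 : 0 < ‖x - x₀‖ := hr.trans h1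
  set t := r / ‖x - x₀‖ with ht
  have ht0 : 0 < t := div_pos hr h2
  have ht1 : t ≤ 1 := (div_le_one h2).2 h1.le
  have h3 := M.niceEx_comb x₀ hx.1 hx₀ ht0.le (sub_nonneg.2 ht1) (add_sub_cancel t 1)
  have h4 : t • x + (1 - t) • x₀ ∈ Metric.sphere x₀ r := by
    rw [mem_sphere_iff_norm, show t • x + (1 - t) • x₀ - x₀ = t • (x - x₀) by module, norm_smul,
      Real.norm_of_nonneg ht0.le, ht, div_mul_cancel₀ _ h2.ne']
  have h5 := hc' _ h4
  have h6 := mul_le_mul_of_nonneg_left hx.2 ht0.le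
  simp only [sub_self, inner_zero_right, mul_zero, add_zero] at h3
  have h7 : c ≤ t * h := by linarith
  rw [ht, div_mul_eq_mul_div, le_div_iff₀ h2] at h7
  rw [le_div_iff₀ hc]
  linarith

theorem exists_nice (hn : 3 ≤ n) (hn' : n ≤ 9) (M : AM n) :
    ∃ (γ₁ : ℝ) (γ₂ : ℝ → ℝ), 0 < γ₁ ∧ (∀ c, 0 < c → 0 < γ₂ c) ∧
      ∀ x₀ ∈ M.Ω, ∀ h : ℝ, 0 < h → ∃ (S : E n ≃L[ℝ] E n) (M' : AM n),
        Resc M M' x₀ h S ∧ Nice M' γ₁ γ₂ := by
  obtain ⟨c, hc, hj⟩ := john (V := E n)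
  have hc₁ : 0 < min (c / 2) (1 / 4) := by positivity
  have hU := fun c₀ : {c₀ : ℝ // 0 < c₀} => unif_strict M.closed_K M.convex_K
    (fun j hj κ hκ hκ1 => by
      obtain ⟨d, R, hd, hR, h⟩ := no_approxW n j hn hn' hj hκ hκ1
      exact ⟨d, R, hd, hR, h M⟩) (r₁ := 2) (H₀ := 4) hc₁ c₀.2
  choose γ hγ hγ' using hU
  refine ⟨γ ⟨1, one_pos⟩, fun c₀ => if h : 0 < c₀ then γ ⟨c₀, h⟩ else 1, hγ _,
    fun c₀ h => by simp only [dif_pos h]; exact hγ _, fun x₀ hx₀ h hh => ?_⟩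
  have hi := M.niceSec_interior hx₀ hh
  obtain ⟨S, Z, hS, hZ⟩ := hj _ x₀ (M.niceSec_convex x₀ h) (interior_subset hi)
    (M.niceSec_bounded hx₀ h) ⟨_, hi⟩
  obtain ⟨M', hR⟩ := exists_resc M hx₀ hh S
  refine ⟨S, M', hR, ?_⟩
  have hsec : ∀ ξ, x₀ + S ξ ∈ M.niceSec x₀ h ↔ ξ ∈ M'.Ω ∧ M'.u ξ ≤ 1 := fun ξ => by
    rw [hR.mem, hR.val, div_le_one hh, AM.niceSec, Set.mem_ofPred_eq, add_sub_cancel_left]
  have h0 : (0 : E n) ∈ M'.Ω := by rw [hR.mem]; simpa using hx₀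
  have hu0 : M'.u 0 = 0 := by rw [hR.val]; simp
  have hnn : ∀ x ∈ M'.Ω, 0 ≤ M'.u x := fun x hx => by
    have := M.support_le hx₀ ((hR.mem x).1 hx)
    rw [add_sub_cancel_left] at this
    rw [hR.val]
    exact div_nonneg (by linarith) hh.le
  have h1 : ∀ x ∈ M'.Ω, M'.u x ≤ 1 → ‖x‖ ≤ 1 := fun x hx hx1 => by
    simpa using hS _ ((hsec x).2 ⟨hx, hx1⟩)
  have hsm : ∀ x ∈ M'.Ω, ∀ t : ℝ, 0 ≤ t → t ≤ 1 → t • x ∈ M'.Ω ∧ M'.u (t • x) ≤ t * M'.u x :=
    fun x hx t ht0 ht1 => by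
      have e1 := M'.convex hx h0 ht0 (sub_nonneg.2 ht1) (add_sub_cancel t 1)
      have e2 := M'.convexOn_u.2 hx h0 ht0 (sub_nonneg.2 ht1) (add_sub_cancel t 1)
      simp only [smul_zero, add_zero, hu0, smul_eq_mul, mul_zero] at e1 e2
      exact ⟨e1, e2⟩
  have hb0 : base (0 : A n) = 0 := by ext i; rfl
  have key := fun c₀ => hγ' c₀ M'.K (hR.img hh) (EuclideanSpace.proj (Sum.inr ()))
    ⟨by rw [hb0]; exact h0, by rw [hb0, hu0]; exact le_rfl⟩
    (fun X hX => (hnn _ hX.1).trans hX.2)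
    (fun X hX hX1 => by
      have e1 : ht X ≤ 1 := hX1
      have e2 : 0 ≤ ht X := (hnn _ hX.1).trans hX.2
      have e3 := h1 _ hX.1 (hX.2.trans e1)
      have e4 := niceEx_norm_le X
      rw [abs_of_nonneg e2] at e4
      linarith)
    ⟨mkA ((1 / 2 : ℝ) • Z) (3 / 4), fun v hv => by
      have e1 : ‖base v‖ ≤ c / 2 := (niceEx_base_le v).trans (hv.trans (min_le_left _ _))
      have e2 := abs_le.1 ((niceEx_ht_le v).trans (hv.trans (min_le_right _ _)))
      have e3 := (hsec _).1 (hZ ((2 : ℝ) • base v) (by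
        rw [norm_smul, Real.norm_of_nonneg (by norm_num)]; linarith))
      have e4 := hsm _ e3.1 (1 / 2) (by norm_num) (by norm_num)
      have e5 : base (mkA ((1 / 2 : ℝ) • Z) (3 / 4) + v) = (1 / 2 : ℝ) • (Z + (2 : ℝ) • base v) := by
        rw [base_add, base_mkA]; module
      refine ⟨⟨by rw [e5]; exact e4.1, ?_⟩, ?_⟩
      · rw [e5, ht_add, ht_mkA]
        linarith [e4.2, e3.2, e2.1]
      · change ht (mkA ((1 / 2 : ℝ) • Z) (3 / 4) + v) ≤ 1
        rw [ht_add, ht_mkA]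
        linarith [e2.2]⟩
  refine ⟨h0, hu0, hnn, fun x hx hx4 => ?_, fun x hx hx3 v hv => ?_,
    fun c₀ hc₀ x hx x' hx' h4 h4' hd => ?_⟩
  · have e1 := hsm x hx (1 / 4) (by norm_num) (by norm_num)
    have e2 := h1 _ e1.1 (by linarith [e1.2])
    rw [norm_smul, Real.norm_of_nonneg (by norm_num)] at e2
    linarith
  · have e1 := key ⟨1, one_pos⟩ (mkA x (M'.u x)) (M'.X_mem_K hx) (mkA x (M'.u x + 1))
      ⟨by simpa using hx, by simp⟩ (show M'.u x ≤ 4 by linarith)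
      (show M'.u x + 1 ≤ 4 by linarith)
      (by
        have := niceEx_ht_le (mkA x (M'.u x) - mkA x (M'.u x + 1))
        simpa using this)
      (mkA v 0) ((niceEx_norm_le _).trans (by simpa using hv))
    have e2 : base ((1 / 2 : ℝ) • (mkA x (M'.u x) + mkA x (M'.u x + 1)) + mkA v 0) = x + v := by
      simp only [base_add, base_smul, base_mkA]; module
    have e3 := e1.1
    have e4 := e1.2
    rw [e2] at e3 e4
    simp only [ht_add, ht_smul, ht_mkA] at e4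
    exact ⟨e3, by linarith⟩
  · rw [dif_pos hc₀]
    have e1 := key ⟨c₀, hc₀⟩ (mkA x (M'.u x)) (M'.X_mem_K hx) (mkA x' (M'.u x')) (M'.X_mem_K hx')
      h4 h4'
      (by
        have := niceEx_base_le (mkA x (M'.u x) - mkA x' (M'.u x'))
        simp only [base_sub, base_mkA] at this
        exact hd.trans this)
      (mkA 0 (-γ ⟨c₀, hc₀⟩)) ((niceEx_norm_le _).trans (by simp [abs_of_pos (hγ _)]))
    have e4 := e1.2
    simp only [base_add, base_smul, base_mkA, ht_add, ht_smul, ht_mkA, add_zero] at e4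
    linarith

end Crest.Agent.R236
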