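import Crest.Agent.R236.Basic

/-!
# Row 236: an elementary `L¹` Poincaré inequality on bounded convex sets

For `x ∈ A`, `y ∈ B`: `β - α ≤ g y - g x ≤ 8 ∫₀¹ ‖Dg (x + t (y - x))‖ dt`. Integrate over `A × B ⊆ S × S`
(Tonelli); for `t ≥ 1/2` substitute in `y` (the homothety `y ↦ x + t (y - x)` maps `S` into `S` and
scales the measure by `tⁿ ≥ 2⁻ⁿ`, `Measure.addHaar_image_homothety`/`map_addHaar_smul`), for `t ≤ 1/2`
substitute in `x`; `volume S ≤ volume (closedBall 0 4)`.
-/

set_option autoImplicit false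
open scoped ContDiff ENNReal Topology
open MeasureTheory

noncomputable section

namespace Crest.Agent.R236

theorem poinc_scale {n : ℕ} {F : E n → ℝ≥0∞} (hF : Measurable F) (a : E n) {t : ℝ}
    (ht : 1 / 2 ≤ t) : ∫⁻ y, F (a + t • y) ≤ 2 ^ n * ∫⁻ y, F y := by
  have ht0 : 0 < t := by linarith
  have hm : Measurable fun z => F (a + z) := hF.comp (measurable_const_add a)
  have h1 : ∫⁻ y, F (a + t • y) = ∫⁻ z, F (a + z) ∂(Measure.map (t • ·) volume) :=
    (lintegral_map hm (measurable_const_smul t)).symm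
  rw [h1, Measure.map_addHaar_smul volume ht0.ne', lintegral_smul_measure,
    lintegral_add_left_eq_self, smul_eq_mul]
  gcongr
  rw [finrank_euclideanSpace_fin, abs_of_pos (by positivity), ← inv_pow,
    ENNReal.ofReal_pow (by positivity)]
  gcongr
  rw [← ENNReal.ofReal_ofNat]
  refine ENNReal.ofReal_le_ofReal ?_
  rw [inv_le_comm₀ ht0 (by norm_num)]
  linarith

theorem poinc_segment {n : ℕ} {S U : Set (E n)} {g : E n → ℝ} (hU : IsOpen U) (hSU : S ⊆ U)
    (hS : Convex ℝ S) (hb : ∀ x ∈ S, ‖x‖ ≤ 4) (hg : ContDiffOn ℝ 1 g U) {x y : E n} (hx : x ∈ S)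
    (hy : y ∈ S) : ENNReal.ofReal (g y - g x) ≤ 8 * ∫⁻ t in Set.Icc (0 : ℝ) 1,
      S.indicator (fun z => ENNReal.ofReal ‖fderiv ℝ g z‖) ((1 - t) • x + t • y) := by
  have hmem : ∀ t ∈ Set.Icc (0 : ℝ) 1, (1 - t) • x + t • y ∈ S := fun t ht =>
    hS hx hy (by linarith [ht.2]) ht.1 (by ring)
  have hl : ContDiff ℝ 1 fun t : ℝ => (1 - t) • x + t • y := by fun_prop
  have h1 := enorm_sub_le_lintegral_deriv_of_contDiffOn_Icc
    (hg.comp hl.contDiffOn fun t ht => hSU (hmem t ht)) zero_le_one
  simp only [Function.comp_apply, sub_self, zero_smul, one_smul, zero_add, sub_zero,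
    add_zero] at h1
  refine (Real.ofReal_le_enorm _).trans (h1.trans ?_)
  rw [← lintegral_const_mul' _ _ (by norm_num)]
  refine setLIntegral_mono' measurableSet_Icc fun t ht => ?_
  have h2 : HasDerivAt (fun t : ℝ => (1 - t) • x + t • y) (y - x) t := by
    have := (((hasDerivAt_id t).const_sub 1).smul_const x).add ((hasDerivAt_id t).smul_const y)
    rw [one_smul, neg_one_smul, neg_add_eq_sub] at this
    exact this
  have h3 := ((hg.contDiffAt (hU.mem_nhds (hSU (hmem t ht)))).differentiableAt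
    one_ne_zero).hasFDerivAt.comp_hasDerivAt t h2
  rw [h3.deriv, Set.indicator_of_mem (hmem t ht), ← ofReal_norm, ← ENNReal.ofReal_ofNat 8,
    ← ENNReal.ofReal_mul (by norm_num), mul_comm]
  refine ENNReal.ofReal_le_ofReal ((ContinuousLinearMap.le_opNorm _ _).trans ?_)
  gcongr
  linarith [norm_sub_le y x, hb x hx, hb y hy]

theorem poincare (n : ℕ) : ∃ C : ℝ, 0 < C ∧ ∀ (S U : Set (E n)) (g : E n → ℝ),
    IsOpen U → S ⊆ U → Convex ℝ S → MeasurableSet S → (∀ x ∈ S, ‖x‖ ≤ 4) →
    ContDiffOn ℝ 1 g U → ∀ (A B : Set (E n)) (α β : ℝ), MeasurableSet A → MeasurableSet B →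
    A ⊆ S → B ⊆ S → (∀ x ∈ A, g x ≤ α) → (∀ x ∈ B, β ≤ g x) →
    ENNReal.ofReal (β - α) * volume A * volume B
      ≤ ENNReal.ofReal C * ∫⁻ x in S, ENNReal.ofReal ‖fderiv ℝ g x‖ := by
  set V := volume (Metric.closedBall (0 : E n) 4) with hV
  have hV' : V ≠ ⊤ := measure_closedBall_lt_top.ne
  refine ⟨8 * 2 ^ n * (V.toReal + 1), by positivity,
    fun S U g hU hSU hS hSm hb hg A B α β hA hB hAS hBS hα hβ => ?_⟩
  set F : E n → ℝ≥0∞ := S.indicator fun z => ENNReal.ofReal ‖fderiv ℝ g z‖ with hFdef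
  have hF : Measurable F := ((measurable_fderiv ℝ g).norm.ennreal_ofReal).indicator hSm
  have hvol : ∀ T ⊆ S, volume T ≤ V := fun T hT =>
    measure_mono fun x hx => mem_closedBall_zero_iff.2 (hb x (hT hx))
  have hG : Measurable fun q : (E n × E n) × ℝ => F ((1 - q.2) • q.1.1 + q.2 • q.1.2) :=
    hF.comp (by fun_prop)
  have h1 : ∀ t : ℝ, ∫⁻ p : E n × E n, F ((1 - t) • p.1 + t • p.2)
      ∂((volume.restrict A).prod (volume.restrict B)) ≤ 2 ^ n * (∫⁻ y, F y) * V := by
    intro t
    have hGt : Measurable fun p : E n × E n => F ((1 - t) • p.1 + t • p.2) :=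
      hF.comp (by fun_prop)
    rcases le_total (1 / 2) t with ht | ht
    · rw [lintegral_prod _ hGt.aemeasurable]
      refine (lintegral_mono fun x => (setLIntegral_le_lintegral _ _).trans
        (poinc_scale hF ((1 - t) • x) ht)).trans ?_
      rw [setLIntegral_const]
      gcongr
      exact hvol A hAS
    · rw [lintegral_prod_symm _ hGt.aemeasurable]
      simp only [add_comm ((1 - t) • _)]
      refine (lintegral_mono fun y => (setLIntegral_le_lintegral _ _).trans
        (poinc_scale hF (t • y) (t := 1 - t) (by linarith))).trans ?_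
      rw [setLIntegral_const]
      gcongr
      exact hvol B hBS
  calc ENNReal.ofReal (β - α) * volume A * volume B
      = ∫⁻ _ : E n × E n, ENNReal.ofReal (β - α)
          ∂((volume.restrict A).prod (volume.restrict B)) := by
        rw [Measure.prod_restrict, setLIntegral_const, Measure.prod_prod, mul_assoc]
    _ ≤ ∫⁻ p : E n × E n, 8 * ∫⁻ t in Set.Icc (0 : ℝ) 1, F ((1 - t) • p.1 + t • p.2)
          ∂volume ∂((volume.restrict A).prod (volume.restrict B)) := by
        rw [Measure.prod_restrict]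
        refine setLIntegral_mono' (hA.prod hB) fun p hp => ?_
        refine le_trans (ENNReal.ofReal_le_ofReal ?_)
          (poinc_segment hU hSU hS hb hg (hAS hp.1) (hBS hp.2))
        linarith [hα _ hp.1, hβ _ hp.2]
    _ = 8 * ∫⁻ t in Set.Icc (0 : ℝ) 1, ∫⁻ p : E n × E n, F ((1 - t) • p.1 + t • p.2)
          ∂((volume.restrict A).prod (volume.restrict B)) := by
        rw [lintegral_const_mul' _ _ (by norm_num), lintegral_lintegral_swap hG.aemeasurable]
    _ ≤ 8 * (2 ^ n * (∫⁻ y, F y) * V) := by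
        gcongr
        refine (lintegral_mono h1).trans ?_
        rw [setLIntegral_const, Real.volume_Icc, sub_zero, ENNReal.ofReal_one, mul_one]
    _ ≤ _ := by
        rw [hFdef, lintegral_indicator hSm, ENNReal.ofReal_mul (by positivity),
          ENNReal.ofReal_mul (by positivity), ENNReal.ofReal_pow (by positivity),
          ENNReal.ofReal_ofNat, ENNReal.ofReal_ofNat, mul_right_comm, ← mul_assoc, ← mul_assoc]
        gcongr
        rw [ENNReal.ofReal_add ENNReal.toReal_nonneg zero_le_one, ENNReal.ofReal_toReal hV']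
        exact le_self_add

end Crest.Agent.R236
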