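import Crest.Agent.R236.TW

/-!
# Row 236: Trudinger-Wang determinant bounds on nice sections (maximum principle)

`grad_le`: from `Nice.ball` and `support_le`, `‖∇u‖ ≤ 1/(2γ₁)` on `{u ≤ 3}`.

Upper bound for `det` (lower bound for `rho`). On `{u < 3}` minimise
`f = log rho - log t - A Q`, `t = 3 - u`, `Q = ‖∇u‖²/2 = Σ u_k²/2` (the set `{u ≤ 3}` is compact by
`isCompact_preimage`; maximise `t e^{AQ}/rho` on it, it vanishes where `u = 3`). With `s = d log rho`: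
`Dv d log rho = -|s|²`; `Dv (d u_k) = -2 ⟨s, d u_k⟩` (from `ν_k = -rho u_k` harmonic, or `Dv_dd`),
`Σ_k |d u_k|² = tr(D²u) / rho =: τ ≥ n det^{1/n} / rho`, `|dQ|² ≤ 2 Q τ`,
`Dv dt = n ⟨s, dt⟩ - n / rho`. At the minimum `s = d log t + A dQ` and
`0 ≤ Dv df ≤ -(n-1)|s|² + (n+2) A |s| |dQ| + 2A² |dQ|² - A τ + n / (rho t)`; for `A` small (depending
on `γ₁`) this gives `t det^{1/n} ≤ C`.

Lower bound for `det`. Fix `x` with `u x ≤ 2`, let `γ = γ₂ γ₁`, `P = (x, u x - γ)`,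
`ĥ(z) = -hP P z = γ - (u x - u z - ∇u(z)(x - z))`; on the sphere `‖z - x‖ = γ₁` we have `ĥ ≤ -γ < 0`
by `Nice.strict` and `support_le`; `ĥ ≤ γ`, `ĥ(x) = γ`. With `G = -Lam P = rho ĥ` (`Dv dG = -n`)
maximise `f = 2 log G - log rho + A q`, `q = ‖z - x‖²/2 = Σ (z_k - x_k)²/2`, over
`{ĥ > 0} ∩ closedBall x γ₁` (maximise `rho (ĥ⁺)² e^{Aq}`). `Dv d z_k = n ⟨s, d z_k⟩`,
`Σ |d z_k|² = tr((D²u)⁻¹)/rho ≥ n det^{-1/n}/rho = n rho^{2/n}`. At the maximum
`2 d log G = s - A dq` and `0 ≥ -2n/G + |s|²/2 - C A |s||dq| - A²|dq|²/2 + A τ'`, so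
`rho^{2/n} G ≤ C`, hence `rho ĥ² ≤ C` at the maximum point (`ĥ ≤ γ`, and `γ` is a fixed constant).
AM-GM for the trace of a positive definite matrix: via `IsHermitian.eigenvalues` and
`inner_le_nnorm_mul_nnorm`/`Real.geom_mean_le_arith_mean`.
-/

set_option autoImplicit false
open scoped ContDiff RealInnerProductSpace ENNReal Topology
open Crest.GeometryTopology.CoordMetric Crest.GeometryTopology.AffineMaximal MeasureTheory

noncomputable section

namespace Crest.Agent.R236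

variable {n : ℕ}

lemma twl_B (M : AM n) {y : E n} (hy : y ∈ M.Ω) (α β : Fin n → ℝ) :
    ∑ i, ∑ j, M.Hi y i j * α i * β j = M.rho y * M.ip y α β := by
  have := (M.rho_pos hy).ne'
  unfold AM.ip
  field_simp

lemma twl_dd_log {g : E n → ℝ} {y : E n} (hg : ContDiffAt ℝ 2 g y) (hpos : 0 < g y) :
    dd (fun z => Real.log (g z)) y = (g y)⁻¹ • dd g y :=
  dd_comp (hg.differentiableAt (by simp)) (Real.hasDerivAt_log hpos.ne')

lemma twl_Lop_log (M : AM n) {g : E n → ℝ} {y : E n} (hy : y ∈ M.Ω) (hg : ContDiffAt ℝ 2 g y)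
    (hpos : 0 < g y) :
    M.Lop (fun z => Real.log (g z)) y
      = (g y)⁻¹ * M.Lop g y - M.rho y * M.ip y ((g y)⁻¹ • dd g y) ((g y)⁻¹ • dd g y) := by
  have h := M.Lop_comp (F := Real.log) (F' := fun t => t⁻¹) (F'' := -((g y) ^ 2)⁻¹) hg
    ((lt_mem_nhds hpos).mono fun t ht => Real.hasDerivAt_log ht.ne')
    (hasDerivAt_inv hpos.ne')
  rw [h, twl_B M hy, M.ip_smul_left, M.ip_smul_right]
  field_simp
  ring

lemma twl_Lop_eq (M : AM n) {g : E n → ℝ} {y : E n} (hy : y ∈ M.Ω) (hg : ContDiffAt ℝ 2 g y) :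
    M.Lop g y = M.rho y * M.Dv (dd g) y - n * M.ip y (dd M.rho y) (dd g y) := by
  have := (M.rho_pos hy).ne'
  rw [M.Dv_dd hy hg]
  field_simp
  ring

/-- `‖z - x‖² / 2` in coordinates -/
def twlq (x : E n) (z : E n) : ℝ := ∑ k, (1 / 2 : ℝ) * ((z k - x k) * (z k - x k))

lemma twl_contDiff_q (x : E n) : ContDiff ℝ ∞ (twlq x) := by
  unfold twlq
  fun_prop

lemma twl_q_eq (x z : E n) : twlq x z = ‖z - x‖ ^ 2 / 2 := by
  rw [EuclideanSpace.norm_sq_eq, twlq, Finset.sum_div]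
  refine Finset.sum_congr rfl fun k _ => ?_
  simp only [PiLp.sub_apply, Real.norm_eq_abs, sq_abs]
  ring

lemma twl_dd_coord (x z : E n) (k : Fin n) :
    dd (fun w : E n => w k - x k) z = fun i => if k = i then 1 else 0 := by
  rw [dd_sub (coreB_diff_coord k z) (differentiableAt_const _), dd_const, sub_zero]
  funext i
  exact coreB_pderiv_coord i k z

lemma twl_dd_q (x z : E n) : dd (twlq x) z = fun i => z i - x i := by
  have d : ∀ k, DifferentiableAt ℝ (fun w : E n => w k - x k) z := fun k =>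
    (coreB_diff_coord k z).fun_sub (differentiableAt_const _)
  have e : twlq x = fun w => ∑ k, (1 / 2 : ℝ) * ((w k - x k) * (w k - x k)) := rfl
  rw [e, dd_sum _ fun k _ => ((d k).fun_mul (d k)).const_mul _]
  funext i
  rw [Finset.sum_apply]
  have h : ∀ k, dd (fun w : E n => (1 / 2 : ℝ) * ((w k - x k) * (w k - x k))) z i
      = if k = i then z k - x k else 0 := by
    intro k
    rw [dd_const_mul _ ((d k).fun_mul (d k)), dd_mul (d k) (d k), twl_dd_coord]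
    simp only [Pi.smul_apply, Pi.add_apply, smul_eq_mul]
    split_ifs <;> ring
  simp only [h, Finset.sum_ite_eq', Finset.mem_univ, if_true]

lemma twl_Lop_q (M : AM n) (x y : E n) : M.Lop (twlq x) y = (M.Hi y).trace := by
  have h1 : dd (twlq x) =ᶠ[𝓝 y] fun z i => z i - x i :=
    Filter.Eventually.of_forall fun z => twl_dd_q x z
  unfold AM.Lop
  simp only [AM.coreA_hess_congr h1, twl_dd_coord, mul_ite, mul_one, mul_zero, Finset.sum_ite_eq',
    Finset.mem_univ, if_true]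
  rfl

lemma twl_hP (M : AM n) (x z : E n) (γ : ℝ) :
    -M.hP (mkA x (M.u x - γ)) z = γ - (M.u x - (M.u z + ⟪M.grad z, x - z⟫)) := by
  unfold AM.hP AM.N AM.X
  rw [inner_A]
  simp only [base_mkA, base_sub, ht_mkA, ht_sub, inner_neg_left]
  ring

/-- the inequality at the maximum point -/
lemma twl_max (M : AM n) (P : A n) (x : E n) {y : E n} (hy : y ∈ M.Ω) {a r : ℝ} (ha : 0 < a)
    (har : (((n : ℝ) + 1) ^ 2 + 1) * r ^ 2 * a ≤ 1) (hyr : ‖y - x‖ ≤ r) (hpos : 0 < -M.hP P y)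
    (hm : IsLocalMax (fun z => M.rho z * (max (-M.hP P z) 0) ^ 2 * Real.exp (a * twlq x z)) y) :
    a * (M.Hi y).trace * (-M.hP P y) ≤ 4 * n := by
  have hρ := M.rho_pos hy
  set G : E n → ℝ := fun z => (-1 : ℝ) * M.Lam P z with hG
  have hGe : ∀ z, G z = M.rho z * (-M.hP P z) := fun z => by
    rw [hG]; simp only [M.Lam_eq]; ring
  have hL2 : ContDiffAt ℝ 2 (M.Lam P) y := M.coreB_cd (M.contDiffOn_Lam P) hy
  have hG2 : ContDiffAt ℝ 2 G y := contDiffAt_const.mul hL2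
  have hr2 : ContDiffAt ℝ 2 M.rho y := M.coreB_cd M.contDiffOn_rho hy
  have hq2 : ContDiffAt ℝ 2 (twlq x) y := M.coreB_cd (twl_contDiff_q x).contDiffOn hy
  have hGpos : 0 < G y := by rw [hGe]; exact mul_pos hρ hpos
  have hlG : ContDiffAt ℝ 2 (fun z => Real.log (G z)) y := hG2.log hGpos.ne'
  have hlr : ContDiffAt ℝ 2 (fun z => Real.log (M.rho z)) y := hr2.log hρ.ne'
  have c1 : ContDiffAt ℝ 2 (fun z => 2 * Real.log (G z)) y := contDiffAt_const.mul hlG
  have c2 : ContDiffAt ℝ 2 (fun z => (-1 : ℝ) * Real.log (M.rho z)) y := contDiffAt_const.mul hlr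
  have c3 : ContDiffAt ℝ 2 (fun z => a * twlq x z) y := contDiffAt_const.mul hq2
  have hf : ContDiffAt ℝ 2
      (fun z => (2 * Real.log (G z) + (-1 : ℝ) * Real.log (M.rho z)) + a * twlq x z) y :=
    (c1.add c2).add c3
  have hev : ∀ᶠ z in 𝓝 y, 0 < -M.hP P z :=
    (M.coreB_d (M.contDiffOn_hP P) hy).continuousAt.neg.eventually (lt_mem_nhds hpos)
  have key : ∀ z ∈ M.Ω, 0 < -M.hP P z →
      0 < M.rho z * (max (-M.hP P z) 0) ^ 2 * Real.exp (a * twlq x z) ∧
      (2 * Real.log (G z) + (-1 : ℝ) * Real.log (M.rho z)) + a * twlq x z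
        = Real.log (M.rho z * (max (-M.hP P z) 0) ^ 2 * Real.exp (a * twlq x z)) := by
    intro z hz hp
    have hrz := M.rho_pos hz
    rw [max_eq_left hp.le]
    refine ⟨by positivity, ?_⟩
    rw [hGe, Real.log_mul hrz.ne' hp.ne', Real.log_mul (by positivity) (Real.exp_pos _).ne',
      Real.log_mul hrz.ne' (by positivity), Real.log_exp, Real.log_pow]
    push_cast
    ring
  have hfm : IsLocalMax
      (fun z => (2 * Real.log (G z) + (-1 : ℝ) * Real.log (M.rho z)) + a * twlq x z) y := by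
    filter_upwards [hm, hev, M.coreB_ev hy] with z h1 h2 h3
    obtain ⟨p1, e1⟩ := key z h3 h2
    obtain ⟨p2, e2⟩ := key y hy hpos
    rw [e1, e2]
    exact Real.log_le_log p1 h1
  obtain ⟨hd, hL⟩ := M.Lop_nonpos_of_isLocalMax hy hf hfm
  have dA : ∀ {g : E n → ℝ}, ContDiffAt ℝ 2 g y → DifferentiableAt ℝ g y := fun h =>
    h.differentiableAt (by simp)
  rw [dd_add (dA (c1.add c2)) (dA c3), dd_add (dA c1) (dA c2), dd_const_mul _ (dA hlG),
    dd_const_mul _ (dA hlr), dd_const_mul _ (dA hq2), twl_dd_log hG2 hGpos,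
    twl_dd_log hr2 hρ] at hd
  rw [M.Lop_add (c1.add c2) c3, M.Lop_add c1 c2, M.Lop_const_mul _ hlG, M.Lop_const_mul _ hlr,
    M.Lop_const_mul _ hq2, twl_Lop_log M hy hG2 hGpos, twl_Lop_log M hy hr2 hρ, twl_Lop_q,
    twl_Lop_eq M hy hG2, twl_Lop_eq M hy hr2, M.Dv_dd_rho hy] at hL
  have hDG : M.Dv (dd G) y = -n := by
    have h1 : dd G =ᶠ[𝓝 y] fun z => (-1 : ℝ) • dd (M.Lam P) z := by
      filter_upwards [M.coreB_ev hy] with z hz
      exact dd_const_mul _ (M.coreB_d (M.contDiffOn_Lam P) hz)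
    rw [M.Dv_congr h1, M.Dv_const_smul _ hy (diff1_dd hL2), M.Dv_dd_Lam P hy]
    ring
  rw [hDG] at hL
  set s : Fin n → ℝ := (M.rho y)⁻¹ • dd M.rho y with hs
  set g : Fin n → ℝ := (G y)⁻¹ • dd G y with hg
  set p : Fin n → ℝ := dd (twlq x) y with hp
  have e1 : dd M.rho y = M.rho y • s := by
    rw [hs, smul_smul, mul_inv_cancel₀ hρ.ne', one_smul]
  have e2 : dd G y = G y • g := by
    rw [hg, smul_smul, mul_inv_cancel₀ hGpos.ne', one_smul]
  have e3 : g = (1 / 2 : ℝ) • (s - a • p) := by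
    funext i
    have := congrFun hd i
    simp only [Pi.add_apply, Pi.smul_apply, Pi.sub_apply, smul_eq_mul, Pi.zero_apply] at this ⊢
    linarith
  clear_value s g
  rw [e1, e2, e3] at hL
  have h0 := M.ip_self_nonneg hy (s + (((n : ℝ) + 1) * a) • p)
  simp only [M.ip_smul_left, M.ip_smul_right, M.ip_sub_left, M.ip_sub_right, M.ip_add_left,
    M.ip_add_right, M.ip_comm hy p s] at hL h0
  have hT : M.rho y * M.ip y p p ≤ r ^ 2 * (M.Hi y).trace := by
    rw [← twl_B M hy]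
    refine (quad_le_trace (M.Hi_posDef hy).posSemidef p).trans ?_
    refine mul_le_mul_of_nonneg_right ?_ (M.Hi_posDef hy).posSemidef.trace_nonneg
    have : ∑ i, p i ^ 2 = ‖y - x‖ ^ 2 := by
      rw [EuclideanSpace.norm_sq_eq, hp, twl_dd_q]
      simp
    rw [this]
    exact pow_le_pow_left₀ (norm_nonneg _) hyr 2
  have hT0 : 0 ≤ (M.Hi y).trace := (M.Hi_posDef hy).posSemidef.trace_nonneg
  rw [hGe] at hL
  generalize M.ip y s s = ss at *
  generalize M.ip y s p = sp at *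
  generalize M.ip y p p = pp at *
  generalize (M.Hi y).trace = T at *
  generalize M.rho y = ρ at *
  generalize -M.hP P y = h at *
  have hL' : a * T ≤ 2 * n / h - ρ * (ss / 2 + (n + 1) * a * sp - a ^ 2 * pp / 2) := by
    have : 2 * ((ρ * h)⁻¹ * (ρ * -(n : ℝ) - n * (ρ * (ρ * h * (1 / 2 * (ss - a * sp))))) -
        ρ * (1 / 2 * (1 / 2 * (ss - a * sp - (a * sp - a * (a * pp)))))) +
        -1 * (ρ⁻¹ * (ρ * 0 - n * (ρ * (ρ * ss))) - ρ * ss) + a * T
        = a * T - (2 * n / h - ρ * (ss / 2 + (n + 1) * a * sp - a ^ 2 * pp / 2)) := by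
      field_simp
      ring
    linarith
  have h1 : -(ρ * (ss / 2 + (n + 1) * a * sp - a ^ 2 * pp / 2))
      ≤ (((n : ℝ) + 1) ^ 2 + 1) * a ^ 2 / 2 * (ρ * pp) := by
    nlinarith [mul_nonneg hρ.le h0]
  have h2 : (((n : ℝ) + 1) ^ 2 + 1) * a ^ 2 / 2 * (ρ * pp) ≤ a * T / 2 := by
    calc _ ≤ (((n : ℝ) + 1) ^ 2 + 1) * a ^ 2 / 2 * (r ^ 2 * T) :=
          mul_le_mul_of_nonneg_left hT (by positivity)
      _ = ((((n : ℝ) + 1) ^ 2 + 1) * r ^ 2 * a) * (a * T / 2) := by ring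
      _ ≤ 1 * (a * T / 2) := mul_le_mul_of_nonneg_right har (by positivity)
      _ = _ := one_mul _
  have h3 : a * T / 2 ≤ 2 * n / h := by linarith
  rw [le_div_iff₀ hpos] at h3
  linarith

theorem det_lower (n : ℕ) (hn : 2 ≤ n) {γ₁ : ℝ} (hγ : 0 < γ₁) {γ₂ : ℝ → ℝ}
    (hγ₂ : ∀ c, 0 < c → 0 < γ₂ c) : ∃ c : ℝ, 0 < c ∧
    ∀ M : AM n, Nice M γ₁ γ₂ → ∀ x ∈ M.Ω, M.u x ≤ 2 → c ≤ M.det x := by
  set γ := γ₂ γ₁ with hγdef
  have hγ0 : 0 < γ := hγ₂ γ₁ hγ
  set a : ℝ := 1 / ((((n : ℝ) + 1) ^ 2 + 1) * γ₁ ^ 2) with ha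
  have ha0 : 0 < a := by positivity
  have har : (((n : ℝ) + 1) ^ 2 + 1) * γ₁ ^ 2 * a ≤ 1 := by
    rw [ha, mul_one_div_cancel (by positivity)]
  set C : ℝ := (4 / a) ^ n * γ ^ (n + 4) * Real.exp (a * (γ₁ ^ 2 / 2)) ^ (n + 2) with hC
  have hC0 : 0 < C := by positivity
  refine ⟨(γ ^ 2) ^ (n + 2) / C, by positivity, fun M hM x hx hux => ?_⟩
  have hn0 : (0 : ℝ) < n := by exact_mod_cast (by omega : 0 < n)
  set P : A n := mkA x (M.u x - γ) with hP
  have hball : ∀ z ∈ Metric.closedBall x γ₁, z ∈ M.Ω ∧ M.u z ≤ 4 := by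
    intro z hz
    have := hM.ball x hx (by linarith) (z - x) (by rwa [Metric.mem_closedBall, dist_eq_norm] at hz)
    rw [add_sub_cancel] at this
    exact ⟨this.1, by linarith [this.2]⟩
  have hsub : Metric.closedBall x γ₁ ⊆ M.Ω := fun z hz => (hball z hz).1
  have hle : ∀ z ∈ M.Ω, -M.hP P z ≤ γ := by
    intro z hz
    rw [hP, twl_hP]
    linarith [M.support_le hz hx]
  have hsph : ∀ z ∈ Metric.closedBall x γ₁, γ₁ ≤ ‖z - x‖ → -M.hP P z ≤ -γ := by
    intro z hz hr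
    obtain ⟨hzΩ, hz4⟩ := hball z hz
    have h1 := hM.strict γ₁ hγ z hzΩ x hx hz4 (by linarith) hr
    have hm : (1 / 2 : ℝ) • (z + x) ∈ M.Ω := by
      have := M.convex hzΩ hx (a := 1 / 2) (b := 1 / 2) (by norm_num) (by norm_num) (by norm_num)
      rwa [← smul_add] at this
    have h2 := M.support_le hzΩ hm
    have e : (1 / 2 : ℝ) • (z + x) - z = (1 / 2 : ℝ) • (x - z) := by module
    rw [e, inner_smul_right] at h2
    rw [hP, twl_hP]
    simp only [← hγdef] at h1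
    linarith
  have hxx : -M.hP P x = γ := by
    rw [hP, twl_hP]
    simp
  set Φ : E n → ℝ := fun z => M.rho z * (max (-M.hP P z) 0) ^ 2 * Real.exp (a * twlq x z) with hΦ
  have hΦc : ContinuousOn Φ (Metric.closedBall x γ₁) := by
    refine ContinuousOn.mono ?_ hsub
    have c1 := M.contDiffOn_rho.continuousOn
    have c2 := (M.contDiffOn_hP P).continuousOn
    have c3 := (twl_contDiff_q x).continuous
    exact (c1.mul ((c2.neg.sup continuousOn_const).pow 2)).mul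
      (Real.continuous_exp.comp (continuous_const.mul c3)).continuousOn
  obtain ⟨y, hyB, hymax⟩ := (isCompact_closedBall x γ₁).exists_isMaxOn
    ⟨x, Metric.mem_closedBall_self hγ.le⟩ hΦc
  have hy : y ∈ M.Ω := hsub hyB
  have hρx := M.rho_pos hx
  have hρy := M.rho_pos hy
  have hΦx : Φ x = M.rho x * γ ^ 2 := by
    simp only [hΦ, hxx, max_eq_left hγ0.le, twl_q_eq, sub_self, norm_zero]
    simp
  have hxy : M.rho x * γ ^ 2 ≤ Φ y := hΦx ▸ hymax (Metric.mem_closedBall_self hγ.le)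
  have hpos : 0 < -M.hP P y := by
    by_contra hneg
    push Not at hneg
    have : Φ y = 0 := by simp only [hΦ, max_eq_right hneg]; simp
    have : 0 < M.rho x * γ ^ 2 := by positivity
    linarith
  have hyr : ‖y - x‖ ≤ γ₁ := by rwa [Metric.mem_closedBall, dist_eq_norm] at hyB
  have hylt : ‖y - x‖ < γ₁ := by
    by_contra hge
    push Not at hge
    linarith [hsph y hyB hge]
  have hloc : IsLocalMax Φ y := hymax.isLocalMax
    (Metric.closedBall_mem_nhds_of_mem (by rwa [Metric.mem_ball, dist_eq_norm]))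
  have hk := twl_max M P x hy ha0 har hyr hpos hloc
  have hdet : (M.Hi y).det = M.rho y ^ (n + 2) := by
    have h1 := M.det_mul_rho_pow hy
    have h2 := congrArg Matrix.det (M.Hi_mul_H hy)
    rw [Matrix.det_mul, Matrix.det_one] at h2
    have h3 : (M.H y).det = M.det y := rfl
    rw [h3] at h2
    have h4 := (M.det_pos hy).ne'
    apply mul_right_cancel₀ h4
    rw [h2, mul_comm, h1]
  have hAM := det_le_trace_pow (by omega) (M.Hi_posDef hy).posSemidef
  rw [hdet] at hAM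
  have hT0 : 0 ≤ (M.Hi y).trace := (M.Hi_posDef hy).posSemidef.trace_nonneg
  have hhγ := hle y hy
  have hΦy : Φ y ≤ M.rho y * (-M.hP P y) ^ 2 * Real.exp (a * (γ₁ ^ 2 / 2)) := by
    simp only [hΦ, max_eq_left hpos.le, twl_q_eq]
    gcongr
  generalize -M.hP P y = h at *
  have h5 : (M.Hi y).trace / n * h ≤ 4 / a := by
    rw [le_div_iff₀ ha0, div_mul_eq_mul_div, div_mul_eq_mul_div, div_le_iff₀ hn0]
    linarith
  have h6 : M.rho y ^ (n + 2) * h ^ n ≤ (4 / a) ^ n := by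
    calc _ ≤ ((M.Hi y).trace / n) ^ n * h ^ n := by gcongr
      _ = ((M.Hi y).trace / n * h) ^ n := (mul_pow _ _ _).symm
      _ ≤ _ := by gcongr
  have h7 : (M.rho x * γ ^ 2) ^ (n + 2) ≤ C := by
    calc _ ≤ (M.rho y * h ^ 2 * Real.exp (a * (γ₁ ^ 2 / 2))) ^ (n + 2) :=
          pow_le_pow_left₀ (by positivity) (hxy.trans hΦy) _
      _ = (M.rho y ^ (n + 2) * h ^ n) * h ^ (n + 4) * Real.exp (a * (γ₁ ^ 2 / 2)) ^ (n + 2) := by
          rw [mul_pow, mul_pow, ← pow_mul]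
          ring
      _ ≤ C := by rw [hC]; gcongr
  rw [div_le_iff₀ hC0]
  have h8 := M.det_mul_rho_pow hx
  calc (γ ^ 2) ^ (n + 2) = M.det x * (M.rho x * γ ^ 2) ^ (n + 2) := by
        rw [mul_pow, ← mul_assoc, h8, one_mul]
    _ ≤ M.det x * C := mul_le_mul_of_nonneg_left h7 (M.det_pos hx).le

end Crest.Agent.R236
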