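import Crest.Agent.R236.TW

/-!
# Row 236: Trudinger-Wang determinant bounds on nice sections (maximum principle)

`grad_le`: from `Nice.ball` and `support_le`, `‖∇u‖ ≤ 1/(2γ₁)` on `{u ≤ 3}`.

Upper bound for `det` (lower bound for `rho`). On `{u < 3}` minimise
`f = log rho - log t - A Q`, `t = 3 - u`, `Q = ‖∇u‖²/2 = Σ u_k²/2` (the set `{u ≤ 3}` is compact by
`isCompact_preimage`; maximise `t e^{AQ}/rho` on it, it vanishes where `u = 3`). With `s = d log rho`:
`Dv d log rho = -|s|²`; `Dv (d u_k) = -2 ⟨s, d u_k⟩` (from `ν_k = -rho u_k` harmonic, or `Dv_dd`),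
`Σ_k |d u_k|² = tr(D²u) / rho =: τ ≥ n det^{1/n} / rho`, `|dQ|² ≤ 2 Q τ`,
`Dv dt = n ⟨s, dt⟩ - n / rho`. At the minimum `s = d log t + A dQ` and
`0 ≤ Dv df ≤ -(n-1)|s|² + (n+2) A |s| |dQ| + 2A² |dQ|² - A τ + n / (rho t)`; for `A` small (depending
on `γ₁`) this gives `t det^{1/n} ≤ C`.

Lower bound for `det`. Fix `x` with `u x ≤ 2`, let `γ = γ₂ γ₁`, `P = (x, u x - γ)`,
`ĥ(z) = -hP P z = γ - (u x - u z - ∇u(z)(x - z))`; on the sphere `‖z - x‖ = γ₁` we have `ĥ ≤ -γ < 0`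
by `Nice.strict` and `support_le`; `ĥ ≤ γ`, `ĥ(x) = γ`. With `G = -Lam P = rho ĥ` (`Dv dG = -n`)
maximise `f = 2 log G - log rho + A q`, `q = ‖z - x‖²/2 = Σ (z_k - x_k)²/2`, over
`{ĥ > 0} ∩ closedBall x γ₁` (maximise `rho (ĥ⁺)² e^{Aq}`). `Dv d z_k = n ⟨s, d z_k⟩`,
`Σ |d z_k|² = tr((D²u)⁻¹)/rho ≥ n det^{-1/n}/rho = n rho^{2/n}`. At the maximum
`2 d log G = s - A dq` and `0 ≥ -2n/G + |s|²/2 - C A |s||dq| - A²|dq|²/2 + A τ'`, so
`rho^{2/n} G ≤ C`, hence `rho ĥ² ≤ C` at the maximum point (`ĥ ≤ γ`, and `γ` is a fixed constant).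
AM-GM for the trace of a positive definite matrix: via `IsHermitian.eigenvalues` and
`inner_le_nnorm_mul_nnorm`/`Real.geom_mean_le_arith_mean`.
-/

set_option autoImplicit false
open scoped ContDiff RealInnerProductSpace ENNReal Topology
open Crest.GeometryTopology.CoordMetric Crest.GeometryTopology.AffineMaximal MeasureTheory

noncomputable section

namespace Crest.Agent.R236

variable {n : ℕ}

namespace AM

variable (M : AM n)

lemma twUp_Lop_sum {ι : Type*} (s : Finset ι) {f : ι → E n → ℝ} {x : E n}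
    (hf : ∀ a ∈ s, ContDiffAt ℝ 2 (f a) x) :
    M.Lop (fun z => ∑ a ∈ s, f a z) x = ∑ a ∈ s, M.Lop (f a) x := by
  classical
  induction s using Finset.induction_on with
  | empty => simpa using M.Lop_const 0 x
  | insert a s ha ih =>
    simp only [Finset.sum_insert ha]
    rw [M.Lop_add (hf a (Finset.mem_insert_self _ _))
      (ContDiffAt.sum fun b hb => hf b (Finset.mem_insert_of_mem hb)),
      ih fun b hb => hf b (Finset.mem_insert_of_mem hb)]

/-- `log det D²u` -/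
def twUpPsi (z : E n) : ℝ := Real.log (M.det z)
/-- `‖∇u‖²` -/
def twUpQ (z : E n) : ℝ := ∑ k, pderiv k M.u z ^ 2

lemma twUp_psi_smooth : ContDiffOn ℝ ∞ M.twUpPsi M.Ω :=
  M.contDiffOn_det.log fun _ hz => (M.det_pos hz).ne'

lemma twUp_Q_smooth : ContDiffOn ℝ ∞ M.twUpQ M.Ω :=
  ContDiffOn.sum fun k _ => (contDiffOn_pderiv M.isOpen M.smooth k).pow 2

lemma twUp_Q_eq (z : E n) : M.twUpQ z = ‖M.grad z‖ ^ 2 := by
  rw [EuclideanSpace.real_norm_sq_eq]
  rfl

lemma twUp_Lop_psi {x : E n} (hx : x ∈ M.Ω) :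
    M.Lop M.twUpPsi x = ((n : ℝ) + 1) / ((n : ℝ) + 2) *
      ∑ i, ∑ j, M.Hi x i j * dd M.twUpPsi x i * dd M.twUpPsi x j := by
  have h1 := M.Lop_detPower hx
  set c : ℝ := -((n : ℝ) + 1) / ((n : ℝ) + 2) with hc
  have hd : ∀ t : ℝ, HasDerivAt (fun s : ℝ => Real.exp (s * c)) (Real.exp (t * c) * c) t :=
    fun t => by simpa using ((hasDerivAt_id t).mul_const c).exp
  rw [M.Lop_congr (f := detPower n M.u) (g := fun z => Real.exp (M.twUpPsi z * c))
      ((M.coreB_ev hx).mono fun z hz => Real.rpow_def_of_pos (M.det_pos hz) _),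
    M.Lop_comp (F := fun s => Real.exp (s * c)) (F' := fun t => Real.exp (t * c) * c)
      (M.coreB_cd M.twUp_psi_smooth hx) (Filter.Eventually.of_forall hd)
      ((hd _).mul_const c)] at h1
  have hc0 : c ≠ 0 := by
    rw [hc]
    exact div_ne_zero (neg_ne_zero.2 (by positivity)) (by positivity)
  have he := Real.exp_pos (M.twUpPsi x * c)
  set S := ∑ i, ∑ j, M.Hi x i j * dd M.twUpPsi x i * dd M.twUpPsi x j
  have h2 : (Real.exp (M.twUpPsi x * c) * c) * (M.Lop M.twUpPsi x + c * S) = 0 := by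
    linear_combination h1
  have h3 := (mul_eq_zero.1 h2).resolve_left (mul_ne_zero he.ne' hc0)
  rw [hc, neg_div] at h3
  linear_combination h3

lemma twUp_Lop_uk {x : E n} (hx : x ∈ M.Ω) (k : Fin n) :
    M.Lop (pderiv k M.u) x = dd M.twUpPsi x k := by
  have h1 : dd M.twUpPsi x = (M.det x)⁻¹ • dd M.det x :=
    dd_comp (M.coreB_d M.contDiffOn_det hx) (Real.hasDerivAt_log (M.det_pos hx).ne')
  rw [h1, Pi.smul_apply, smul_eq_mul, dd, M.pderiv_det hx, ← mul_assoc,
    inv_mul_cancel₀ (M.det_pos hx).ne', one_mul, Lop]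
  refine Finset.sum_congr rfl fun i _ => Finset.sum_congr rfl fun j _ => ?_
  rw [M.pderiv_H_symm hx k i j, M.coreB_H_symm hx i k j]
  rfl

lemma twUp_HiH {x : E n} (hx : x ∈ M.Ω) (α p : Fin n → ℝ) :
    ∑ i, ∑ j, M.Hi x i j * α i * (∑ k, M.H x j k * p k) = ∑ i, α i * p i := by
  refine Finset.sum_congr rfl fun i _ => ?_
  have h := M.coreB_Hi_H hx (β := fun j => ∑ k, M.H x j k * p k) (V := fun k => -p k)
    (fun j => by simp) i
  rw [neg_neg] at h
  rw [← h, Finset.mul_sum]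
  exact Finset.sum_congr rfl fun j _ => by ring

lemma twUp_dd_Q {x : E n} (hx : x ∈ M.Ω) (i : Fin n) :
    dd M.twUpQ x i = 2 * ∑ k, M.H x i k * pderiv k M.u x := by
  have d := fun k => M.coreB_d (contDiffOn_pderiv M.isOpen M.smooth k) hx
  have h : dd M.twUpQ x = ∑ k, dd (fun z => pderiv k M.u z ^ 2) x :=
    dd_sum _ fun k _ => (d k).pow 2
  rw [h, Finset.sum_apply, Finset.mul_sum]
  refine Finset.sum_congr rfl fun k _ => ?_
  rw [dd_comp (F := fun t => t ^ 2) (d k) (hasDerivAt_pow 2 _)]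
  change _ * M.H x i k = _
  simp only [Nat.cast_ofNat, Nat.add_one_sub_one, pow_one]
  ring

lemma twUp_Lop_Q {x : E n} (hx : x ∈ M.Ω) :
    M.Lop M.twUpQ x = 2 * ∑ k, pderiv k M.u x * dd M.twUpPsi x k + 2 * (M.H x).trace := by
  have c := fun k => M.coreB_cd (contDiffOn_pderiv M.isOpen M.smooth k) hx
  have h : M.Lop M.twUpQ x = ∑ k, M.Lop (fun z => pderiv k M.u z ^ 2) x :=
    M.twUp_Lop_sum _ fun k _ => (c k).pow 2
  rw [h, Matrix.trace, Finset.mul_sum, Finset.mul_sum, ← Finset.sum_add_distrib]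
  refine Finset.sum_congr rfl fun k _ => ?_
  rw [M.Lop_comp (F := fun t => t ^ 2) (F' := fun t => 2 * t) (F'' := 2) (c k)
    (Filter.Eventually.of_forall fun t => by simpa using hasDerivAt_pow 2 t)
    (by simpa using (hasDerivAt_id (pderiv k M.u x)).const_mul 2), M.twUp_Lop_uk hx]
  have h2 := M.twUp_HiH hx (fun i => M.H x i k) (Pi.single k 1)
  simp only [Pi.single_apply, mul_ite, mul_one, mul_zero, Finset.sum_ite_eq', Finset.mem_univ,
    if_true] at h2
  change _ + 2 * ∑ i, ∑ j, M.Hi x i j * M.H x i k * M.H x j k = _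
  rw [h2, Matrix.diag_apply]
  ring

/-- the inequality at an interior maximum -/
lemma twUp_at_max {y : E n} (hy : y ∈ M.Ω) (hu : M.u y < 3) {L : ℝ} (hL : 0 < L)
    (hQ : M.twUpQ y ≤ L)
    (hm : IsLocalMax (fun z => M.twUpPsi z + ((n : ℝ) + 2) * Real.log (3 - M.u z) +
      ((n : ℝ) + 2) / (4 * L) * M.twUpQ z) y) :
    (3 - M.u y) * (M.H y).trace ≤ 6 * n * L := by
  have ht : 0 < 3 - M.u y := sub_pos.2 hu
  have cu := M.coreB_cd M.smooth hy
  have cψ := M.coreB_cd M.twUp_psi_smooth hy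
  have cQ := M.coreB_cd M.twUp_Q_smooth hy
  have cl : ContDiffAt ℝ 2 (fun z => Real.log (3 - M.u z)) y :=
    (contDiffAt_const.sub cu).log ht.ne'
  have hd : ∀ s : ℝ, s < 3 → HasDerivAt (fun s : ℝ => Real.log (3 - s)) (-(3 - s)⁻¹) s :=
    fun s hs => by
      simpa [neg_div] using ((hasDerivAt_id s).const_sub 3).log (sub_pos.2 hs).ne'
  have hd' : HasDerivAt (fun s : ℝ => -(3 - s)⁻¹) (-((3 - M.u y)⁻¹) ^ 2) (M.u y) := by
    simpa [neg_div] using (((hasDerivAt_id (M.u y)).const_sub 3).fun_inv ht.ne').fun_neg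
  obtain ⟨h1, h2⟩ := M.Lop_nonpos_of_isLocalMax hy
    ((cψ.add (contDiffAt_const.mul cl)).add (contDiffAt_const.mul cQ)) hm
  have two : (2 : WithTop ℕ∞) ≠ 0 := by norm_num
  rw [dd_add ((cψ.add (contDiffAt_const.mul cl)).differentiableAt two)
      ((contDiffAt_const.mul cQ).differentiableAt two),
    dd_add (cψ.differentiableAt two) ((contDiffAt_const.mul cl).differentiableAt two),
    dd_const_mul _ (cl.differentiableAt two), dd_const_mul _ (cQ.differentiableAt two),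
    dd_comp (F := fun s => Real.log (3 - s)) (cu.differentiableAt two) (hd _ hu)] at h1
  rw [M.Lop_add (cψ.add (contDiffAt_const.mul cl)) (contDiffAt_const.mul cQ),
    M.Lop_add cψ (contDiffAt_const.mul cl), M.Lop_const_mul _ cl, M.Lop_const_mul _ cQ,
    M.Lop_comp (F := fun s => Real.log (3 - s)) (F' := fun s => -(3 - s)⁻¹) cu
      ((gt_mem_nhds hu).mono hd) hd',
    M.Lop_u hy, M.twUp_Lop_psi hy, M.twUp_Lop_Q hy] at h2
  set m : ℝ := (n : ℝ) + 2 with hm_def
  set B : ℝ := m / (4 * L) with hB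
  set r : ℝ := (3 - M.u y)⁻¹ with hr
  set p : Fin n → ℝ := fun k => pderiv k M.u y with hp
  set q : Fin n → ℝ := fun i => ∑ k, M.H y i k * p k with hq
  have hψ : ∀ i, dd M.twUpPsi y i = m * r * p i - 2 * B * q i := fun i => by
    have := congrFun h1 i
    simp only [Pi.add_apply, Pi.smul_apply, smul_eq_mul, Pi.zero_apply, M.twUp_dd_Q hy] at this
    change _ + m * (-r * p i) + B * (2 * q i) = 0 at this
    linear_combination this
  set a : ℝ := ∑ i, ∑ j, M.Hi y i j * p i * p j with ha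
  set c : ℝ := ∑ i, q i * p i with hc
  have hb : ∑ i, p i * p i = M.twUpQ y := Finset.sum_congr rfl fun i _ => (sq _).symm
  have ha0 : 0 ≤ a := by
    have h := M.ip_self_nonneg hy p
    exact (mul_nonneg_iff_of_pos_left (inv_pos.2 (M.rho_pos hy))).1 h
  have e1 : ∑ i, ∑ j, M.Hi y i j * p i * q j = M.twUpQ y := (M.twUp_HiH hy p p).trans hb
  have e2 : ∑ i, ∑ j, M.Hi y i j * q i * q j = c := M.twUp_HiH hy q p
  have e3 : ∑ i, ∑ j, M.Hi y i j * q i * p j = M.twUpQ y := by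
    rw [← e1, Finset.sum_comm]
    refine Finset.sum_congr rfl fun i _ => Finset.sum_congr rfl fun j _ => ?_
    rw [M.Hi_symm hy j i]
    ring
  have e4 : ∑ i, ∑ j, M.Hi y i j * dd M.twUpPsi y i * dd M.twUpPsi y j =
      (m * r) ^ 2 * a - 4 * (m * r) * B * M.twUpQ y + 4 * B ^ 2 * c := by
    have : (m * r) ^ 2 * a - 4 * (m * r) * B * M.twUpQ y + 4 * B ^ 2 * c =
        (m * r) ^ 2 * a - 2 * (m * r) * B * (∑ i, ∑ j, M.Hi y i j * p i * q j) -
          2 * (m * r) * B * (∑ i, ∑ j, M.Hi y i j * q i * p j) +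
          4 * B ^ 2 * ∑ i, ∑ j, M.Hi y i j * q i * q j := by
      rw [e1, e2, e3]; ring
    rw [this, ha]
    simp only [hψ, Finset.mul_sum, ← Finset.sum_sub_distrib, ← Finset.sum_add_distrib]
    exact Finset.sum_congr rfl fun i _ => Finset.sum_congr rfl fun j _ => by ring
  have e5 : ∑ k, pderiv k M.u y * dd M.twUpPsi y k = m * r * M.twUpQ y - 2 * B * c := by
    rw [← hb, hc]
    simp only [hψ, Finset.mul_sum, ← Finset.sum_sub_distrib]
    exact Finset.sum_congr rfl fun i _ => by simp only [hp]; ring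
  have e6 : c ≤ L * (M.H y).trace := by
    have h := quad_le_trace (M.pos y hy).posSemidef p
    have htr : 0 ≤ (M.H y).trace := (M.pos y hy).posSemidef.trace_nonneg
    have h' : c = ∑ i, ∑ j, M.H y i j * p i * p j := by
      rw [hc]
      refine Finset.sum_congr rfl fun i _ => ?_
      rw [hq, Finset.sum_mul]
      exact Finset.sum_congr rfl fun j _ => by ring
    rw [h']
    exact h.trans (mul_le_mul_of_nonneg_right hQ htr)
  rw [e4, e5] at h2
  change _ + m * (-r * n + -r ^ 2 * a) + _ ≤ 0 at h2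
  have hn0 : (0 : ℝ) ≤ n := Nat.cast_nonneg n
  have hm0 : 0 < m := by positivity
  have hr0 : 0 < r := inv_pos.2 ht
  have hB0 : 0 < B := by positivity
  have hBL : 4 * B * L = m := by rw [hB]; field_simp
  set T := (M.H y).trace
  set Q := M.twUpQ y
  -- `2 B T ≤ m n r + 2 n B r Q + 4 B² c / m`
  have h3 : m * (n * m * r ^ 2 * a) + m * (2 * B * T) ≤
      m * (m * n * r) + m * (2 * n * B * r * Q) + 4 * B ^ 2 * c := by
    have h4 := mul_le_mul_of_nonneg_left h2 hm0.le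
    have h5 : m * (((n : ℝ) + 1) / m) = n + 1 := by field_simp
    have h6 : m * (((n : ℝ) + 1) / m *
        ((m * r) ^ 2 * a - 4 * (m * r) * B * Q + 4 * B ^ 2 * c)) =
        (n + 1) * ((m * r) ^ 2 * a - 4 * (m * r) * B * Q + 4 * B ^ 2 * c) := by
      rw [← mul_assoc, h5]
    rw [mul_add, mul_add, h6] at h4
    have h7 : m = n + 2 := rfl
    clear_value m
    subst h7
    linarith
  have h8 : 4 * B ^ 2 * c ≤ m * (B * T) := by
    calc 4 * B ^ 2 * c ≤ 4 * B ^ 2 * (L * T) := by gcongr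
      _ = (4 * B * L) * (B * T) := by ring
      _ = _ := by rw [hBL]
  have h9 : 2 * n * B * r * Q ≤ m * n * r / 2 := by
    calc 2 * n * B * r * Q ≤ 2 * n * B * r * L := by gcongr
      _ = (4 * B * L) * n * r / 2 := by ring
      _ = _ := by rw [hBL]
  have h10 : 0 ≤ m * (n * m * r ^ 2 * a) := by positivity
  have h11 : m * (B * T) ≤ m * (3 / 2 * (m * n * r)) := by
    have := mul_le_mul_of_nonneg_left h9 hm0.le
    linarith
  have h12 : B * T ≤ B * (6 * n * L * r) := by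
    have := le_of_mul_le_mul_left h11 hm0
    calc B * T ≤ 3 / 2 * (m * n * r) := this
      _ = 3 / 2 * ((4 * B * L) * n * r) := by rw [hBL]
      _ = _ := by ring
  have h13 := le_of_mul_le_mul_left h12 hB0
  rw [hr, ← div_eq_mul_inv, le_div_iff₀ ht] at h13
  linarith

end AM

theorem det_upper (n : ℕ) (hn : 2 ≤ n) {γ₁ : ℝ} (hγ : 0 < γ₁) (γ₂ : ℝ → ℝ) : ∃ C : ℝ, 0 < C ∧
    ∀ M : AM n, Nice M γ₁ γ₂ → ∀ x ∈ M.Ω, M.u x ≤ 2 → M.det x ≤ C := by
  set L : ℝ := (1 / (2 * γ₁)) ^ 2 with hL_def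
  have hL : 0 < L := by positivity
  set m : ℝ := (n : ℝ) + 2 with hm_def
  have hm0 : 0 < m := by positivity
  refine ⟨(6 * L) ^ n * 9 * Real.exp (m / 4), by positivity, fun M hM x hx hux => ?_⟩
  set g : E n → ℝ := fun z => M.det z * (3 - M.u z) ^ (n + 2) * Real.exp (m / (4 * L) * M.twUpQ z)
    with hg
  have hgc : ContinuousOn g M.Ω :=
    (M.contDiffOn_det.continuousOn.mul
      ((continuousOn_const.sub M.smooth.continuousOn).pow _)).mul
      (continuousOn_const.mul M.twUp_Q_smooth.continuousOn).rexp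
  obtain ⟨y, ⟨hy, hy3⟩, hmax⟩ := (hM.isCompact_sublevel (a := 3) (by norm_num)).exists_isMaxOn
    ⟨x, hx, by linarith⟩ (hgc.mono fun z hz => hz.1)
  have hQ0 : ∀ z, 0 ≤ M.twUpQ z := fun z => Finset.sum_nonneg fun k _ => sq_nonneg _
  have hx1 : M.det x ≤ g x := by
    have h1 : 1 ≤ (3 - M.u x) ^ (n + 2) := one_le_pow₀ (by linarith)
    have h2 : 1 ≤ Real.exp (m / (4 * L) * M.twUpQ x) :=
      Real.one_le_exp (mul_nonneg (by positivity) (hQ0 x))
    have h3 := (M.det_pos hx).le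
    calc M.det x = M.det x * 1 * 1 := by ring
      _ ≤ M.det x * (3 - M.u x) ^ (n + 2) * Real.exp (m / (4 * L) * M.twUpQ x) := by gcongr
  have hxy : g x ≤ g y := hmax (⟨hx, by linarith⟩ : x ∈ {x | x ∈ M.Ω ∧ M.u x ≤ 3})
  have hu : M.u y < 3 := by
    refine lt_of_le_of_ne hy3 fun h => ?_
    have : g y = 0 := by simp [hg, h]
    linarith [M.det_pos hx]
  have ht : 0 < 3 - M.u y := sub_pos.2 hu
  have hQ : M.twUpQ y ≤ L := by
    rw [M.twUp_Q_eq]
    exact pow_le_pow_left₀ (norm_nonneg _) (hM.grad_le hγ hy hy3) 2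
  have hlog : ∀ z ∈ M.Ω, M.u z < 3 → g z = Real.exp (M.twUpPsi z + m * Real.log (3 - M.u z) +
      m / (4 * L) * M.twUpQ z) := fun z hz hz3 => by
    have h1 : m * Real.log (3 - M.u z) = Real.log ((3 - M.u z) ^ (n + 2)) := by
      rw [Real.log_pow, hm_def]
      push_cast
      ring
    rw [Real.exp_add, Real.exp_add, h1, Real.exp_log (pow_pos (sub_pos.2 hz3) _), AM.twUpPsi,
      Real.exp_log (M.det_pos hz)]
  have hloc : IsLocalMax (fun z => M.twUpPsi z + m * Real.log (3 - M.u z) +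
      m / (4 * L) * M.twUpQ z) y := by
    have h1 : ∀ᶠ z in 𝓝 y, M.u z < 3 :=
      (M.smooth.continuousOn.continuousAt (M.isOpen.mem_nhds hy)).eventually (gt_mem_nhds hu)
    filter_upwards [M.coreB_ev hy, h1] with z hz hz3
    have h2 : g z ≤ g y := hmax (⟨hz, hz3.le⟩ : z ∈ {x | x ∈ M.Ω ∧ M.u x ≤ 3})
    rwa [hlog z hz hz3, hlog y hy hu, Real.exp_le_exp] at h2
  have h1 := M.twUp_at_max hy hu hL hQ hloc
  have hn0 : (0 : ℝ) < n := by exact_mod_cast (by omega : 0 < n)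
  have htr : 0 ≤ (M.H y).trace := (M.pos y hy).posSemidef.trace_nonneg
  have h2 : M.det y ≤ ((M.H y).trace / n) ^ n :=
    det_le_trace_pow (by omega) (M.pos y hy).posSemidef
  have h3 : M.det y * (3 - M.u y) ^ n ≤ (6 * L) ^ n := by
    calc M.det y * (3 - M.u y) ^ n ≤ ((M.H y).trace / n) ^ n * (3 - M.u y) ^ n := by gcongr
      _ = ((3 - M.u y) * (M.H y).trace / n) ^ n := by rw [← mul_pow]; congr 1; ring
      _ ≤ (6 * L) ^ n := by
        gcongr
        rw [div_le_iff₀ hn0]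
        linarith
  have h4 : (3 - M.u y) ^ 2 ≤ 9 := by
    have := hM.nonneg y hy
    nlinarith
  have h5 : m / (4 * L) * M.twUpQ y ≤ m / 4 := by
    calc m / (4 * L) * M.twUpQ y ≤ m / (4 * L) * L := by gcongr
      _ = m / 4 := by field_simp
  refine hx1.trans (hxy.trans ?_)
  calc g y = M.det y * (3 - M.u y) ^ n * (3 - M.u y) ^ 2 * Real.exp (m / (4 * L) * M.twUpQ y) := by
        rw [hg]; ring
    _ ≤ _ := by gcongr

end Crest.Agent.R236
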