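import Crest.Agent.R236.ABP
import Crest.Agent.R236.LogE
import Crest.Agent.R236.Poinc
import Crest.Agent.R236.NiceEx
import Crest.Agent.R236.TWUp
import Crest.Agent.R236.TWLow

/-!
# Row 236: weak Harnack inequality and the Liouville lemma

`weak_harnack`: apply `log_energy` to `f + η`, `η = η₀ θ`, and `poincare` to `g = log (f + η)` on
`S = {u ≤ 1}` with `A = {f ≤ 7η}` (`abp_density`), `B = {θ ≤ f}`:
`log (1/(8η₀)) c₁ vol B ≤ C`.
`liouville`: given finitely many nonnegative supersolutions with infimum `0`, pick `x_i` with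
`f_i x_i ≤ η₀ θ`, `x₀ ∈ Ω`, and `h` so large that all `x_i` lie in the section of height `h/2`; in the
rescaled nice graph the bad sets have total measure less than the ball of radius `γ₁ ⊆ {u ≤ 1}`.
-/

set_option autoImplicit false
open scoped ContDiff RealInnerProductSpace ENNReal Topology
open Crest.GeometryTopology.CoordMetric Crest.GeometryTopology.AffineMaximal MeasureTheory

noncomputable section

namespace Crest.Agent.R236

theorem weak_harnack (n : ℕ) (hn : 1 ≤ n) {γ₁ c C ε : ℝ} (hγ : 0 < γ₁) (hc : 0 < c) (hC : 0 < C)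
    (hε : 0 < ε) : ∃ η₀ : ℝ, 0 < η₀ ∧
    ∀ (M : AM n) (γ₂ : ℝ → ℝ), Nice M γ₁ γ₂ →
      (∀ x ∈ M.Ω, M.u x ≤ 2 → c ≤ M.det x ∧ M.det x ≤ C) →
      ∀ f : E n → ℝ, ContDiffOn ℝ 2 f M.Ω → (∀ x ∈ M.Ω, 0 ≤ f x) → (∀ x ∈ M.Ω, M.Lop f x ≤ 0) →
      ∀ θ : ℝ, 0 < θ → ∀ x₁ ∈ M.Ω, M.u x₁ ≤ 1 / 2 → f x₁ ≤ η₀ * θ →
        volume {x | x ∈ M.Ω ∧ M.u x ≤ 1 ∧ θ ≤ f x} ≤ ENNReal.ofReal ε := by
  obtain ⟨c₁, hc₁, hA⟩ := abp_density n hn hC
  obtain ⟨C', hC', hE⟩ := log_energy n (C := C) hγ hc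
  obtain ⟨Cp, hCp, hP⟩ := poincare n
  set L : ℝ := Cp * C' / (c₁ * ε) with hL
  have hL0 : 0 < L := by positivity
  refine ⟨Real.exp (-L) / 8, by positivity, ?_⟩
  intro M γ₂ hM hdet f hf h0 hLf θ hθ x₁ hx₁ hu₁ hf₁
  set η : ℝ := Real.exp (-L) / 8 * θ with hη
  have hη0 : 0 < η := by positivity
  have hS : IsCompact {x | x ∈ M.Ω ∧ M.u x ≤ 1} := hM.isCompact_sublevel (by norm_num)
  have hfc : ContinuousOn f {x | x ∈ M.Ω ∧ M.u x ≤ 1} := hf.continuousOn.mono fun x hx => hx.1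
  have hAm : MeasurableSet {x | x ∈ M.Ω ∧ M.u x ≤ 1 ∧ f x ≤ 7 * η} := by
    have := (hfc.preimage_isClosed_of_isClosed hS.isClosed (isClosed_Iic (a := 7 * η))).measurableSet
    convert this using 1
    ext x
    simp only [Set.mem_ofPred_eq, Set.mem_inter_iff, Set.mem_preimage, Set.mem_Iic, and_assoc]
  have hBm : MeasurableSet {x | x ∈ M.Ω ∧ M.u x ≤ 1 ∧ θ ≤ f x} := by
    have := (hfc.preimage_isClosed_of_isClosed hS.isClosed (isClosed_Ici (a := θ))).measurableSet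
    convert this using 1
    ext x
    simp only [Set.mem_ofPred_eq, Set.mem_inter_iff, Set.mem_preimage, Set.mem_Ici, and_assoc]
  have hpos : ∀ x ∈ M.Ω, 0 < f x + η := fun x hx => add_pos_of_nonneg_of_pos (h0 x hx) hη0
  have hf' : ContDiffOn ℝ 2 (fun z => f z + η) M.Ω := hf.add contDiffOn_const
  have h1 := hA M γ₁ γ₂ hM (fun x hx hu => (hdet x hx hu).2) f hf h0 hLf x₁ hx₁ hu₁ η hη0 hf₁
  have h2 := hE M γ₂ hM hdet (fun z => f z + η) hf' hpos (fun x hx => by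
    have h3 := M.Lop_add (f := f) (g := fun _ => η) (x := x)
      (hf.contDiffAt (M.isOpen.mem_nhds hx)) contDiffAt_const
    rw [M.Lop_const, add_zero] at h3
    exact h3.le.trans (hLf x hx))
  have h3 := hP {x | x ∈ M.Ω ∧ M.u x ≤ 1} M.Ω (fun z => Real.log (f z + η)) M.isOpen
    (fun x hx => hx.1) (M.convexOn_u.convex_le 1) hS.isClosed.measurableSet
    (fun x hx => hM.bdd x hx.1 (hx.2.trans (by norm_num)))
    ((hf'.of_le (by norm_num)).log fun x hx => (hpos x hx).ne') _ _ (Real.log (8 * η))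
    (Real.log θ) hAm hBm (fun x hx => ⟨hx.1, hx.2.1⟩) (fun x hx => ⟨hx.1, hx.2.1⟩)
    (fun x hx => Real.log_le_log (hpos x hx.1) (by linarith [hx.2.2]))
    (fun x hx => Real.log_le_log hθ (by linarith [hx.2.2]))
  have h4 : Real.log θ - Real.log (8 * η) = L := by
    have : 8 * η = Real.exp (-L) * θ := by rw [hη]; ring
    rw [this, Real.log_mul (Real.exp_pos _).ne' hθ.ne', Real.log_exp]
    ring
  rw [h4] at h3
  have h5 : ENNReal.ofReal (L * c₁) * volume {x | x ∈ M.Ω ∧ M.u x ≤ 1 ∧ θ ≤ f x} ≤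
      ENNReal.ofReal (L * c₁) * ENNReal.ofReal ε := by
    calc _ = ENNReal.ofReal L * ENNReal.ofReal c₁ *
          volume {x | x ∈ M.Ω ∧ M.u x ≤ 1 ∧ θ ≤ f x} := by rw [ENNReal.ofReal_mul hL0.le]
      _ ≤ _ := by gcongr
      _ ≤ _ := h3
      _ ≤ ENNReal.ofReal Cp * ENNReal.ofReal C' := by gcongr
      _ = _ := by
        rw [← ENNReal.ofReal_mul hCp.le, ← ENNReal.ofReal_mul (by positivity)]
        congr 1
        rw [hL]
        field_simp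
  exact (ENNReal.mul_le_mul_iff_right (by simpa using mul_pos hL0 hc₁) ENNReal.ofReal_ne_top).1 h5

theorem liouville {n : ℕ} (hn : 3 ≤ n) (hn' : n ≤ 9) (M : AM n) {ι : Type} [Fintype ι]
    (f : ι → E n → ℝ) (hf : ∀ i, ContDiffOn ℝ 2 (f i) M.Ω) (h0 : ∀ i, ∀ x ∈ M.Ω, 0 ≤ f i x)
    (hL : ∀ i, ∀ x ∈ M.Ω, M.Lop (f i) x ≤ 0)
    (hinf : ∀ i, ∀ η : ℝ, 0 < η → ∃ x ∈ M.Ω, f i x ≤ η) {θ : ℝ} (hθ : 0 < θ) :
    ∃ x ∈ M.Ω, ∀ i, f i x < θ := by
  obtain ⟨γ₁, γ₂, hγ₁, hγ₂, hN⟩ := exists_nice hn hn' M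
  obtain ⟨C, hC, hup⟩ := det_upper n (by omega) hγ₁ γ₂
  obtain ⟨c, hc, hlow⟩ := det_lower n (by omega) hγ₁ hγ₂
  have hV0 : 0 < volume (Metric.ball (0 : E n) γ₁) := Metric.measure_ball_pos _ _ hγ₁
  have hV1 : volume (Metric.ball (0 : E n) γ₁) ≠ ⊤ := measure_ball_lt_top.ne
  set V : ℝ := (volume (Metric.ball (0 : E n) γ₁)).toReal with hV
  have hVpos : 0 < V := ENNReal.toReal_pos hV0.ne' hV1
  obtain ⟨η₀, hη₀, hH⟩ := weak_harnack n (by omega) hγ₁ hc hC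
    (ε := V / (Fintype.card ι + 1)) (by positivity)
  choose x hx hfx using fun i => hinf i (η₀ * θ) (by positivity)
  obtain ⟨x₀, hx₀⟩ := M.nonempty
  set h : ℝ := 1 + 2 * ∑ i, |M.u (x i) - M.u x₀ - ⟪M.grad x₀, x i - x₀⟫| with hh
  have hsum : 0 ≤ ∑ i, |M.u (x i) - M.u x₀ - ⟪M.grad x₀, x i - x₀⟫| :=
    Finset.sum_nonneg fun _ _ => abs_nonneg _
  have hh0 : 0 < h := by positivity
  obtain ⟨S, M', hR, hM'⟩ := hN x₀ hx₀ h hh0
  have hbad : ∀ i, volume {ξ | ξ ∈ M'.Ω ∧ M'.u ξ ≤ 1 ∧ θ ≤ f i (x₀ + S ξ)} ≤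
      ENNReal.ofReal (V / (Fintype.card ι + 1)) := by
    intro i
    have e : x₀ + S (S.symm (x i - x₀)) = x i := by simp
    refine hH M' γ₂ hM' (fun ξ hξ hu => ⟨hlow M' hM' ξ hξ hu, hup M' hM' ξ hξ hu⟩)
      (fun ξ => f i (x₀ + S ξ)) ?_ (fun ξ hξ => h0 i _ ((hR.mem ξ).1 hξ)) (fun ξ hξ => ?_) θ hθ
      (S.symm (x i - x₀)) ((hR.mem _).2 (by rw [e]; exact hx i)) ?_ (by rw [e]; exact hfx i)
    · exact (hf i).comp (contDiff_const.add S.contDiff).contDiffOn fun ξ hξ => (hR.mem ξ).1 hξ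
    · have hξ' := (hR.mem ξ).1 hξ
      rw [hR.Lop_eq hh0 hξ ((hf i).contDiffAt (M.isOpen.mem_nhds hξ'))]
      exact mul_nonpos_of_nonneg_of_nonpos hh0.le (hL i _ hξ')
    · rw [hR.val, e, ContinuousLinearEquiv.apply_symm_apply, div_le_iff₀ hh0]
      have h1 := Finset.single_le_sum
        (f := fun i => |M.u (x i) - M.u x₀ - ⟪M.grad x₀, x i - x₀⟫|)
        (fun _ _ => abs_nonneg _) (Finset.mem_univ i)
      have h2 := le_abs_self (M.u (x i) - M.u x₀ - ⟪M.grad x₀, x i - x₀⟫)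
      linarith
  by_contra hcon
  push Not at hcon
  have hsub : Metric.ball (0 : E n) γ₁ ⊆
      ⋃ i, {ξ | ξ ∈ M'.Ω ∧ M'.u ξ ≤ 1 ∧ θ ≤ f i (x₀ + S ξ)} := by
    intro ξ hξ
    have h1 := hM'.ball 0 hM'.zero_mem (by rw [hM'.u_zero]; norm_num) ξ
      (mem_ball_zero_iff.1 hξ).le
    rw [zero_add, hM'.u_zero] at h1
    obtain ⟨i, hi⟩ := hcon _ ((hR.mem ξ).1 h1.1)
    exact Set.mem_iUnion.2 ⟨i, h1.1, by linarith [h1.2], hi⟩
  have h1 : ENNReal.ofReal V ≤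
      ENNReal.ofReal (Fintype.card ι * (V / (Fintype.card ι + 1))) := by
    calc ENNReal.ofReal V = volume (Metric.ball (0 : E n) γ₁) := ENNReal.ofReal_toReal hV1
      _ ≤ _ := measure_mono hsub
      _ ≤ _ := measure_iUnion_fintype_le _ _
      _ ≤ ∑ _i : ι, ENNReal.ofReal (V / (Fintype.card ι + 1)) :=
        Finset.sum_le_sum fun i _ => hbad i
      _ = _ := by
        rw [Finset.sum_const, Finset.card_univ, nsmul_eq_mul,
          ENNReal.ofReal_mul (Nat.cast_nonneg _), ENNReal.ofReal_natCast]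
  rw [ENNReal.ofReal_le_ofReal_iff (by positivity), mul_div_assoc', le_div_iff₀ (by positivity)]
    at h1
  nlinarith

end Crest.Agent.R236
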