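import Crest.Agent.R236.Cone

/-!
# Row 236: cone volume formulas and the mass bounds

Use the map `F(x, s) = P + s (X x - P)` (resp. `(s / hP P x) • N x`) on `U × (0,1)`, viewed as a map
`A n → A n` through `mkA`/`base`/`ht` (`(x, s) ↦ mkA x s` is measure preserving from `E n × ℝ`).
Its Jacobian is `± sⁿ hP P x` (resp. `± sⁿ det / hP^{n+1}`; write the polar map as `τ • N x`,
`τ = s / hP`, or compute the determinant with `Matrix.det_fromBlocks₁₁`/`₂₂` and column operations).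
`lintegral_abs_det_fderiv_eq_addHaar_image` (injective case) and
`addHaar_image_le_lintegral_abs_det_fderiv` (general case); `∫₀¹ sⁿ = 1/(n+1)`.
Injectivity: if `X x' = (1-σ) P + σ X x` with `σ < 1` then pairing with `N x'` gives
`0 = (1-σ) hP P x' + σ hP (X x) x' > 0`; for the polar map use `grad_injOn`.

Mass bounds: if `P + κ T B ⊆ K` then `N x / hP P x` pairs with `T v` to at most `1/κ` in absolute
value, so it lies in `(adjoint T)⁻¹ (ball (1/κ))`, of volume `κ^{-(n+1)} ω / |det T|`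
(`Measure.addHaar_image_linearMap`, `LinearMap.det_adjoint`-type lemma); the cone lies in
`P + T (ball 2)`. Pointwise `Lam / rho = hP` and
`Lam^{-n/2} / rho = √hP · √(det / hP^{n+1}) ≤ (τ hP + τ⁻¹ det / hP^{n+1}) / 2` with `τ = 1/|det T|`.
Finally `1 ≤ Λ̂ + Λ̂^{-n/2}` for `Λ̂ = Lam / |det T|^{2/(n+2)}`.
-/

set_option autoImplicit false
open scoped ContDiff RealInnerProductSpace ENNReal Topology
open Crest.GeometryTopology.CoordMetric Crest.GeometryTopology.AffineMaximal MeasureTheory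

noncomputable section

namespace Crest.Agent.R236

variable {n : ℕ}

lemma mass_det_adjoint {V : Type*} [NormedAddCommGroup V] [InnerProductSpace ℝ V]
    [FiniteDimensional ℝ V] (L : V →ₗ[ℝ] V) :
    LinearMap.det (LinearMap.adjoint L) = LinearMap.det L := by
  let b := stdOrthonormalBasis ℝ V
  rw [← LinearMap.det_toMatrix b.toBasis, LinearMap.toMatrix_adjoint, Matrix.det_conjTranspose,
    LinearMap.det_toMatrix, star_trivial]

lemma mass_lintegral_le {α : Type*} [MeasurableSpace α] {μ : Measure α} {U : Set α}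
    (hU : MeasurableSet U) {f g k : α → ℝ} {s t F G : ℝ} (hs : 0 ≤ s) (ht : 0 ≤ t) (hF : 0 ≤ F)
    (hG : 0 ≤ G) (hf : AEMeasurable f (μ.restrict U)) (h : ∀ x ∈ U, k x ≤ s * f x + t * g x)
    (h1 : ∫⁻ x in U, ENNReal.ofReal (f x) ∂μ ≤ ENNReal.ofReal F)
    (h2 : ∫⁻ x in U, ENNReal.ofReal (g x) ∂μ ≤ ENNReal.ofReal G) :
    ∫⁻ x in U, ENNReal.ofReal (k x) ∂μ ≤ ENNReal.ofReal (s * F + t * G) := by
  calc ∫⁻ x in U, ENNReal.ofReal (k x) ∂μ
      ≤ ∫⁻ x in U, (ENNReal.ofReal s * ENNReal.ofReal (f x)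
          + ENNReal.ofReal t * ENNReal.ofReal (g x)) ∂μ := by
        refine setLIntegral_mono' hU fun x hx => ?_
        rw [← ENNReal.ofReal_mul hs, ← ENNReal.ofReal_mul ht]
        exact (ENNReal.ofReal_le_ofReal (h x hx)).trans ENNReal.ofReal_add_le
    _ = ENNReal.ofReal s * ∫⁻ x in U, ENNReal.ofReal (f x) ∂μ
          + ENNReal.ofReal t * ∫⁻ x in U, ENNReal.ofReal (g x) ∂μ := by
        rw [lintegral_add_left' (hf.ennreal_ofReal.const_mul _),
          lintegral_const_mul' _ _ ENNReal.ofReal_ne_top,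
          lintegral_const_mul' _ _ ENNReal.ofReal_ne_top]
    _ ≤ ENNReal.ofReal s * ENNReal.ofReal F + ENNReal.ofReal t * ENNReal.ofReal G := by
        gcongr
    _ = ENNReal.ofReal (s * F + t * G) := by
        rw [← ENNReal.ofReal_mul hs, ← ENNReal.ofReal_mul ht,
          ENNReal.ofReal_add (mul_nonneg hs hF) (mul_nonneg ht hG)]

namespace AM

variable (M : AM n)

/-- `U` is a piece of the graph inside `P + 2 T B`, and `P + κ T B ⊆ K` -/
structure Cap (P : A n) (T : A n ≃L[ℝ] A n) (κ : ℝ) (U : Set (E n)) : Prop where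
  meas : MeasurableSet U
  sub : U ⊆ M.Ω
  near : ∀ x ∈ U, ‖T.symm (M.X x - P)‖ ≤ 2
  ball : ∀ v : A n, ‖v‖ ≤ 1 → P + κ • T v ∈ M.K

/-- any vector `T v` is controlled by `Λ_P` -/
lemma nuv_le_Lam {P : A n} {T : A n ≃L[ℝ] A n} {κ : ℝ} (hκ : 0 < κ)
    (hb : ∀ v : A n, ‖v‖ ≤ 1 → P + κ • T v ∈ M.K) {x : E n} (hx : x ∈ M.Ω) (v : A n) :
    |M.nuv (T v) x| ≤ ‖v‖ / κ * M.Lam P x := by
  have key : ∀ w : A n, ‖w‖ ≤ 1 → 0 ≤ M.Lam P x + κ * M.nuv (T w) x := by
    intro w hw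
    have h := M.Lam_nonneg (hb w hw) hx
    rwa [Lam, add_sub_right_comm, inner_add_right, real_inner_smul_right] at h
  rcases eq_or_ne v 0 with rfl | hv
  · simp [nuv]
  have hn : 0 < ‖v‖ := norm_pos_iff.2 hv
  have h1 := key (‖v‖⁻¹ • v) (by rw [norm_smul, norm_inv, norm_norm, inv_mul_cancel₀ hn.ne'])
  have h2 := key (-(‖v‖⁻¹ • v))
    (by rw [norm_neg, norm_smul, norm_inv, norm_norm, inv_mul_cancel₀ hn.ne'])
  simp only [nuv, map_neg, map_smul, inner_neg_right, real_inner_smul_right] at h1 h2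
  have h3 : |κ * (‖v‖⁻¹ * ⟪M.nu x, T v⟫)| ≤ M.Lam P x := abs_le.2 ⟨by linarith, by linarith⟩
  rw [abs_mul, abs_mul, abs_of_pos hκ, abs_of_pos (inv_pos.2 hn)] at h3
  calc |M.nuv (T v) x| = ‖v‖ / κ * (κ * (‖v‖⁻¹ * |⟪M.nu x, T v⟫|)) := by
        rw [nuv]; field_simp
    _ ≤ ‖v‖ / κ * M.Lam P x := by gcongr

lemma Lam_pos_of_ball {P : A n} {T : A n ≃L[ℝ] A n} {κ : ℝ} (hκ : 0 < κ)
    (hb : ∀ v : A n, ‖v‖ ≤ 1 → P + κ • T v ∈ M.K) {x : E n} (hx : x ∈ M.Ω) : 0 < M.Lam P x := by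
  have h := M.nuv_le_Lam hκ hb hx (T.symm (M.N x))
  have hN : M.N x ≠ 0 := fun h0 => by
    have h1 : ht (M.N x) = 1 := by rw [N, ht_mkA]
    rw [h0] at h1
    exact zero_ne_one h1
  have h2 : 0 < M.nuv (M.N x) x := by
    rw [nuv, nu, real_inner_smul_left]
    exact mul_pos (M.rho_pos hx) (real_inner_self_pos.2 hN)
  rw [T.apply_symm_apply] at h
  have h3 : 0 < ‖T.symm (M.N x)‖ / κ * M.Lam P x := (h2.trans_le (le_abs_self _)).trans_le h
  exact (pos_iff_pos_of_mul_pos h3).1 (div_pos (norm_pos_iff.2 (by simpa using hN)) hκ)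

variable {M}

lemma Cap.hP_pos {P : A n} {T : A n ≃L[ℝ] A n} {κ : ℝ} {U : Set (E n)} (hκ : 0 < κ)
    (h : M.Cap P T κ U) {x : E n} (hx : x ∈ U) : 0 < M.hP P x := by
  have h1 := M.Lam_pos_of_ball hκ h.ball (h.sub hx)
  rw [Lam_eq] at h1
  exact (pos_iff_pos_of_mul_pos h1).1 (M.rho_pos (h.sub hx))

lemma Cap.cone_le {P : A n} {T : A n ≃L[ℝ] A n} {κ : ℝ} {U : Set (E n)} (hκ : 0 < κ)
    (h : M.Cap P T κ U) :
    ∫⁻ x in U, ENNReal.ofReal (M.hP P x) ≤ ENNReal.ofReal
      (((n : ℝ) + 1) * (volume (Metric.closedBall (0 : A n) 2)).toReal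
        * |(T : A n →L[ℝ] A n).det|) := by
  have h1 := M.cone_upper h.meas h.sub (fun x hx => h.hP_pos hκ hx)
    (S := (fun Y => -P + Y) ⁻¹' ((T : A n →L[ℝ] A n) '' Metric.closedBall 0 2)) (by
      intro x hx s hs
      refine ⟨s • T.symm (M.X x - P), ?_, ?_⟩
      · rw [mem_closedBall_zero_iff, norm_smul, Real.norm_of_nonneg hs.1.le]
        have := h.near x hx
        have := norm_nonneg (T.symm (M.X x - P))
        nlinarith [hs.1, hs.2]
      · simp)
  refine h1.trans (le_of_eq ?_)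
  rw [measure_preimage_add, Measure.addHaar_image_continuousLinearMap,
    ENNReal.ofReal_mul (by positivity), ENNReal.ofReal_mul (by positivity),
    ENNReal.ofReal_toReal measure_closedBall_lt_top.ne, ENNReal.ofReal_add (by positivity) zero_le_one,
    ENNReal.ofReal_natCast, ENNReal.ofReal_one, mul_assoc, mul_comm (ENNReal.ofReal _)]

lemma Cap.polar_le {P : A n} {T : A n ≃L[ℝ] A n} {κ : ℝ} {U : Set (E n)} (hκ : 0 < κ)
    (h : M.Cap P T κ U) :
    ∫⁻ x in U, ENNReal.ofReal (M.det x / M.hP P x ^ (n + 1)) ≤ ENNReal.ofReal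
      (((n : ℝ) + 1) * (volume (Metric.closedBall (0 : A n) (1 / κ))).toReal
        * |(T : A n →L[ℝ] A n).det|⁻¹) := by
  set L : A n →ₗ[ℝ] A n := ((T : A n →L[ℝ] A n) : A n →ₗ[ℝ] A n) with hL
  have hdet : LinearMap.det L ≠ 0 := T.toLinearEquiv.isUnit_det'.ne_zero
  have h1 := M.polar_upper h.meas h.sub (fun x hx => h.hP_pos hκ hx)
    (S := (LinearMap.adjoint L) ⁻¹' Metric.closedBall 0 (1 / κ)) (by
      intro x hx s hs
      have hh := h.hP_pos hκ hx
      have hρ := M.rho_pos (h.sub hx)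
      set w := LinearMap.adjoint L ((s / M.hP P x) • M.N x) with hw
      rw [Set.mem_preimage, ← hw, mem_closedBall_zero_iff]
      have h2 := M.nuv_le_Lam hκ h.ball (h.sub hx) w
      rw [nuv, nu, real_inner_smul_left, Lam_eq, abs_mul, abs_of_pos hρ, mul_left_comm] at h2
      have h3 := (le_abs_self _).trans (le_of_mul_le_mul_left h2 hρ)
      have h4 : ‖w‖ ^ 2 = s / M.hP P x * ⟪M.N x, T w⟫ := by
        rw [← real_inner_self_eq_norm_sq]
        nth_rewrite 1 [hw]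
        rw [LinearMap.adjoint_inner_left, real_inner_smul_left]
        rfl
      have h5 : ‖w‖ ^ 2 ≤ ‖w‖ * (1 / κ) := by
        calc ‖w‖ ^ 2 = s / M.hP P x * ⟪M.N x, T w⟫ := h4
          _ ≤ s / M.hP P x * (‖w‖ / κ * M.hP P x) := by
            have := hs.1
            gcongr
          _ = s * (‖w‖ * (1 / κ)) := by field_simp
          _ ≤ ‖w‖ * (1 / κ) := mul_le_of_le_one_left (by positivity) hs.2.le
      rcases (norm_nonneg w).eq_or_lt with h6 | h6
      · rw [← h6]; positivity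
      · rw [sq] at h5
        exact le_of_mul_le_mul_left h5 h6)
  refine h1.trans (le_of_eq ?_)
  rw [Measure.addHaar_preimage_linearMap _ (by rwa [mass_det_adjoint]), mass_det_adjoint,
    ENNReal.ofReal_mul (by positivity), ENNReal.ofReal_mul (by positivity),
    ENNReal.ofReal_toReal measure_closedBall_lt_top.ne, ENNReal.ofReal_add (by positivity) zero_le_one,
    ENNReal.ofReal_natCast, ENNReal.ofReal_one, mul_assoc, mul_comm (ENNReal.ofReal _), abs_inv]

lemma Cap.pointwise {P : A n} {T : A n ≃L[ℝ] A n} {κ : ℝ} {U : Set (E n)} (hκ : 0 < κ)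
    (h : M.Cap P T κ U) {x : E n} (hx : x ∈ U) {τ : ℝ} (hτ : 0 < τ) :
    M.Lam P x ^ (-(n : ℝ) / 2) / M.rho x
      ≤ τ⁻¹ * M.hP P x + τ * (M.det x / M.hP P x ^ (n + 1)) := by
  have hh := h.hP_pos hκ hx
  have hρ := M.rho_pos (h.sub hx)
  have hd := M.det_pos (h.sub hx)
  have hΛ := M.Lam_pos_of_ball hκ h.ball (h.sub hx)
  have h1 : (M.Lam P x ^ (-(n : ℝ) / 2)) ^ 2 = (M.Lam P x ^ n)⁻¹ := by
    rw [← Real.rpow_natCast, ← Real.rpow_mul hΛ.le, ← Real.rpow_natCast, ← Real.rpow_neg hΛ.le]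
    congr 1
    push_cast
    ring
  have h2 : M.det x = (M.rho x ^ (n + 2))⁻¹ :=
    eq_inv_of_mul_eq_one_left (M.det_mul_rho_pow (h.sub hx))
  have h3 : (M.Lam P x ^ (-(n : ℝ) / 2) / M.rho x) ^ 2
      = (τ⁻¹ * M.hP P x) * (τ * (M.det x / M.hP P x ^ (n + 1))) := by
    rw [div_pow, h1, h2, Lam_eq]
    field_simp
    ring
  have ha : 0 < τ⁻¹ * M.hP P x := by positivity
  have hb : 0 < τ * (M.det x / M.hP P x ^ (n + 1)) := by positivity
  refine (pow_le_pow_iff_left₀ (by positivity) (by positivity) two_ne_zero).1 ?_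
  rw [h3]
  nlinarith [mul_pos ha hb, sq_nonneg (τ⁻¹ * M.hP P x - τ * (M.det x / M.hP P x ^ (n + 1)))]

end AM

theorem mass_bounds (n : ℕ) {κ : ℝ} (hκ : 0 < κ) : ∃ C : ℝ, 0 < C ∧
    ∀ (M : AM n) (P : A n) (T : A n ≃L[ℝ] A n) (U : Set (E n)), M.Cap P T κ U →
      M.mass (fun x => M.Lam P x ^ (-(n : ℝ) / 2)) U ≤ ENNReal.ofReal C ∧
      M.mass (M.Lam P) U ≤ ENNReal.ofReal (C * |(T : A n →L[ℝ] A n).det|) ∧
      M.mass (fun _ => 1) U
        ≤ ENNReal.ofReal (C * |(T : A n →L[ℝ] A n).det| ^ ((n : ℝ) / (n + 2))) := by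
  set a : ℝ := ((n : ℝ) + 1) * (volume (Metric.closedBall (0 : A n) 2)).toReal with ha
  set b : ℝ := ((n : ℝ) + 1) * (volume (Metric.closedBall (0 : A n) (1 / κ))).toReal with hb
  have ha0 : 0 ≤ a := by positivity
  have hb0 : 0 ≤ b := by positivity
  refine ⟨2 * a + b + 1, by positivity, fun M P T U h => ?_⟩
  have hc := h.cone_le hκ
  have hp := h.polar_le hκ
  rw [← ha] at hc
  rw [← hb] at hp
  have hD : 0 < |(T : A n →L[ℝ] A n).det| := abs_pos.2 T.toLinearEquiv.isUnit_det'.ne_zero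
  set D := |(T : A n →L[ℝ] A n).det| with hDdef
  have hm : AEMeasurable (M.hP P) (volume.restrict U) :=
    ((M.contDiffOn_hP P).continuousOn.mono h.sub).aemeasurable h.meas
  have hq : ∀ x ∈ U, M.Lam P x / M.rho x = M.hP P x := fun x hx => by
    rw [AM.Lam_eq, mul_div_cancel_left₀ _ (M.rho_pos (h.sub hx)).ne']
  have h1 : M.mass (fun x => M.Lam P x ^ (-(n : ℝ) / 2)) U ≤ ENNReal.ofReal (a + b) := by
    refine (mass_lintegral_le h.meas (inv_pos.2 hD).le hD.le (by positivity) (by positivity) hm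
      (fun x hx => h.pointwise hκ hx hD) hc hp).trans (le_of_eq ?_)
    congr 1
    field_simp
  refine ⟨h1.trans (ENNReal.ofReal_le_ofReal (by linarith)), ?_, ?_⟩
  · rw [AM.mass, setLIntegral_congr_fun h.meas fun x hx => by rw [hq x hx]]
    refine hc.trans (ENNReal.ofReal_le_ofReal ?_)
    gcongr
    linarith
  · set c : ℝ := D ^ (2 / ((n : ℝ) + 2)) with hcdef
    have hc0 : 0 < c := Real.rpow_pos_of_pos hD _
    have hn : (0 : ℝ) < (n : ℝ) + 2 := by positivity
    have e1 : c⁻¹ * D = D ^ ((n : ℝ) / (n + 2)) := by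
      rw [hcdef, ← Real.rpow_neg hD.le, ← Real.rpow_add_one hD.ne']
      congr 1
      field_simp
      ring
    have e2 : c ^ ((n : ℝ) / 2) = D ^ ((n : ℝ) / (n + 2)) := by
      rw [hcdef, ← Real.rpow_mul hD.le]
      congr 1
      field_simp
    have h2 := mass_lintegral_le (k := fun x => 1 / M.rho x) h.meas (inv_pos.2 hc0).le
      (Real.rpow_pos_of_pos hc0 ((n : ℝ) / 2)).le (by positivity) (by positivity) hm
      (fun x hx => by
        have hρ := M.rho_pos (h.sub hx)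
        have hΛ := M.Lam_pos_of_ball hκ h.ball (h.sub hx)
        have h3 : c ^ ((n : ℝ) / 2) * M.Lam P x ^ (-(n : ℝ) / 2)
            = (M.Lam P x / c) ^ (-(n : ℝ) / 2) := by
          rw [Real.div_rpow hΛ.le hc0.le, neg_div, Real.rpow_neg hc0.le]
          field_simp
        have h4 : 1 ≤ c⁻¹ * M.Lam P x + c ^ ((n : ℝ) / 2) * M.Lam P x ^ (-(n : ℝ) / 2) := by
          rw [h3, ← div_eq_inv_mul]
          have h5 : 0 < M.Lam P x / c := div_pos hΛ hc0
          rcases le_total 1 (M.Lam P x / c) with h6 | h6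
          · have := Real.rpow_pos_of_pos h5 (-(n : ℝ) / 2)
            linarith
          · have := Real.one_le_rpow_of_pos_of_le_one_of_nonpos h5 h6
              (show -(n : ℝ) / 2 ≤ 0 by rw [neg_div]; exact neg_nonpos.2 (by positivity))
            linarith
        rw [← hq x hx, ← mul_div_assoc, ← mul_div_assoc, ← add_div]
        gcongr) hc h1
    refine h2.trans (ENNReal.ofReal_le_ofReal ?_)
    rw [e2, mul_left_comm, e1]
    have := Real.rpow_pos_of_pos hD ((n : ℝ) / (n + 2))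
    nlinarith

end Crest.Agent.R236
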