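import Mathlib

/-!
# Row 236, example in dimension 10: the radial ODE near the origin

Unknowns `a, b` of `σ = r²`, with `p = σ a`, `e = 1 + σ b`:
`a' = a (b - a) / 2` and `e' = e (-9 b + a + 12 a (2 e - 1) / (2 σ a + 9)) / 2`.
The second equation reads `2 σ b' + 11 b = (7/3) a + σ Hf(σ, a, b)` with `Hf` smooth near
`σ = 0` (a rational function with denominator `2 σ a + 9`).

Plan. With `(𝒦_k F)(σ) = ∫₀¹ ϑ^k F(σ ϑ²) dϑ` the solution of `2 σ b' + 11 b = F` is `b = 𝒦₁₀ F`.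
1. Fixed point `(a, b) = (1 + ∫₀^σ a (b - a)/2, 𝒦₁₀ ((7/3) a + σ Hf))` in a closed ball of
   `C([-σ₀, σ₀])²` (contraction for small `σ₀`; substitute the new `a` in the second component or
   weight the norm). Alternatively clamp the nonlinearities and work in `ℝ →ᵇ ℝ`.
2. Smoothness by induction on `k`: `𝒦_j` maps `C^k` to `C^k` (`(𝒦_j F)' = 𝒦_{j+2} F'`), and for
   `Hf` continuous with primitive `Ĥ`:
   `σ 𝒦₁₂ Hf (σ) = Ĥ(σ)/2 - (11/2) 𝒦₁₀ Ĥ (σ)` (integrate `∂_ϑ Ĥ(σ ϑ²) = 2 σ ϑ Hf(σ ϑ²)` by parts),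
   so `a, b ∈ C^k ⇒ a, b ∈ C^{k+1}`.
3. `b = 𝒦₁₀ F` with `F ∈ C¹` satisfies `2 σ b' + 11 b = F` (integrate by parts again).
-/

set_option autoImplicit false
open scoped ContDiff

namespace Crest.Agent.R236

open Filter Topology Set

/-! The proof below replaces steps 1 and 2 of the plan by the analytic implicit function theorem
in `C([0,1])³` for the rescaled unknowns `t ↦ a (ε t²)`, with parameter `ε`. -/

theorem odeL_fixed {X : Type} [NormedAddCommGroup X] [NormedSpace ℝ X] [CompleteSpace X]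
    (T : ℝ × X → X) (hT : ContDiff ℝ ω T) (u₀ : X) (h0 : ∀ u, T (0, u) = u₀) :
    ∃ ψ : ℝ → X, ContDiffAt ℝ ω ψ 0 ∧ ψ 0 = u₀ ∧
      ∀ᶠ v in 𝓝 ((0 : ℝ), u₀), (T v = v.2 ↔ ψ v.1 = v.2) := by
  have cdf : ContDiffAt ℝ ω (fun v : ℝ × X => v.2 - T v) (0, u₀) :=
    (contDiff_snd.sub hT).contDiffAt
  have hid : fderiv ℝ (fun v : ℝ × X => v.2 - T v) (0, u₀) ∘L ContinuousLinearMap.inr ℝ ℝ X =
      ContinuousLinearMap.id ℝ X := by
    have h1 := HasFDerivAt.comp (f := fun u : X => ((0 : ℝ), u)) u₀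
      (cdf.differentiableAt (by simp)).hasFDerivAt (hasFDerivAt_prodMk_right (0 : ℝ) u₀)
    have h2 : HasFDerivAt ((fun v : ℝ × X => v.2 - T v) ∘ fun u : X => ((0 : ℝ), u))
        (ContinuousLinearMap.id ℝ X) u₀ := by
      have e : ((fun v : ℝ × X => v.2 - T v) ∘ fun u : X => ((0 : ℝ), u)) = fun u => u - u₀ := by
        funext u
        simp [h0]
      rw [e]
      exact (hasFDerivAt_id u₀).sub_const u₀
    exact h1.unique h2
  have hinv : (fderiv ℝ (fun v : ℝ × X => v.2 - T v) (0, u₀) ∘L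
      ContinuousLinearMap.inr ℝ ℝ X).IsInvertible := by
    rw [hid]
    exact ⟨ContinuousLinearEquiv.refl ℝ X, rfl⟩
  refine ⟨cdf.implicitFunction (by simp) hinv, cdf.contDiffAt_implicitFunction _ hinv,
    cdf.implicitFunction_apply_self _ hinv, ?_⟩
  filter_upwards [cdf.eventually_apply_eq_iff_implicitFunction (by simp) hinv] with v hv
  rw [← hv, h0, sub_self, sub_eq_zero, eq_comm]

theorem odeL_ode {f F : ℝ → ℝ} {r : ℝ} {k : ℕ} (hF : ∀ σ, |σ| < r → ContinuousAt F σ)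
    (h : ∀ σ, |σ| < r → f σ = ∫ ϑ in (0 : ℝ)..1, ϑ ^ k * F (ϑ ^ 2 * σ)) {σ f' : ℝ} (hσ : |σ| < r)
    (hf : HasDerivAt f f' σ) : 2 * σ * f' + (k + 1) * f σ = F σ := by
  let g : ℝ → ℝ := fun t => t ^ k * F (t ^ 2 * σ)
  let U : Set ℝ := {t | |t ^ 2 * σ| < r}
  have hU : IsOpen U := isOpen_lt (by fun_prop) continuous_const
  have hg : ∀ t ∈ U, ContinuousAt g t := fun t ht =>
    (continuous_pow k).continuousAt.mul
      (ContinuousAt.comp (f := fun t : ℝ => t ^ 2 * σ) (hF _ ht) (by fun_prop))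
  have hsub : uIcc (0 : ℝ) 1 ⊆ U := by
    intro t ht
    rw [uIcc_of_le zero_le_one] at ht
    have h1 : t ^ 2 ≤ 1 := pow_le_one₀ ht.1 ht.2
    change |t ^ 2 * σ| < r
    rw [abs_mul, abs_sq]
    exact lt_of_le_of_lt (mul_le_of_le_one_left (abs_nonneg _) h1) hσ
  have h1U : (1 : ℝ) ∈ U := hsub right_mem_uIcc
  have d1 : HasDerivAt (fun l => ∫ t in (0 : ℝ)..l, g t) (g 1) 1 :=
    intervalIntegral.integral_hasDerivAt_right
      (ContinuousOn.intervalIntegrable fun t ht => (hg t (hsub ht)).continuousWithinAt)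
      (ContinuousAt.stronglyMeasurableAtFilter hU hg 1 h1U) (hg 1 h1U)
  have d2 : HasDerivAt (fun l : ℝ => l ^ (k + 1) * f (l ^ 2 * σ))
      ((k + 1) * f σ + f' * (2 * σ)) 1 := by
    have a1 : HasDerivAt (fun l : ℝ => l ^ 2 * σ) (2 * σ) 1 := by
      simpa using (hasDerivAt_pow 2 (1 : ℝ)).mul_const σ
    have a2 : HasDerivAt f f' ((1 : ℝ) ^ 2 * σ) := by simpa using hf
    have a3 := (hasDerivAt_pow (k + 1) (1 : ℝ)).mul
      (HasDerivAt.comp (h := fun l : ℝ => l ^ 2 * σ) 1 a2 a1)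
    exact HasDerivAt.congr_deriv a3 (by simp)
  have e : (fun l : ℝ => l ^ (k + 1) * f (l ^ 2 * σ)) =ᶠ[𝓝 1] fun l => ∫ t in (0 : ℝ)..l, g t := by
    filter_upwards [hU.mem_nhds h1U] with l hl
    have b1 := intervalIntegral.smul_integral_comp_mul_left (a := 0) (b := 1) g l
    rw [mul_zero, mul_one] at b1
    rw [← b1, h _ hl, smul_eq_mul, pow_succ', mul_assoc, ← intervalIntegral.integral_const_mul]
    congr 2
    funext ϑ
    simp only [g]
    rw [mul_pow, mul_pow, mul_assoc, show ϑ ^ 2 * (l ^ 2 * σ) = l ^ 2 * ϑ ^ 2 * σ by ring]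
  have d3 := (d1.congr_of_eventuallyEq e).unique d2
  simp only [g, one_pow, one_mul] at d3
  linarith

/-- the space of the rescaled unknowns -/
abbrev OdeX : Type := C(unitInterval, ℝ)

/-- extension to the real line -/
noncomputable def odeExt (h : OdeX) (x : ℝ) : ℝ := h (projIcc 0 1 zero_le_one x)

theorem odeExt_continuous (h : OdeX) : Continuous (odeExt h) :=
  h.continuous.comp continuous_projIcc

/-- `(𝒦_k h)(t) = ∫₀¹ ϑ^k h(t ϑ) dϑ` -/
noncomputable def odeKfun (k : ℕ) (h : OdeX) : OdeX :=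
  ⟨fun t => ∫ ϑ in (0 : ℝ)..1, ϑ ^ k * odeExt h (t * ϑ),
    intervalIntegral.continuous_parametric_intervalIntegral_of_continuous' (by
      have := odeExt_continuous h
      fun_prop) 0 1⟩

theorem odeKfun_apply (k : ℕ) (h : OdeX) (t : unitInterval) :
    odeKfun k h t = ∫ ϑ in (0 : ℝ)..1, ϑ ^ k * odeExt h (t * ϑ) := rfl

/-- `𝒦_k` as a bounded operator -/
noncomputable def odeK (k : ℕ) : OdeX →L[ℝ] OdeX :=
  LinearMap.mkContinuous
    { toFun := odeKfun k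
      map_add' := fun h h' => by
        ext t
        have := odeExt_continuous h
        have := odeExt_continuous h'
        rw [ContinuousMap.add_apply, odeKfun_apply, odeKfun_apply, odeKfun_apply,
          ← intervalIntegral.integral_add (Continuous.intervalIntegrable (by fun_prop) _ _)
            (Continuous.intervalIntegrable (by fun_prop) _ _)]
        simp only [odeExt, ContinuousMap.add_apply, mul_add]
      map_smul' := fun c h => by
        ext t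
        rw [RingHom.id_apply, ContinuousMap.smul_apply, odeKfun_apply, odeKfun_apply, smul_eq_mul,
          ← intervalIntegral.integral_const_mul]
        simp only [odeExt, ContinuousMap.smul_apply, smul_eq_mul, mul_left_comm] } 1
    fun h => by
      rw [one_mul]
      refine (ContinuousMap.norm_le _ (norm_nonneg h)).2 fun t => ?_
      have h1 := intervalIntegral.norm_integral_le_of_norm_le_const (a := (0 : ℝ)) (b := 1)
        (C := ‖h‖) (f := fun ϑ => ϑ ^ k * odeExt h (t * ϑ)) fun ϑ hϑ => by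
          rw [uIoc_of_le zero_le_one] at hϑ
          rw [norm_mul, norm_pow, Real.norm_of_nonneg hϑ.1.le]
          exact (mul_le_of_le_one_left (norm_nonneg _) (pow_le_one₀ hϑ.1.le hϑ.2)).trans
            (h.norm_coe_le_norm _)
      rw [sub_zero, abs_one, mul_one] at h1
      exact h1

theorem odeK_apply (k : ℕ) (h : OdeX) (t : unitInterval) :
    odeK k h t = ∫ ϑ in (0 : ℝ)..1, ϑ ^ k * odeExt h (t * ϑ) := rfl

/-- dilation -/
noncomputable def odeD (l : ℝ) : OdeX →ₐ[ℝ] OdeX :=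
  ContinuousMap.compRightAlgHom ℝ ℝ
    ⟨fun t : unitInterval => projIcc 0 1 zero_le_one (l * t), continuous_projIcc.comp (by fun_prop)⟩

theorem odeD_apply (l : ℝ) (h : OdeX) (t : unitInterval) : odeD l h t = odeExt h (l * t) := rfl

theorem odeD_norm_le (l : ℝ) (h : OdeX) : ‖odeD l h‖ ≤ ‖h‖ :=
  (ContinuousMap.norm_le _ (norm_nonneg h)).2 fun _ => h.norm_coe_le_norm _

theorem odeL_mul_mem {x y : ℝ} (hx : x ∈ Icc (0 : ℝ) 1) (hy : y ∈ Icc (0 : ℝ) 1) :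
    x * y ∈ Icc (0 : ℝ) 1 := ⟨mul_nonneg hx.1 hy.1, mul_le_one₀ hx.2 hy.1 hy.2⟩

theorem odeD_K {l : ℝ} (hl : l ∈ Icc (0 : ℝ) 1) (k : ℕ) (h : OdeX) :
    odeD l (odeK k h) = odeK k (odeD l h) := by
  ext t
  rw [odeD_apply, odeExt, odeK_apply, odeK_apply, projIcc_of_mem _ (odeL_mul_mem hl t.2)]
  refine intervalIntegral.integral_congr fun ϑ hϑ => ?_
  rw [uIcc_of_le zero_le_one] at hϑ
  simp only
  rw [odeExt.eq_def (odeD l h), odeD_apply, projIcc_of_mem _ (odeL_mul_mem t.2 hϑ), mul_assoc]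

/-- the function `t²` -/
noncomputable def odeSq : OdeX := ⟨fun t => (t : ℝ) ^ 2, by fun_prop⟩

theorem odeD_sq {l : ℝ} (hl : l ∈ Icc (0 : ℝ) 1) : odeD l odeSq = l ^ 2 • odeSq := by
  ext t
  rw [odeD_apply, odeExt, projIcc_of_mem _ (odeL_mul_mem hl t.2)]
  exact mul_pow _ _ _

/-- unknowns `(a, b, w)` with `w = 1 / (2 σ a + 9)` -/
abbrev OdeY : Type := OdeX × OdeX × OdeX

noncomputable def odeH (v : ℝ × OdeY) : OdeX := v.2.1 * (v.2.2.1 - v.2.1)
noncomputable def odeA (v : ℝ × OdeY) : OdeX := 1 + (v.1 • odeSq) * odeK 1 (odeH v)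
noncomputable def odeW (v : ℝ × OdeY) : OdeX :=
  (1 / 9 : ℝ) • 1 - (2 / 9 : ℝ) • ((v.1 • odeSq) * (v.2.1 * v.2.2.2))
noncomputable def odeF (v : ℝ × OdeY) : OdeX :=
  odeA v + (12 : ℝ) • (odeA v * odeW v) + (v.1 • odeSq) *
    ((24 : ℝ) • (v.2.1 * v.2.2.2 * v.2.2.1) + v.2.2.1 * (v.2.1 - (9 : ℝ) • v.2.2.1 +
      (12 : ℝ) • (v.2.1 * v.2.2.2 * (1 + (2 : ℝ) • ((v.1 • odeSq) * v.2.2.1)))))
noncomputable def odeT (v : ℝ × OdeY) : OdeY := (odeA v, odeK 10 (odeF v), odeW v)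

/-- dilation of the unknowns -/
noncomputable def odeDY (l : ℝ) (u : OdeY) : OdeY := (odeD l u.1, odeD l u.2.1, odeD l u.2.2)

theorem odeH_contDiff : ContDiff ℝ ω odeH := by
  unfold odeH; fun_prop
theorem odeA_contDiff : ContDiff ℝ ω odeA := by
  have := odeH_contDiff
  unfold odeA; fun_prop
theorem odeW_contDiff : ContDiff ℝ ω odeW := by
  unfold odeW; fun_prop
theorem odeF_contDiff : ContDiff ℝ ω odeF := by
  have := odeA_contDiff
  have := odeW_contDiff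
  unfold odeF; fun_prop
theorem odeT_contDiff : ContDiff ℝ ω odeT := by
  have := odeA_contDiff
  have := odeW_contDiff
  have := odeF_contDiff
  unfold odeT; fun_prop

theorem odeT_zero (u : OdeY) : odeT (0, u) = odeT (0, 0) := by
  simp [odeT, odeF, odeA, odeW]

section
variable {l : ℝ} (hl : l ∈ Icc (0 : ℝ) 1) (ε : ℝ) (u : OdeY)

theorem odeD_H : odeD l (odeH (ε, u)) = odeH (l ^ 2 * ε, odeDY l u) := by
  simp [odeH, odeDY]

include hl

theorem odeD_A : odeD l (odeA (ε, u)) = odeA (l ^ 2 * ε, odeDY l u) := by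
  simp only [odeA, map_add, map_one, map_mul, map_smul, odeD_sq hl, odeD_K hl, odeD_H, smul_smul,
    mul_comm ε]

theorem odeD_W : odeD l (odeW (ε, u)) = odeW (l ^ 2 * ε, odeDY l u) := by
  simp only [odeW, odeDY, map_sub, map_one, map_mul, map_smul, odeD_sq hl, smul_smul, mul_comm ε]

theorem odeD_F : odeD l (odeF (ε, u)) = odeF (l ^ 2 * ε, odeDY l u) := by
  simp only [odeF, map_add, map_sub, map_one, map_mul, map_smul, odeD_sq hl, odeD_A hl, odeD_W hl,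
    smul_smul, mul_comm ε]
  rfl

theorem odeD_T : odeDY l (odeT (ε, u)) = odeT (l ^ 2 * ε, odeDY l u) := by
  simp only [odeT, ← odeD_A hl, ← odeD_W hl, ← odeD_F hl, ← odeD_K hl]
  rfl

end

theorem odeDY_dist {l : ℝ} (hl : l ∈ Icc (0 : ℝ) 1) (u : OdeY) :
    dist (odeDY l u) (odeT (0, 0)) ≤ dist u (odeT (0, 0)) := by
  have h1 := odeD_T hl 0 0
  rw [mul_zero, odeT_zero (odeDY l 0)] at h1
  conv_lhs => rw [← h1]
  generalize odeT (0, 0) = v
  have h2 : ∀ x y : OdeX, dist (odeD l x) (odeD l y) ≤ dist x y := fun x y => by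
    rw [dist_eq_norm, dist_eq_norm, ← map_sub]
    exact odeD_norm_le _ _
  rw [Prod.dist_eq, Prod.dist_eq, Prod.dist_eq, Prod.dist_eq]
  exact max_le_max (h2 _ _) (max_le_max (h2 _ _) (h2 _ _))

/-- the differential equation for an equivariant family -/
theorem odeL_family {h : ℝ → OdeX} {r : ℝ} (k : ℕ) (hd : ∀ σ, |σ| < r → AnalyticAt ℝ h σ)
    (he : ∀ σ, |σ| < r → ∀ l ∈ Icc (0 : ℝ) 1, h (l ^ 2 * σ) = odeD l (h σ)) {σ : ℝ}
    (hσ : |σ| < r) : ∃ f', HasDerivAt (fun σ => odeK k (h σ) 1) f' σ ∧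
      2 * σ * f' + (k + 1) * odeK k (h σ) 1 = h σ 1 := by
  have h1 : DifferentiableAt ℝ (fun σ => odeK k (h σ) 1) σ :=
    ((ContinuousMap.evalCLM ℝ (1 : unitInterval)).comp (odeK k)).differentiableAt.comp σ
      (hd σ hσ).differentiableAt
  refine ⟨_, h1.hasDerivAt, odeL_ode (F := fun σ => h σ 1) (r := r) (fun τ hτ => ?_)
    (fun τ hτ => ?_) hσ h1.hasDerivAt⟩
  · exact (ContinuousMap.evalCLM ℝ (1 : unitInterval)).continuous.continuousAt.comp
      (hd τ hτ).continuousAt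
  · rw [odeK_apply]
    refine intervalIntegral.integral_congr fun ϑ hϑ => ?_
    rw [uIcc_of_le zero_le_one] at hϑ
    rw [he τ hτ ϑ hϑ, odeD_apply, mul_comm ϑ (_ : ℝ)]

theorem exists_ode_local : ∃ (a b : ℝ → ℝ) (σ₀ : ℝ), 0 < σ₀ ∧
    ContDiffOn ℝ ∞ a (Set.Ioo (-σ₀) σ₀) ∧ ContDiffOn ℝ ∞ b (Set.Ioo (-σ₀) σ₀) ∧
    ∀ σ ∈ Set.Ioo (-σ₀) σ₀, 0 < a σ ∧ 0 < 1 + σ * b σ ∧ 0 < 2 * σ * a σ + 9 ∧
      σ * a σ ≤ 9 / 2 ∧ 1 + σ * b σ ≤ 7 / 2 ∧
      HasDerivAt a (a σ * (b σ - a σ) / 2) σ ∧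
      HasDerivAt (fun t => 1 + t * b t)
        ((1 + σ * b σ) * (-9 * b σ + a σ +
          12 * a σ * (2 * (1 + σ * b σ) - 1) / (2 * σ * a σ + 9)) / 2) σ := by
  obtain ⟨ψ, hψ, hψ0, huniq⟩ := odeL_fixed odeT odeT_contDiff _ odeT_zero
  obtain ⟨δ, hδ, hball⟩ := Metric.eventually_nhds_iff.1 huniq
  let a : ℝ → ℝ := fun σ => (ψ σ).1 1
  let b : ℝ → ℝ := fun σ => (ψ σ).2.1 1
  let w : ℝ → ℝ := fun σ => (ψ σ).2.2 1
  have hab : ∀ σ, AnalyticAt ℝ ψ σ → AnalyticAt ℝ a σ ∧ AnalyticAt ℝ b σ := fun σ h =>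
    ⟨((ContinuousMap.evalCLM ℝ (1 : unitInterval) : OdeX →L[ℝ] ℝ).analyticAt _).comp
        (analyticAt_fst.comp h),
      ((ContinuousMap.evalCLM ℝ (1 : unitInterval) : OdeX →L[ℝ] ℝ).analyticAt _).comp
        (analyticAt_fst.comp (analyticAt_snd.comp h))⟩
  have ha0 : a 0 = 1 := by simp [a, hψ0, odeT, odeA]
  have hca := (hab 0 hψ.analyticAt).1.continuousAt
  have hcb := (hab 0 hψ.analyticAt).2.continuousAt
  have e1 : ∀ᶠ σ in 𝓝 (0 : ℝ), dist (ψ σ) (odeT (0, 0)) < δ := by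
    rw [← hψ0]
    exact Metric.tendsto_nhds.1 hψ.continuousAt δ hδ
  have e2 : ∀ᶠ σ in 𝓝 (0 : ℝ), dist σ 0 < δ := Metric.ball_mem_nhds _ hδ
  have e3 : ∀ᶠ σ in 𝓝 (0 : ℝ), 0 < a σ := hca.eventually (lt_mem_nhds (by rw [ha0]; norm_num))
  have c4 : ContinuousAt (fun σ => 1 + σ * b σ) 0 := by fun_prop
  have c5 : ContinuousAt (fun σ => σ * a σ) 0 := by fun_prop
  have e4 : ∀ᶠ σ in 𝓝 (0 : ℝ), 0 < 1 + σ * b σ := c4.eventually (lt_mem_nhds (by norm_num))
  have e5 : ∀ᶠ σ in 𝓝 (0 : ℝ), 1 + σ * b σ < 7 / 2 := c4.eventually (gt_mem_nhds (by norm_num))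
  have e6 : ∀ᶠ σ in 𝓝 (0 : ℝ), -1 < σ * a σ := c5.eventually (lt_mem_nhds (by norm_num))
  have e7 : ∀ᶠ σ in 𝓝 (0 : ℝ), σ * a σ < 9 / 2 := c5.eventually (gt_mem_nhds (by norm_num))
  obtain ⟨r, hr, hall⟩ := Metric.eventually_nhds_iff.1
    (hψ.analyticAt.eventually_analyticAt.and (e1.and (e2.and (e3.and (e4.and (e5.and (e6.and e7)))))))
  simp only [dist_zero_right, Real.norm_eq_abs] at hall
  have hfix : ∀ σ, |σ| < r → odeT (σ, ψ σ) = ψ σ := fun σ hσ =>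
    (hball (y := (σ, ψ σ)) (by
      rw [Prod.dist_eq, dist_zero_right]
      exact max_lt (hall hσ).2.2.1 (hall hσ).2.1)).2 rfl
  have hequi : ∀ σ, |σ| < r → ∀ l ∈ Icc (0 : ℝ) 1, ψ (l ^ 2 * σ) = odeDY l (ψ σ) := by
    intro σ hσ l hl
    refine (hball (y := (l ^ 2 * σ, odeDY l (ψ σ))) ?_).1 ?_
    · rw [Prod.dist_eq, dist_zero_right]
      refine max_lt ?_ ((odeDY_dist hl _).trans_lt (hall hσ).2.1)
      rw [Real.norm_eq_abs, abs_mul, abs_sq]
      exact lt_of_le_of_lt (mul_le_of_le_one_left (abs_nonneg _) (pow_le_one₀ hl.1 hl.2))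
        (hall hσ).2.2.1
    · rw [← odeD_T hl, hfix σ hσ]
  have hmem : ∀ σ ∈ Ioo (-r) r, |σ| < r := fun σ hσ => abs_lt.2 hσ
  have hpair : ∀ σ, |σ| < r → AnalyticAt ℝ (fun σ => (σ, ψ σ)) σ := fun σ hσ =>
    analyticAt_id.prod (hall hσ).1
  refine ⟨a, b, r, hr, fun σ hσ => (hab σ (hall (hmem σ hσ)).1).1.contDiffAt.contDiffWithinAt,
    fun σ hσ => (hab σ (hall (hmem σ hσ)).1).2.contDiffAt.contDiffWithinAt, fun σ hσ' => ?_⟩
  have hσ := hmem σ hσ'
  have hnear : ∀ᶠ τ in 𝓝 σ, |τ| < r := (isOpen_lt continuous_abs continuous_const).mem_nhds hσ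
  obtain ⟨-, -, -, p1, p2, p3, p4, p5⟩ := hall hσ
  have hA : ∀ τ, |τ| < r → odeA (τ, ψ τ) = (ψ τ).1 := fun τ hτ => congrArg Prod.fst (hfix τ hτ)
  have hW : odeW (σ, ψ σ) = (ψ σ).2.2 := congrArg (fun u : OdeY => u.2.2) (hfix σ hσ)
  have hB : ∀ τ, |τ| < r → odeK 10 (odeF (τ, ψ τ)) = (ψ τ).2.1 := fun τ hτ =>
    congrArg (fun u : OdeY => u.2.1) (hfix τ hτ)
  have hsq : odeSq 1 = 1 := one_pow 2
  have p6 : 0 < 2 * σ * a σ + 9 := by linarith
  refine ⟨p1, p2, p6, p5.le, p3.le, ?_, ?_⟩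
  · obtain ⟨f', hf', hode⟩ := odeL_family (h := fun τ => odeH (τ, ψ τ)) (r := r) 1
      (fun τ hτ => (odeH_contDiff.contDiffAt.analyticAt).comp (hpair τ hτ))
      (fun τ hτ l hl => by rw [odeD_H, hequi τ hτ l hl]) hσ
    have h1 := ((hasDerivAt_id σ).mul hf').const_add 1
    have h2 : a =ᶠ[𝓝 σ] fun τ => 1 + τ * odeK 1 (odeH (τ, ψ τ)) 1 := by
      filter_upwards [hnear] with τ hτ
      simp only [a]
      rw [← hA τ hτ]
      simp [odeA, hsq]
    have h3 : odeH (σ, ψ σ) 1 = a σ * (b σ - a σ) := rfl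
    refine (h1.congr_of_eventuallyEq h2).congr_deriv ?_
    simp only [id]
    push_cast at hode
    linarith
  · obtain ⟨f', hf', hode⟩ := odeL_family (h := fun τ => odeF (τ, ψ τ)) (r := r) 10
      (fun τ hτ => (odeF_contDiff.contDiffAt.analyticAt).comp (hpair τ hτ))
      (fun τ hτ l hl => by rw [odeD_F hl, hequi τ hτ l hl]) hσ
    have h2 : b =ᶠ[𝓝 σ] fun τ => odeK 10 (odeF (τ, ψ τ)) 1 := by
      filter_upwards [hnear] with τ hτ
      rw [hB τ hτ]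
    have h1 := ((hasDerivAt_id σ).mul (hf'.congr_of_eventuallyEq h2)).const_add 1
    have h3 : odeF (σ, ψ σ) 1 = a σ + 12 * (a σ * w σ) + σ * (24 * (a σ * w σ * b σ) +
        b σ * (a σ - 9 * b σ + 12 * (a σ * w σ * (1 + 2 * (σ * b σ))))) := by
      simp [odeF, hA σ hσ, hW, hsq, a, b, w]
    have h4 : w σ = 1 / 9 - 2 / 9 * (σ * (a σ * w σ)) := by
      simp only [w]
      conv_lhs => rw [← hW]
      simp [odeW, hsq, a]
    have h5 : w σ = 1 / (2 * σ * a σ + 9) := by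
      rw [eq_div_iff p6.ne']
      linarith
    rw [hB σ hσ, h3] at hode
    refine HasDerivAt.congr_deriv h1 ?_
    simp only [id]
    rw [div_eq_mul_one_div _ (2 * σ * a σ + 9), ← h5]
    push_cast at hode
    change 2 * σ * f' + (10 + 1) * b σ = _ at hode
    linarith

end Crest.Agent.R236
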