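import Crest.Agent.R236.CoreB
import Crest.Agent.R236.GeoDefs

/-!
# Row 236: rescaling, and uniformly nice normalised sections

`exists_resc`: the Hessian of `ξ ↦ f (x₀ + S ξ)` is `Sᵀ D²f S` (matrix of `S` in the standard basis),
so `det` is multiplied by `(det S)² / hⁿ`, `detPower` by a positive constant, and the trace
`tr((D²u)⁻¹ D²w)` by `h`; the epigraph is an affine image of the epigraph.
`exists_nice`: the section `{x ∈ Ω | u x - ℓ_{x₀} x ≤ h}` is convex, bounded (it is closed by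
`M.closed`; strict convexity gives linear growth along rays: on a small sphere around `x₀`,
`u - ℓ ≥ c > 0`) and has interior; normalise it by `john` (in `E n`) to get `S`. For the rescaled `M'`
the set `M'.K` is an `Img` of `M.K`, `H = ht`, `K' ∩ {ht ≤ 1}` lies in the ball of radius `2` and
contains a ball of radius `c₁` (around `(Z/2, 3/4)`, using convexity `u'(ξ/2) ≤ u'(ξ)/2`). Apply
`unif_strict` (with `no_approxW`) with `H₀ = 4`: for `ball` use `X = (x, u x)`, `X' = (x, u x + 1)`,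
`c₀ = 1`; for `strict` use graph points and the vertical vector `v = (0, -γ)`.
-/

set_option autoImplicit false
open scoped ContDiff RealInnerProductSpace ENNReal Topology
open Crest.GeometryTopology.CoordMetric Crest.GeometryTopology.AffineMaximal MeasureTheory

noncomputable section

namespace Crest.Agent.R236

variable {n : ℕ}

/-- the matrix of `S` in the standard basis -/
def rsM (S : E n ≃L[ℝ] E n) : Matrix (Fin n) (Fin n) ℝ :=
  Matrix.of fun a i => S (EuclideanSpace.single i 1) a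

lemma rsM_det (S : E n ≃L[ℝ] E n) : (rsM S).det = (S : E n →L[ℝ] E n).det := by
  rw [ContinuousLinearMap.det, ← LinearMap.det_toMatrix (EuclideanSpace.basisFun (Fin n) ℝ).toBasis]
  congr 1

lemma rsM_det_ne (S : E n ≃L[ℝ] E n) : (rsM S).det ≠ 0 := by
  rw [rsM_det]
  exact S.toLinearEquiv.isUnit_det'.ne_zero

lemma rsM_apply (S : E n ≃L[ℝ] E n) (v : E n) (a : Fin n) : S v a = ∑ i, rsM S a i * v i := by
  conv_lhs => rw [← (EuclideanSpace.basisFun (Fin n) ℝ).sum_repr v]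
  simp [rsM, mul_comm]

lemma rs_hasFDerivAt (x₀ : E n) (S : E n ≃L[ℝ] E n) (z : E n) :
    HasFDerivAt (fun z => x₀ + S z) (S : E n →L[ℝ] E n) z := S.hasFDerivAt.const_add x₀

lemma rs_contDiff (x₀ : E n) (S : E n ≃L[ℝ] E n) : ContDiff ℝ ∞ (fun z => x₀ + S z) :=
  contDiff_const.add S.contDiff

lemma rs_comp_at {f : E n → ℝ} {x₀ : E n} {S : E n ≃L[ℝ] E n} {ξ : E n}
    (hf : ContDiffAt ℝ 2 f (x₀ + S ξ)) : ContDiffAt ℝ 2 (fun z => f (x₀ + S z)) ξ :=
  ContDiffAt.comp (g := f) ξ hf (contDiff_const.add S.contDiff).contDiffAt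

lemma rs_pderiv {g : E n → ℝ} {x₀ : E n} {S : E n ≃L[ℝ] E n} {z : E n}
    (hg : DifferentiableAt ℝ g (x₀ + S z)) (j : Fin n) :
    pderiv j (fun z => g (x₀ + S z)) z = ∑ b, pderiv b g (x₀ + S z) * rsM S b j := by
  have := (hg.hasFDerivAt.comp z (rs_hasFDerivAt x₀ S z)).fderiv
  rw [pderiv, show (fun z => g (x₀ + S z)) = g ∘ fun z => x₀ + S z from rfl, this]
  exact fderiv_apply_eq_sum g _ _

lemma rs_hess_congr {f g : E n → ℝ} {x : E n} (h : f =ᶠ[𝓝 x] g) :
    hessianMat f x = hessianMat g x := by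
  have h1 : dd f =ᶠ[𝓝 x] dd g := h.eventuallyEq_nhds.mono fun z hz => dd_congr hz
  ext i j
  exact AM.coreA_hess_congr h1 i j

lemma rs_hess_comp {f : E n → ℝ} {x₀ : E n} {S : E n ≃L[ℝ] E n} {ξ : E n}
    (hf : ContDiffAt ℝ 2 f (x₀ + S ξ)) :
    hessianMat (fun z => f (x₀ + S z)) ξ = (rsM S).transpose * hessianMat f (x₀ + S ξ) * rsM S := by
  have h1 : dd (fun z => f (x₀ + S z)) =ᶠ[𝓝 ξ]
      fun z j => ∑ b, pderiv b f (x₀ + S z) * rsM S b j := by
    filter_upwards [(rs_hasFDerivAt x₀ S ξ).continuousAt.eventually (AM.coreA_ev_diff hf)] with z hz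
    funext j
    exact rs_pderiv hz j
  have h2 : ∀ b, DifferentiableAt ℝ (fun z => pderiv b f (x₀ + S z)) ξ := fun b =>
    DifferentiableAt.comp (g := pderiv b f) ξ (diff1_dd hf b)
      (rs_hasFDerivAt x₀ S ξ).differentiableAt
  ext i j
  rw [AM.coreA_hess_congr h1, dd_sum _ fun b _ => (h2 b).mul_const _, Matrix.mul_apply,
    Finset.sum_apply]
  refine Finset.sum_congr rfl fun b _ => ?_
  simp only [mul_comm _ (rsM S b j)]
  rw [dd_const_mul _ (h2 b), Pi.smul_apply, smul_eq_mul, Matrix.mul_apply]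
  congr 1
  refine (rs_pderiv (g := pderiv b f) (diff1_dd hf b) i).trans ?_
  exact Finset.sum_congr rfl fun a _ => mul_comm _ _

lemma rs_hess_aff {g : E n → ℝ} {x : E n} (hg : ContDiffAt ℝ 2 g x) (a c : ℝ)
    (L : E n →L[ℝ] ℝ) : hessianMat (fun z => a * g z + (c + L z)) x = a • hessianMat g x := by
  have h1 : dd (fun z => a * g z + (c + L z)) =ᶠ[𝓝 x]
      fun z j => a * pderiv j g z + L (EuclideanSpace.single j 1) := by
    filter_upwards [AM.coreA_ev_diff hg] with z hz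
    funext j
    have := ((hz.hasFDerivAt.const_mul a).add (L.hasFDerivAt.const_add c)).fderiv
    rw [dd, pderiv, show (fun z => a * g z + (c + L z)) =
      (fun z => a * g z) + fun z => c + L z from rfl, this]
    simp [pderiv]
  ext i j
  have h2 : DifferentiableAt ℝ (pderiv j g) x := diff1_dd hg j
  rw [AM.coreA_hess_congr h1, dd_add (h2.const_mul a) (differentiableAt_const _), dd_const,
    dd_const_mul a h2]
  simp [dd, hessianMat]

lemma rs_hess {u u' : E n → ℝ} {x₀ p : E n} {c h : ℝ} {S : E n ≃L[ℝ] E n}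
    (hval : ∀ ξ, u' ξ = (u (x₀ + S ξ) - c - ⟪p, S ξ⟫) / h) {ξ : E n}
    (hu : ContDiffAt ℝ 2 u (x₀ + S ξ)) :
    hessianMat u' ξ = h⁻¹ • ((rsM S).transpose * hessianMat u (x₀ + S ξ) * rsM S) := by
  rw [← rs_hess_comp hu, ← rs_hess_aff (rs_comp_at hu)
    h⁻¹ (-c / h) (-h⁻¹ • (innerSL ℝ p).comp (S : E n →L[ℝ] E n))]
  congr 1
  funext z
  rw [hval]
  simp
  ring

lemma rs_trace {H P : Matrix (Fin n) (Fin n) ℝ} (F : Matrix (Fin n) (Fin n) ℝ) (hH : H.det ≠ 0)
    (hP : P.det ≠ 0) {h : ℝ} (hh : h ≠ 0) :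
    ∑ i, ∑ j, (h⁻¹ • (P.transpose * H * P))⁻¹ i j * (P.transpose * F * P) i j =
      h * ∑ i, ∑ j, H⁻¹ i j * F i j := by
  have ht : ∀ A B : Matrix (Fin n) (Fin n) ℝ,
      ∑ i, ∑ j, A i j * B i j = (A.transpose * B).trace := fun A B => by
    rw [Finset.sum_comm]
    simp [Matrix.trace, Matrix.mul_apply]
  have hP' : IsUnit P.transpose.det := by rw [Matrix.det_transpose]; exact hP.isUnit
  have h1 : (h⁻¹ • (P.transpose * H * P))⁻¹ = h • (P⁻¹ * H⁻¹ * P.transpose⁻¹) := by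
    refine Matrix.inv_eq_left_inv ?_
    rw [Matrix.smul_mul, Matrix.mul_smul, smul_smul, mul_inv_cancel₀ hh, one_smul]
    simp only [Matrix.mul_assoc]
    rw [Matrix.nonsing_inv_mul_cancel_left _ _ hP', Matrix.nonsing_inv_mul_cancel_left _ _ hH.isUnit,
      Matrix.nonsing_inv_mul _ hP.isUnit]
  rw [ht, ht, h1, Matrix.transpose_smul, Matrix.smul_mul, Matrix.trace_smul, smul_eq_mul]
  congr 1
  rw [Matrix.transpose_mul, Matrix.transpose_mul, Matrix.transpose_nonsing_inv P,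
    Matrix.transpose_nonsing_inv P.transpose, Matrix.transpose_transpose]
  simp only [Matrix.mul_assoc]
  rw [Matrix.nonsing_inv_mul_cancel_left _ _ hP', Matrix.trace_mul_comm]
  simp only [Matrix.mul_assoc]
  rw [Matrix.mul_nonsing_inv _ hP.isUnit, Matrix.mul_one]

lemma rs_det (H P : Matrix (Fin n) (Fin n) ℝ) (h : ℝ) :
    (h⁻¹ • (P.transpose * H * P)).det = P.det ^ 2 / h ^ n * H.det := by
  rw [Matrix.det_smul, Matrix.det_mul, Matrix.det_mul, Matrix.det_transpose, Fintype.card_fin,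
    inv_pow]
  ring

/-- the linear part of the ambient affine map -/
def rsT (p : E n) {h : ℝ} (hh : h ≠ 0) (S : E n ≃L[ℝ] E n) : A n ≃L[ℝ] A n :=
  LinearEquiv.toContinuousLinearEquiv
    { toFun := fun X => mkA (S (base X)) (⟪p, S (base X)⟫ + h * ht X)
      invFun := fun Y => mkA (S.symm (base Y)) ((ht Y - ⟪p, base Y⟫) / h)
      map_add' := fun X Y => by
        ext a
        rcases a with i | a
        · simp
        · simp [inner_add_right]; ring
      map_smul' := fun c X => by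
        ext a
        rcases a with i | a
        · simp
        · simp [inner_smul_right]; ring
      left_inv := fun X => by
        simp only [base_mkA, ht_mkA, ContinuousLinearEquiv.symm_apply_apply, add_sub_cancel_left]
        rw [mul_div_cancel_left₀ _ hh, mkA_base_ht]
      right_inv := fun Y => by
        simp only [base_mkA, ht_mkA, ContinuousLinearEquiv.apply_symm_apply]
        rw [mul_div_cancel₀ _ hh, add_sub_cancel, mkA_base_ht] }

lemma rsT_apply (p : E n) {h : ℝ} (hh : h ≠ 0) (S : E n ≃L[ℝ] E n) (X : A n) :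
    rsT p hh S X = mkA (S (base X)) (⟪p, S (base X)⟫ + h * ht X) := rfl

lemma rs_epi {Ω Ω' : Set (E n)} {u u' : E n → ℝ} {x₀ p : E n} {c h : ℝ} (hh : 0 < h)
    {S : E n ≃L[ℝ] E n} (hmem : ∀ ξ, ξ ∈ Ω' ↔ x₀ + S ξ ∈ Ω)
    (hval : ∀ ξ, u' ξ = (u (x₀ + S ξ) - c - ⟪p, S ξ⟫) / h) (X : A n) :
    X ∈ epi Ω' u' ↔ mkA x₀ c + rsT p hh.ne' S X ∈ epi Ω u := by
  simp only [epi, Set.mem_ofPred_eq, rsT_apply, base_add, base_mkA, ht_add, ht_mkA, hmem, hval]
  rw [div_le_iff₀ hh]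
  refine and_congr_right fun _ => ⟨fun h => ?_, fun h => ?_⟩ <;> linarith

lemma rs_at (M : AM n) {f : E n → ℝ} (hf : ContDiffOn ℝ ∞ f M.Ω) {x : E n} (hx : x ∈ M.Ω) :
    ContDiffAt ℝ 2 f x :=
  (hf.contDiffAt (M.isOpen.mem_nhds hx)).of_le (by norm_cast)

theorem exists_resc (M : AM n) {x₀ : E n} (hx₀ : x₀ ∈ M.Ω) {h : ℝ} (hh : 0 < h)
    (S : E n ≃L[ℝ] E n) : ∃ M' : AM n, Resc M M' x₀ h S := by
  set u' : E n → ℝ := fun ξ => (M.u (x₀ + S ξ) - M.u x₀ - ⟪M.grad x₀, S ξ⟫) / h with hu'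
  have hval : ∀ ξ, u' ξ = (M.u (x₀ + S ξ) - M.u x₀ - ⟪M.grad x₀, S ξ⟫) / h := fun _ => rfl
  have hop : IsOpen {ξ | x₀ + S ξ ∈ M.Ω} := M.isOpen.preimage (rs_contDiff x₀ S).continuous
  have hH : ∀ ξ, x₀ + S ξ ∈ M.Ω → hessianMat u' ξ =
      h⁻¹ • ((rsM S).transpose * hessianMat M.u (x₀ + S ξ) * rsM S) := fun ξ hξ =>
    rs_hess hval (rs_at M M.smooth hξ)
  have hc : 0 < (rsM S).det ^ 2 / h ^ n := div_pos (sq_pos_of_ne_zero (rsM_det_ne S)) (by positivity)
  refine ⟨⟨{ξ | x₀ + S ξ ∈ M.Ω}, u', hop, ?_, ⟨0, by simpa using hx₀⟩, ?_, fun ξ hξ => ?_,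
    fun ξ hξ => ?_, ?_⟩, fun _ => Iff.rfl, hval⟩
  · intro a ha b hb s t hs ht hst
    have := M.convex ha hb hs ht hst
    have e : s • (x₀ + S a) + t • (x₀ + S b) = x₀ + S (s • a + t • b) := by
      rw [smul_add, smul_add, add_add_add_comm, ← add_smul, hst, one_smul, map_add, map_smul,
        map_smul]
    rwa [e] at this
  · refine ContDiffOn.div_const (ContDiffOn.sub (ContDiffOn.sub ?_ contDiffOn_const) ?_) h
    · exact M.smooth.comp (rs_contDiff x₀ S).contDiffOn fun _ h => h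
    · exact (contDiff_const.inner ℝ S.contDiff).contDiffOn
  · rw [hH ξ hξ]
    refine Matrix.PosDef.smul ?_ (inv_pos.2 hh)
    have := (M.pos _ hξ).conjTranspose_mul_mul_same (B := rsM S)
      (Matrix.mulVec_injective_iff_isUnit.2 ((Matrix.isUnit_iff_isUnit_det _).2 (rsM_det_ne S).isUnit))
    simpa using this
  · have h1 : detPower n u' =ᶠ[𝓝 ξ] fun z =>
        ((rsM S).det ^ 2 / h ^ n) ^ (-((n : ℝ) + 1) / ((n : ℝ) + 2)) *
          detPower n M.u (x₀ + S z) + (0 + (0 : E n →L[ℝ] ℝ) z) := by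
      filter_upwards [hop.mem_nhds hξ] with z hz
      rw [detPower, hH z hz, rs_det, Real.mul_rpow hc.le (M.pos _ hz).det_pos.le]
      simp [detPower]
    have h2 : ContDiffAt ℝ 2 (detPower n M.u) (x₀ + S ξ) :=
      rs_at M (M.contDiffOn_det.rpow_const_of_ne fun x hx => (M.det_pos hx).ne') hξ
    have h3 := M.eqn _ hξ
    have h4 : (hessianMat M.u (x₀ + S ξ)).det ≠ 0 := (M.det_pos hξ).ne'
    unfold affineMaximalOp at h3 ⊢
    simp only [mul_assoc, ← Finset.mul_sum] at h3 ⊢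
    rw [rs_hess_congr h1,
      rs_hess_aff (rs_comp_at h2), rs_hess_comp h2,
      hH ξ hξ]
    simp only [Matrix.smul_apply _ ((rsM S).transpose * hessianMat (detPower n M.u) _ * rsM S),
      smul_eq_mul, mul_left_comm _ (_ ^ (-((n : ℝ) + 1) / ((n : ℝ) + 2))), ← Finset.mul_sum]
    rw [rs_trace _ h4 (rsM_det_ne S) hh.ne', (mul_eq_zero.1 h3).resolve_left h4]
    simp
  · have : epi {ξ | x₀ + S ξ ∈ M.Ω} u' =
        (fun X => mkA x₀ (M.u x₀) + rsT (M.grad x₀) hh.ne' S X) ⁻¹' epi M.Ω M.u :=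
      Set.ext fun X => rs_epi hh (fun _ => Iff.rfl) hval X
    rw [this]
    exact M.closed.preimage (continuous_const.add (rsT (M.grad x₀) hh.ne' S).continuous)

namespace Resc

variable {M M' : AM n} {x₀ : E n} {h : ℝ} {S : E n ≃L[ℝ] E n}

theorem qf_eq (hR : Resc M M' x₀ h S) (hh : 0 < h) {ξ : E n} (hξ : ξ ∈ M'.Ω) (v : E n) :
    M'.qf v ξ = M.qf (S v) (x₀ + S ξ) / h := by
  unfold AM.qf AM.H
  rw [rs_hess hR.val (rs_at M M.smooth ((hR.mem ξ).1 hξ))]
  generalize hessianMat M.u (x₀ + S ξ) = H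
  have h1 : ∀ (A : Matrix (Fin n) (Fin n) ℝ) (w : Fin n → ℝ),
      ∑ i, ∑ j, A i j * w i * w j = w ⬝ᵥ A.mulVec w := fun A w => by
    simp only [dotProduct, Matrix.mulVec, Finset.mul_sum]
    exact Finset.sum_congr rfl fun i _ => Finset.sum_congr rfl fun j _ => by ring
  have h2 : (S v).ofLp = (rsM S).mulVec v.ofLp := funext fun a => rsM_apply S v a
  rw [h1, h1, h2, Matrix.smul_mulVec, dotProduct_smul, ← Matrix.mulVec_mulVec,
    ← Matrix.mulVec_mulVec, Matrix.dotProduct_mulVec, Matrix.vecMul_transpose, smul_eq_mul,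
    div_eq_inv_mul]

theorem det_eq (hR : Resc M M' x₀ h S) (hh : 0 < h) {ξ : E n} (hξ : ξ ∈ M'.Ω) :
    M'.det ξ = (S : E n →L[ℝ] E n).det ^ 2 / h ^ n * M.det (x₀ + S ξ) := by
  unfold AM.det AM.H
  rw [rs_hess hR.val (rs_at M M.smooth ((hR.mem ξ).1 hξ)), rs_det, rsM_det]

theorem Lop_eq (hR : Resc M M' x₀ h S) (hh : 0 < h) {ξ : E n} (hξ : ξ ∈ M'.Ω) {f : E n → ℝ}
    (hf : ContDiffAt ℝ 2 f (x₀ + S ξ)) :
    M'.Lop (fun z => f (x₀ + S z)) ξ = h * M.Lop f (x₀ + S ξ) := by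
  unfold AM.Lop AM.Hi AM.H
  rw [rs_hess hR.val (rs_at M M.smooth ((hR.mem ξ).1 hξ)), rs_hess_comp hf]
  exact rs_trace _ (M.det_pos ((hR.mem ξ).1 hξ)).ne' (rsM_det_ne S) hh.ne'

theorem img (hR : Resc M M' x₀ h S) (hh : 0 < h) : Img M.K M'.K := by
  exact ⟨rsT (M.grad x₀) hh.ne' S, mkA x₀ (M.u x₀), rs_epi hh hR.mem hR.val⟩

end Resc

end Crest.Agent.R236
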