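import Crest.Agent.R236.CoreB

/-!
# Row 236: common pointwise formulas for Steps I and II
-/

set_option autoImplicit false
open scoped ContDiff RealInnerProductSpace ENNReal Topology
open Crest.GeometryTopology.CoordMetric Crest.GeometryTopology.AffineMaximal MeasureTheory

noncomputable section

namespace Crest.Agent.R236

variable {n : ℕ}

/-- integrate a pointwise differential inequality -/
theorem AM.mass_le_of_Dv (M : AM n) {U C S : Set (E n)} (hU : IsOpen U) (hUΩ : U ⊆ M.Ω)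
    (hC : IsCompact C) (hCU : C ⊆ U) (hS : MeasurableSet S) (φ : Form n)
    (hφ : ∀ i, ContDiffOn ℝ 1 (fun z => φ z i) U) (h0 : ∀ x ∈ U, x ∉ C → φ x = 0)
    {f g : E n → ℝ} (hf : ContinuousOn f C) (hg : ContinuousOn g C) (hf0 : ∀ x ∈ C, 0 ≤ f x)
    (hg0 : ∀ x ∈ C, 0 ≤ g x) {a b : ℝ} (ha : 0 < a) (hb : 0 ≤ b)
    (hle : ∀ x ∈ C, M.Dv φ x ≤ -(a * f x) + b * S.indicator g x) :
    M.mass f C ≤ ENNReal.ofReal (b / a) * M.mass g (C ∩ S) := by
  have hCΩ : C ⊆ M.Ω := hCU.trans hUΩ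
  have hCm : MeasurableSet C := hC.measurableSet
  have hρc : ContinuousOn M.rho C := M.contDiffOn_rho.continuousOn.mono hCΩ
  have hρ : ∀ x ∈ C, 0 < M.rho x := fun x hx => M.rho_pos (hCΩ hx)
  have hfi : IntegrableOn (fun x => f x / M.rho x) C :=
    (hf.div hρc fun x hx => (hρ x hx).ne').integrableOn_compact hC
  have hgi : IntegrableOn (fun x => g x / M.rho x) C :=
    (hg.div hρc fun x hx => (hρ x hx).ne').integrableOn_compact hC
  have hDi : IntegrableOn (fun x => M.Dv φ x / M.rho x) C :=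
    (((M.continuousOn_Dv hU hUΩ hφ).mono hCU).div hρc
      fun x hx => (hρ x hx).ne').integrableOn_compact hC
  have hgi' : IntegrableOn (S.indicator fun x => g x / M.rho x) C := hgi.indicator hS
  have h1 := M.integral_Dv_eq_zero hU hUΩ hC hCU φ hφ h0
  have h2 : ∫ x in C, M.Dv φ x / M.rho x
      ≤ ∫ x in C, (-(a * (f x / M.rho x)) + b * S.indicator (fun x => g x / M.rho x) x) := by
    refine setIntegral_mono_on hDi ((hfi.const_mul a).neg.add (hgi'.const_mul b)) hCm ?_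
    intro x hx
    have hx' := hle x hx
    have hr := hρ x hx
    have : S.indicator (fun x => g x / M.rho x) x = S.indicator g x / M.rho x := by
      by_cases hxS : x ∈ S <;> simp [hxS]
    rw [this, div_le_iff₀ hr]
    have e : (-(a * (f x / M.rho x)) + b * (S.indicator g x / M.rho x)) * M.rho x
        = -(a * f x) + b * S.indicator g x := by field_simp
    rw [e]; exact hx'
  have hneg : Integrable (fun x => -(a * (f x / M.rho x))) (volume.restrict C) :=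
    (hfi.const_mul a).neg
  rw [h1, integral_add hneg (hgi'.const_mul b), integral_neg, integral_const_mul,
    integral_const_mul, setIntegral_indicator hS] at h2
  have h3 : ∫ x in C, f x / M.rho x ≤ b / a * ∫ x in C ∩ S, g x / M.rho x := by
    rw [div_mul_eq_mul_div, le_div_iff₀ ha]; linarith
  have e1 : M.mass f C = ENNReal.ofReal (∫ x in C, f x / M.rho x) := by
    unfold AM.mass
    rw [ofReal_integral_eq_lintegral_ofReal hfi]
    exact (ae_restrict_iff' hCm).2 (Filter.Eventually.of_forall fun x hx =>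
      div_nonneg (hf0 x hx) (hρ x hx).le)
  have e2 : M.mass g (C ∩ S) = ENNReal.ofReal (∫ x in C ∩ S, g x / M.rho x) := by
    unfold AM.mass
    rw [ofReal_integral_eq_lintegral_ofReal (hgi.mono_set Set.inter_subset_left)]
    exact (ae_restrict_iff' (hCm.inter hS)).2 (Filter.Eventually.of_forall fun x hx =>
      div_nonneg (hg0 x hx.1) (hρ x hx.1).le)
  rw [e1, e2, ← ENNReal.ofReal_mul (div_nonneg hb ha.le)]
  exact ENNReal.ofReal_le_ofReal h3

lemma contDiffOn_dd {f : E n → ℝ} {U : Set (E n)} (hU : IsOpen U) (hf : ContDiffOn ℝ ∞ f U)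
    (i : Fin n) : ContDiffOn ℝ ∞ (fun z => dd f z i) U := contDiffOn_pderiv hU hf i

lemma diffAt_of_contDiffOn {f : E n → ℝ} {U : Set (E n)} (hU : IsOpen U)
    (hf : ContDiffOn ℝ ∞ f U) {x : E n} (hx : x ∈ U) : DifferentiableAt ℝ f x :=
  (hf.contDiffAt (hU.mem_nhds hx)).differentiableAt (by simp)

lemma diff1_of_contDiffOn {φ : Form n} {U : Set (E n)} (hU : IsOpen U)
    (hφ : ∀ i, ContDiffOn ℝ ∞ (fun z => φ z i) U) {x : E n} (hx : x ∈ U) : Diff1 φ x :=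
  fun i => diffAt_of_contDiffOn hU (hφ i) hx

namespace WD

variable {j : ℕ} (W : WD n j) (M : AM n)

/-- `Σ ỹ_i dν_i + δ dΛ` -/
def Rb : Form n := fun x => ∑ i, W.yt M i x • dd (W.nui M i) x + W.δ • dd (W.Lm M) x
/-- `Σ ν_i dỹ_i` -/
def Pb : Form n := fun x => ∑ i, W.nui M i x • dd (W.yt M i) x
/-- `dΛ + Rb / 32` -/
def RG : Form n := fun x => dd (W.Lm M) x + (1 / 32 : ℝ) • W.Rb M x
def xiy (i : Fin j) (x : E n) : ℝ := W.y i (M.xi x)
def Xi (x : E n) : ℝ := ∑ i, W.nui M i x * W.xiy M i x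
def B0 (x : E n) : ℝ := ∑ i, W.yt M i x * W.nui M i x
def Sn (x : E n) : ℝ := ∑ i, W.nui M i x

lemma cd_yt (i : Fin j) : ContDiffOn ℝ ∞ (W.yt M i) M.Ω := M.contDiffOn_aff _ _
lemma cd_nui (i : Fin j) : ContDiffOn ℝ ∞ (W.nui M i) M.Ω := M.contDiffOn_nuv _
lemma cd_Lm : ContDiffOn ℝ ∞ (W.Lm M) M.Ω := M.contDiffOn_Lam _
lemma cd_Bt : ContDiffOn ℝ ∞ (W.Bt M) M.Ω :=
  (ContDiffOn.sum fun i _ => (W.cd_yt M i).mul (W.cd_nui M i)).add
    (contDiffOn_const.mul (W.cd_Lm M))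
lemma cd_G : ContDiffOn ℝ ∞ (W.G M) M.Ω :=
  (W.cd_Lm M).add (contDiffOn_const.mul (W.cd_Bt M))
lemma cd_s : ContDiffOn ℝ ∞ (W.s M) M.Ω := ContDiffOn.sum fun i _ => W.cd_yt M i

lemma cd_Rb (k : Fin n) : ContDiffOn ℝ ∞ (fun z => W.Rb M z k) M.Ω := by
  simp only [Rb, Pi.add_apply, Finset.sum_apply, Pi.smul_apply, smul_eq_mul]
  exact (ContDiffOn.sum fun i _ => (W.cd_yt M i).mul
    (contDiffOn_dd M.isOpen (W.cd_nui M i) k)).add
    (contDiffOn_const.mul (contDiffOn_dd M.isOpen (W.cd_Lm M) k))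
lemma cd_Pb (k : Fin n) : ContDiffOn ℝ ∞ (fun z => W.Pb M z k) M.Ω := by
  simp only [Pb, Finset.sum_apply, Pi.smul_apply, smul_eq_mul]
  exact ContDiffOn.sum fun i _ => (W.cd_nui M i).mul (contDiffOn_dd M.isOpen (W.cd_yt M i) k)
lemma cd_RG (k : Fin n) : ContDiffOn ℝ ∞ (fun z => W.RG M z k) M.Ω := by
  simp only [RG, Pi.add_apply, Pi.smul_apply, smul_eq_mul]
  exact (contDiffOn_dd M.isOpen (W.cd_Lm M) k).add (contDiffOn_const.mul (W.cd_Rb M k))

variable {W M}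

lemma dd_Bt {x : E n} (hx : x ∈ M.Ω) : dd (W.Bt M) x = W.Rb M x + W.Pb M x := by
  have hy := fun i => diffAt_of_contDiffOn M.isOpen (W.cd_yt M i) hx
  have hν := fun i => diffAt_of_contDiffOn M.isOpen (W.cd_nui M i) hx
  have hL := diffAt_of_contDiffOn M.isOpen (W.cd_Lm M) hx
  have e : W.Bt M = fun z => (∑ i, W.yt M i z * W.nui M i z) + W.δ * W.Lm M z := rfl
  have hm : ∀ i, DifferentiableAt ℝ (fun z => W.yt M i z * W.nui M i z) x :=
    fun i => (hy i).mul (hν i)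
  rw [e, dd_add (DifferentiableAt.fun_sum fun i _ => hm i) (hL.const_mul _),
    dd_sum _ (fun i _ => hm i), dd_const_mul _ hL]
  simp only [dd_mul (hy _) (hν _), Finset.sum_add_distrib, Rb, Pb]
  abel

lemma dd_G {x : E n} (hx : x ∈ M.Ω) :
    dd (W.G M) x = W.RG M x + (1 / 32 : ℝ) • W.Pb M x := by
  have hL := diffAt_of_contDiffOn M.isOpen (W.cd_Lm M) hx
  have hB := diffAt_of_contDiffOn M.isOpen (W.cd_Bt M) hx
  have e : W.G M = fun z => W.Lm M z + (1 / 32) * W.Bt M z := rfl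
  rw [e, dd_add hL (hB.const_mul _), dd_const_mul _ hB, dd_Bt hx]
  simp only [RG, smul_add]
  abel

lemma Dv_dd_yt {x : E n} (hx : x ∈ M.Ω) (i : Fin j) :
    M.Dv (dd (W.yt M i)) x = n * W.xiy M i x := M.Dv_dd_aff _ _ hx

lemma ip_nui_yt (hbio : ∀ i l, W.y i (W.e l) = if i = l then 1 else 0) {x : E n} (hx : x ∈ M.Ω)
    (l i : Fin j) : M.ip x (dd (W.nui M l) x) (dd (W.yt M i) x)
      = W.nui M l x * W.xiy M i x - if i = l then 1 else 0 := by
  rw [← hbio i l]; exact M.ip_dd_nuv_aff _ _ _ hx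

lemma ip_Lm_yt (hbio : ∀ i l, W.y i (W.e l) = if i = l then 1 else 0) {x : E n} (hx : x ∈ M.Ω)
    (i : Fin j) : M.ip x (dd (W.Lm M) x) (dd (W.yt M i) x)
      = W.Lm M x * W.xiy M i x + (W.yt M i x - 2 * W.d) := by
  have h := M.ip_dd_Lam_aff W.O1 (W.y i) (W.d - W.y i W.O) hx
  have e : W.y i (W.O1 - M.X x) = -(W.yt M i x - 2 * W.d) := by
    simp only [O1, yt, AM.aff, map_sub, map_add, map_smul, map_sum, hbio, smul_eq_mul,
      Finset.sum_ite_eq, Finset.mem_univ, if_true]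
    ring
  rw [e, sub_neg_eq_add] at h
  exact h

lemma ip_Rb_yt (hbio : ∀ i l, W.y i (W.e l) = if i = l then 1 else 0) {x : E n} (hx : x ∈ M.Ω)
    (i : Fin j) : M.ip x (W.Rb M x) (dd (W.yt M i) x)
      = W.Bt M x * W.xiy M i x - W.yt M i x + W.δ * (W.yt M i x - 2 * W.d) := by
  simp only [Rb, M.ip_add_left, M.ip_sum_left, M.ip_smul_left, ip_nui_yt hbio hx,
    ip_Lm_yt hbio hx, mul_sub, Finset.sum_sub_distrib, mul_ite, mul_one, mul_zero,
    Finset.sum_ite_eq, Finset.mem_univ, if_true, Bt, add_mul, Finset.sum_mul]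
  simp only [mul_assoc]
  ring

lemma ip_RG_yt (hbio : ∀ i l, W.y i (W.e l) = if i = l then 1 else 0) {x : E n} (hx : x ∈ M.Ω)
    (i : Fin j) : M.ip x (W.RG M x) (dd (W.yt M i) x)
      = W.G M x * W.xiy M i x + ((1 + W.δ / 32) * (W.yt M i x - 2 * W.d) - W.yt M i x / 32) := by
  simp only [RG, M.ip_add_left, M.ip_smul_left, ip_Rb_yt hbio hx, ip_Lm_yt hbio hx, G]
  ring

lemma ip_Rb_Pb (hbio : ∀ i l, W.y i (W.e l) = if i = l then 1 else 0) {x : E n} (hx : x ∈ M.Ω) :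
    M.ip x (W.Rb M x) (W.Pb M x)
      = W.Bt M x * W.Xi M x - W.B0 M x + W.δ * (W.B0 M x - 2 * W.d * W.Sn M x) := by
  simp only [Pb, M.ip_sum_right, M.ip_smul_right, ip_Rb_yt hbio hx, Xi, B0, Sn, Finset.mul_sum,
    ← Finset.sum_sub_distrib, ← Finset.sum_add_distrib]
  exact Finset.sum_congr rfl fun i _ => by ring

lemma ip_RG_Pb (hbio : ∀ i l, W.y i (W.e l) = if i = l then 1 else 0) {x : E n} (hx : x ∈ M.Ω) :
    M.ip x (W.RG M x) (W.Pb M x)
      = W.G M x * W.Xi M x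
        + ((1 + W.δ / 32) * (W.B0 M x - 2 * W.d * W.Sn M x) - W.B0 M x / 32) := by
  simp only [Pb, M.ip_sum_right, M.ip_smul_right, ip_RG_yt hbio hx, Xi, B0, Sn, Finset.mul_sum,
    Finset.sum_div, ← Finset.sum_sub_distrib, ← Finset.sum_add_distrib]
  exact Finset.sum_congr rfl fun i _ => by ring

lemma Dv_Rb (hbio : ∀ i l, W.y i (W.e l) = if i = l then 1 else 0) {x : E n} (hx : x ∈ M.Ω) :
    M.Dv (W.Rb M) x = W.Xi M x - j + W.δ * n := by
  have hy := fun i => diffAt_of_contDiffOn M.isOpen (W.cd_yt M i) hx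
  have hν : ∀ i, Diff1 (dd (W.nui M i)) x := fun i =>
    diff1_of_contDiffOn M.isOpen (contDiffOn_dd M.isOpen (W.cd_nui M i)) hx
  have hL : Diff1 (dd (W.Lm M)) x :=
    diff1_of_contDiffOn M.isOpen (contDiffOn_dd M.isOpen (W.cd_Lm M)) hx
  have h1 : ∀ i, Diff1 (fun z => W.yt M i z • dd (W.nui M i) z) x := fun i k =>
    (hy i).mul (hν i k)
  have e : W.Rb M = fun z => (∑ i, W.yt M i z • dd (W.nui M i) z) + W.δ • dd (W.Lm M) z := rfl
  rw [e, M.Dv_add hx, M.Dv_sum _ hx (fun i _ => h1 i), M.Dv_const_smul _ hx hL]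
  · have : M.Dv (dd (W.Lm M)) x = n := M.Dv_dd_Lam _ hx
    rw [this]
    have h2 : ∀ i, M.Dv (fun z => W.yt M i z • dd (W.nui M i) z) x
        = W.nui M i x * W.xiy M i x - 1 := by
      intro i
      rw [M.Dv_smul hx (hy i) (hν i), M.ip_comm hx, ip_nui_yt hbio hx]
      have : M.Dv (dd (W.nui M i)) x = 0 := M.Dv_dd_nuv _ hx
      simp [this]
    simp only [h2, Finset.sum_sub_distrib, Xi, Finset.sum_const, Finset.card_univ,
      Fintype.card_fin, nsmul_eq_mul, mul_one]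
  · intro k
    simp only [Finset.sum_apply]
    exact DifferentiableAt.fun_sum fun i _ => h1 i k
  · intro k
    exact (hL k).const_mul _

lemma Dv_Pb (hbio : ∀ i l, W.y i (W.e l) = if i = l then 1 else 0) {x : E n} (hx : x ∈ M.Ω) :
    M.Dv (W.Pb M) x = (n + 1) * W.Xi M x - j := by
  have hν := fun i => diffAt_of_contDiffOn M.isOpen (W.cd_nui M i) hx
  have hy : ∀ i, Diff1 (dd (W.yt M i)) x := fun i =>
    diff1_of_contDiffOn M.isOpen (contDiffOn_dd M.isOpen (W.cd_yt M i)) hx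
  have h1 : ∀ i, Diff1 (fun z => W.nui M i z • dd (W.yt M i) z) x := fun i k =>
    (hν i).mul (hy i k)
  have e : W.Pb M = fun z => ∑ i, W.nui M i z • dd (W.yt M i) z := rfl
  rw [e, M.Dv_sum _ hx (fun i _ => h1 i)]
  have h2 : ∀ i, M.Dv (fun z => W.nui M i z • dd (W.yt M i) z) x
      = (n + 1) * (W.nui M i x * W.xiy M i x) - 1 := by
    intro i
    rw [M.Dv_smul hx (hν i) (hy i), ip_nui_yt hbio hx, Dv_dd_yt hx]
    simp only [if_true]; ring
  simp only [h2, Finset.sum_sub_distrib, Xi, Finset.sum_const, Finset.card_univ,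
    Fintype.card_fin, nsmul_eq_mul, mul_one, Finset.mul_sum]

lemma Dv_RG (hbio : ∀ i l, W.y i (W.e l) = if i = l then 1 else 0) {x : E n} (hx : x ∈ M.Ω) :
    M.Dv (W.RG M) x = n + (W.Xi M x - j + W.δ * n) / 32 := by
  have hL : Diff1 (dd (W.Lm M)) x :=
    diff1_of_contDiffOn M.isOpen (contDiffOn_dd M.isOpen (W.cd_Lm M)) hx
  have hR : Diff1 (W.Rb M) x := diff1_of_contDiffOn M.isOpen (W.cd_Rb M) hx
  have e : W.RG M = fun z => dd (W.Lm M) z + (1 / 32 : ℝ) • W.Rb M z := rfl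
  have hR' : Diff1 (fun z => (1 / 32 : ℝ) • W.Rb M z) x := fun k => (hR k).const_mul _
  rw [e, M.Dv_add hx hL hR', M.Dv_const_smul _ hx hR, Dv_Rb hbio hx]
  have : M.Dv (dd (W.Lm M)) x = n := M.Dv_dd_Lam _ hx
  rw [this]; ring

namespace Good

variable {R : ℝ} (h : W.Good M R)
include h

lemma yt_pos {x : E n} (hx : x ∈ W.CR M R) (i : Fin j) : 0 < W.yt M i x :=
  lt_of_lt_of_le (by linarith [h.d_pos]) (h.yt_ge x hx i)

lemma B0_ge (hj : 1 ≤ j) {x : E n} (hx : x ∈ W.CR M R) :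
    -(W.δ * W.Lm M x / 2) ≤ W.B0 M x := by
  have hj' : (0 : ℝ) < j := by exact_mod_cast hj
  calc -(W.δ * W.Lm M x / 2) = ∑ _i : Fin j, -(W.δ * W.Lm M x / (2 * j)) := by
        simp only [Finset.sum_const, Finset.card_univ, Fintype.card_fin, nsmul_eq_mul]
        field_simp
    _ ≤ W.B0 M x := Finset.sum_le_sum fun i _ => h.nui_ge x hx i

lemma Bt_ge (hj : 1 ≤ j) {x : E n} (hx : x ∈ W.CR M R) : W.δ * W.Lm M x / 2 ≤ W.Bt M x := by
  have := h.B0_ge hj hx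
  have e : W.Bt M x = W.B0 M x + W.δ * W.Lm M x := rfl
  linarith

lemma Bt_pos (hj : 1 ≤ j) {x : E n} (hx : x ∈ W.CR M R) : 0 < W.Bt M x :=
  lt_of_lt_of_le (by have := h.Lm_pos x hx; have := h.δ_pos; positivity) (h.Bt_ge hj hx)

lemma G_pos (hj : 1 ≤ j) {x : E n} (hx : x ∈ W.CR M R) : 0 < W.G M x := by
  have := h.Lm_pos x hx; have := h.Bt_pos hj hx
  unfold G; positivity

lemma abs_yt_nui_le (hj : 1 ≤ j) {x : E n} (hx : x ∈ W.CR M R) (i : Fin j) :
    |W.yt M i x * W.nui M i x| ≤ W.Bt M x := by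
  have hj' : (1 : ℝ) ≤ j := by exact_mod_cast hj
  have hL := h.Lm_pos x hx
  have hδ := h.δ_pos
  have hB := h.Bt_ge hj hx
  have hq : W.δ * W.Lm M x / (2 * j) ≤ W.δ * W.Lm M x / 2 := by
    apply div_le_div_of_nonneg_left (by positivity) (by norm_num); linarith
  rw [abs_le]
  refine ⟨by linarith [h.nui_ge x hx i], ?_⟩
  have h1 : ∑ l, (W.yt M l x * W.nui M l x + W.δ * W.Lm M x / (2 * j))
      = W.B0 M x + W.δ * W.Lm M x / 2 := by
    simp only [Finset.sum_add_distrib, Finset.sum_const, Finset.card_univ, Fintype.card_fin,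
      nsmul_eq_mul, B0]
    field_simp
  have h2 : W.yt M i x * W.nui M i x + W.δ * W.Lm M x / (2 * j)
      ≤ ∑ l, (W.yt M l x * W.nui M l x + W.δ * W.Lm M x / (2 * j)) :=
    Finset.single_le_sum (f := fun l => W.yt M l x * W.nui M l x + W.δ * W.Lm M x / (2 * j))
      (fun l _ => by linarith [h.nui_ge x hx l]) (Finset.mem_univ i)
  have e : W.Bt M x = W.B0 M x + W.δ * W.Lm M x := rfl
  have : 0 ≤ W.δ * W.Lm M x / (2 * j) := by positivity
  have : 0 ≤ W.δ * W.Lm M x := by positivity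
  linarith

end Good

/-- the open set where all the quantities are positive -/
def UU (W : WD n j) (M : AM n) : Set (E n) :=
  {x | x ∈ M.Ω ∧ 0 < W.G M x ∧ 0 < W.Bt M x ∧ ∀ i, 0 < W.yt M i x}

lemma isOpen_UU : IsOpen (W.UU M) := by
  have h1 : IsOpen (M.Ω ∩ W.G M ⁻¹' Set.Ioi 0) :=
    (W.cd_G M).continuousOn.isOpen_inter_preimage M.isOpen isOpen_Ioi
  have h2 : IsOpen (M.Ω ∩ W.Bt M ⁻¹' Set.Ioi 0) :=
    (W.cd_Bt M).continuousOn.isOpen_inter_preimage M.isOpen isOpen_Ioi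
  have h3 : ∀ i, IsOpen (M.Ω ∩ W.yt M i ⁻¹' Set.Ioi 0) := fun i =>
    (W.cd_yt M i).continuousOn.isOpen_inter_preimage M.isOpen isOpen_Ioi
  have e : W.UU M = (M.Ω ∩ W.G M ⁻¹' Set.Ioi 0) ∩ (M.Ω ∩ W.Bt M ⁻¹' Set.Ioi 0) ∩
      ⋂ i, (M.Ω ∩ W.yt M i ⁻¹' Set.Ioi 0) := by
    ext x
    simp only [UU, Set.mem_ofPred_eq, Set.mem_inter_iff, Set.mem_preimage, Set.mem_Ioi,
      Set.mem_iInter]
    exact ⟨fun h => ⟨⟨⟨h.1, h.2.1⟩, h.1, h.2.2.1⟩, fun i => ⟨h.1, h.2.2.2 i⟩⟩,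
      fun h => ⟨h.1.1.1, h.1.1.2, h.1.2.2, fun i => (h.2 i).2⟩⟩
  rw [e]
  exact (h1.inter h2).inter (isOpen_iInter_of_finite h3)

lemma UU_sub : W.UU M ⊆ M.Ω := fun _ hx => hx.1

lemma Good.CR_sub_UU {R : ℝ} (h : W.Good M R) (hj : 1 ≤ j) : W.CR M R ⊆ W.UU M :=
  fun _ hx => ⟨hx.1, h.G_pos hj hx, h.Bt_pos hj hx, h.yt_pos hx⟩

lemma En_nonneg {x : E n} (hx : x ∈ M.Ω) : 0 ≤ W.En M x :=
  Finset.sum_nonneg fun _ _ => div_nonneg (M.ip_self_nonneg hx _) (sq_nonneg _)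

lemma continuousOn_En : ContinuousOn (W.En M) (W.UU M) := by
  refine continuousOn_finsetSum _ fun i _ => ContinuousOn.div ?_ ?_ ?_
  · have := fun k => (contDiffOn_dd M.isOpen (W.cd_yt M i) k).continuousOn.mono (UU_sub (W := W))
    exact M.continuousOn_ip UU_sub this this
  · exact ((W.cd_yt M i).continuousOn.mono UU_sub).pow 2
  · exact fun x hx => pow_ne_zero _ (hx.2.2.2 i).ne'

lemma cd_G_rpow (a : ℝ) : ContDiffOn ℝ ∞ (fun x => W.G M x ^ a) (W.UU M) :=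
  ((W.cd_G M).mono UU_sub).rpow_const_of_ne fun _ hx => hx.2.1.ne'

end WD

end Crest.Agent.R236
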