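import Crest.Agent.R236.CoreB

/-!
# Row 236: Trudinger-Wang determinant bounds on nice sections (maximum principle)

`grad_le`: from `Nice.ball` and `support_le`, `‖∇u‖ ≤ 1/(2γ₁)` on `{u ≤ 3}`.

Upper bound for `det` (lower bound for `rho`). On `{u < 3}` minimise
`f = log rho - log t - A Q`, `t = 3 - u`, `Q = ‖∇u‖²/2 = Σ u_k²/2` (the set `{u ≤ 3}` is compact by
`isCompact_preimage`; maximise `t e^{AQ}/rho` on it, it vanishes where `u = 3`). With `s = d log rho`: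
`Dv d log rho = -|s|²`; `Dv (d u_k) = -2 ⟨s, d u_k⟩` (from `ν_k = -rho u_k` harmonic, or `Dv_dd`),
`Σ_k |d u_k|² = tr(D²u) / rho =: τ ≥ n det^{1/n} / rho`, `|dQ|² ≤ 2 Q τ`,
`Dv dt = n ⟨s, dt⟩ - n / rho`. At the minimum `s = d log t + A dQ` and
`0 ≤ Dv df ≤ -(n-1)|s|² + (n+2) A |s| |dQ| + 2A² |dQ|² - A τ + n / (rho t)`; for `A` small (depending
on `γ₁`) this gives `t det^{1/n} ≤ C`.

Lower bound for `det`. Fix `x` with `u x ≤ 2`, let `γ = γ₂ γ₁`, `P = (x, u x - γ)`,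
`ĥ(z) = -hP P z = γ - (u x - u z - ∇u(z)(x - z))`; on the sphere `‖z - x‖ = γ₁` we have `ĥ ≤ -γ < 0`
by `Nice.strict` and `support_le`; `ĥ ≤ γ`, `ĥ(x) = γ`. With `G = -Lam P = rho ĥ` (`Dv dG = -n`)
maximise `f = 2 log G - log rho + A q`, `q = ‖z - x‖²/2 = Σ (z_k - x_k)²/2`, over
`{ĥ > 0} ∩ closedBall x γ₁` (maximise `rho (ĥ⁺)² e^{Aq}`). `Dv d z_k = n ⟨s, d z_k⟩`,
`Σ |d z_k|² = tr((D²u)⁻¹)/rho ≥ n det^{-1/n}/rho = n rho^{2/n}`. At the maximum
`2 d log G = s - A dq` and `0 ≥ -2n/G + |s|²/2 - C A |s||dq| - A²|dq|²/2 + A τ'`, so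
`rho^{2/n} G ≤ C`, hence `rho ĥ² ≤ C` at the maximum point (`ĥ ≤ γ`, and `γ` is a fixed constant).
AM-GM for the trace of a positive definite matrix: via `IsHermitian.eigenvalues` and
`inner_le_nnorm_mul_nnorm`/`Real.geom_mean_le_arith_mean`.
-/

set_option autoImplicit false
open scoped ContDiff RealInnerProductSpace ENNReal Topology
open Crest.GeometryTopology.CoordMetric Crest.GeometryTopology.AffineMaximal MeasureTheory

noncomputable section

namespace Crest.Agent.R236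

variable {n : ℕ}

section aux

open Matrix

lemma tw_quad (H : Matrix (Fin n) (Fin n) ℝ) (a b : Fin n → ℝ) :
    ∑ i, ∑ j, H i j * a i * b j = a ⬝ᵥ H *ᵥ b := by
  simp only [dotProduct, mulVec, Finset.mul_sum]
  exact Finset.sum_congr rfl fun i _ => Finset.sum_congr rfl fun j _ => by ring

lemma tw_sq (a : Fin n → ℝ) : ∑ i, a i ^ 2 = a ⬝ᵥ a := by
  simp only [dotProduct, sq]

lemma tw_spec {H : Matrix (Fin n) (Fin n) ℝ} (hH : H.IsHermitian) :
    ∃ U : Matrix (Fin n) (Fin n) ℝ, U * Uᵀ = 1 ∧ Uᵀ * U = 1 ∧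
      H = U * diagonal hH.eigenvalues * Uᵀ := by
  refine ⟨hH.eigenvectorUnitary, ?_, ?_, ?_⟩
  · have := Unitary.coe_mul_star_self hH.eigenvectorUnitary
    simpa [star_eq_conjTranspose] using this
  · have := Unitary.coe_star_mul_self hH.eigenvectorUnitary
    simpa [star_eq_conjTranspose] using this
  · have := hH.spectral_theorem
    rw [Unitary.conjStarAlgAut_apply] at this
    simpa [star_eq_conjTranspose] using this

lemma tw_diag (d a : Fin n → ℝ) : a ⬝ᵥ diagonal d *ᵥ a = ∑ k, d k * a k ^ 2 := by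
  simp only [dotProduct, mulVec_diagonal]
  exact Finset.sum_congr rfl fun k _ => by ring

lemma tw_conj (U D : Matrix (Fin n) (Fin n) ℝ) (a : Fin n → ℝ) :
    a ⬝ᵥ (U * D * Uᵀ) *ᵥ a = (Uᵀ *ᵥ a) ⬝ᵥ D *ᵥ (Uᵀ *ᵥ a) := by
  rw [← mulVec_mulVec, ← mulVec_mulVec, dotProduct_mulVec, mulVec_transpose]

/-- the quadratic form in an eigenbasis -/
lemma tw_form {H : Matrix (Fin n) (Fin n) ℝ} (hH : H.IsHermitian) (ξ : Fin n → ℝ) :
    ∃ η : Fin n → ℝ, ∑ i, ξ i ^ 2 = ∑ k, η k ^ 2 ∧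
      ∑ i, ∑ j, H i j * ξ i * ξ j = ∑ k, hH.eigenvalues k * η k ^ 2 := by
  obtain ⟨U, h1, -, h3⟩ := tw_spec hH
  refine ⟨Uᵀ *ᵥ ξ, ?_, ?_⟩
  · have := tw_conj U 1 ξ
    rwa [mul_one, h1, one_mulVec, one_mulVec, ← tw_sq, ← tw_sq] at this
  · rw [tw_quad, ← tw_diag, ← tw_conj, ← h3]

lemma tw_eig {H : Matrix (Fin n) (Fin n) ℝ} (hH : H.IsHermitian) (k : Fin n) :
    ∃ ξ : Fin n → ℝ, ∑ i, ξ i ^ 2 = 1 ∧ ∑ i, ∑ j, H i j * ξ i * ξ j = hH.eigenvalues k := by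
  obtain ⟨U, h1, h2, h3⟩ := tw_spec hH
  have h4 : Uᵀ *ᵥ (U *ᵥ Pi.single k 1) = Pi.single k 1 := by
    rw [mulVec_mulVec, h2, one_mulVec]
  refine ⟨U *ᵥ Pi.single k 1, ?_, ?_⟩
  · have := tw_conj U 1 (U *ᵥ Pi.single k 1)
    rw [mul_one, h1, one_mulVec, one_mulVec, h4, ← tw_sq] at this
    rw [this]
    simp
  · rw [tw_quad]
    conv_lhs => rw [h3]
    rw [tw_conj, h4, tw_diag, Finset.sum_eq_single k]
    · simp
    · intro b _ hb
      simp [hb]
    · simp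

lemma tw_trace {H : Matrix (Fin n) (Fin n) ℝ} (hH : H.IsHermitian) :
    H.trace = ∑ k, hH.eigenvalues k := by
  simpa using hH.trace_eq_sum_eigenvalues

lemma tw_det {H : Matrix (Fin n) (Fin n) ℝ} (hH : H.IsHermitian) :
    H.det = ∏ k, hH.eigenvalues k := by
  simpa using hH.det_eq_prod_eigenvalues

open scoped MatrixOrder in
lemma tw_root {H : Matrix (Fin n) (Fin n) ℝ} (hH : H.PosSemidef) :
    ∃ R : Matrix (Fin n) (Fin n) ℝ, H = Rᵀ * R := by
  obtain ⟨R, hR⟩ := CStarAlgebra.nonneg_iff_eq_star_mul_self.mp hH.nonneg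
  exact ⟨R, by simpa [star_eq_conjTranspose] using hR⟩

lemma tw_symm {H : Matrix (Fin n) (Fin n) ℝ} (hH : H.IsHermitian) : Hᵀ = H := by
  simpa using hH.eq

lemma tw_pair {G B : Matrix (Fin n) (Fin n) ℝ} (hB : Bᵀ = B) :
    ∑ i, ∑ j, G i j * B i j = (G * B).trace := by
  simp only [trace, diag, mul_apply]
  refine Finset.sum_congr rfl fun i _ => Finset.sum_congr rfl fun j _ => ?_
  rw [← transpose_apply B i j, hB, ← transpose_apply B j i, hB]

lemma tw_psd_conj {B : Matrix (Fin n) (Fin n) ℝ} (hB : B.PosSemidef)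
    (R : Matrix (Fin n) (Fin n) ℝ) : (R * B * Rᵀ).PosSemidef := by
  simpa using hB.mul_mul_conjTranspose_same R

lemma tw_amgm (hn : 1 ≤ n) (z : Fin n → ℝ) (hz : ∀ i, 0 ≤ z i) :
    ∏ i, z i ≤ ((∑ i, z i) / n) ^ n := by
  have hn' : (0 : ℝ) < n := by exact_mod_cast hn
  have h1 := Real.geom_mean_le_arith_mean_weighted Finset.univ (fun _ => (n : ℝ)⁻¹) z
    (fun _ _ => by positivity) (by simp [hn'.ne']) (fun i _ => hz i)
  rw [Real.finsetProd_rpow _ _ (fun i _ => hz i), ← Finset.mul_sum] at h1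
  have h2 : 0 ≤ ∏ i, z i := Finset.prod_nonneg fun i _ => hz i
  have h3 := pow_le_pow_left₀ (Real.rpow_nonneg h2 _) h1 n
  rwa [Real.rpow_inv_natCast_pow h2 (by omega), ← div_eq_inv_mul] at h3

lemma tw_quad_le {H : Matrix (Fin n) (Fin n) ℝ} (hH : H.PosSemidef) (ξ : Fin n → ℝ) :
    ∑ i, ∑ j, H i j * ξ i * ξ j ≤ (∑ i, ξ i ^ 2) * H.trace := by
  obtain ⟨η, h1, h2⟩ := tw_form hH.1 ξ
  rw [h1, h2, Finset.sum_mul, tw_trace hH.1]
  refine Finset.sum_le_sum fun k _ => ?_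
  rw [mul_comm]
  exact mul_le_mul_of_nonneg_left (Finset.single_le_sum (fun i _ => hH.eigenvalues_nonneg i)
    (Finset.mem_univ k)) (sq_nonneg _)

end aux

theorem Nice.grad_le {M : AM n} {γ₁ : ℝ} {γ₂ : ℝ → ℝ} (h : Nice M γ₁ γ₂) (hγ : 0 < γ₁)
    {x : E n} (hx : x ∈ M.Ω) (hu : M.u x ≤ 3) : ‖M.grad x‖ ≤ 1 / (2 * γ₁) := by
  rcases eq_or_ne (M.grad x) 0 with h0 | h0
  · rw [h0, norm_zero]
    positivity
  have hn : 0 < ‖M.grad x‖ := norm_pos_iff.2 h0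
  obtain ⟨h1, h2⟩ := h.ball x hx hu ((γ₁ / ‖M.grad x‖) • M.grad x) (by
    rw [norm_smul, Real.norm_of_nonneg (by positivity), div_mul_cancel₀ _ hn.ne'])
  have h3 := M.support_le hx h1
  rw [add_sub_cancel_left, real_inner_smul_right, real_inner_self_eq_norm_mul_norm,
    ← mul_assoc, div_mul_cancel₀ _ hn.ne'] at h3
  rw [le_div_iff₀ (by positivity)]
  linarith

theorem Nice.isCompact_sublevel {M : AM n} {γ₁ : ℝ} {γ₂ : ℝ → ℝ} (h : Nice M γ₁ γ₂) {a : ℝ}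
    (ha : a ≤ 4) : IsCompact {x | x ∈ M.Ω ∧ M.u x ≤ a} := by
  have hS : IsClosed {X : A n | ht X ≤ a} := isClosed_le a1_continuous_ht continuous_const
  have := M.isCompact_preimage hS (by
    refine (Metric.isBounded_closedBall (x := (0 : A n)) (r := 8)).subset ?_
    rintro P ⟨⟨h1, h2⟩, h3⟩
    have h4 : ht P ≤ a := h3
    have h5 := h.bdd _ h1 (by linarith)
    have h6 := h.nonneg _ h1
    have h7 := inner_A P P
    rw [real_inner_self_eq_norm_mul_norm, real_inner_self_eq_norm_mul_norm] at h7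
    rw [mem_closedBall_zero_iff]
    have h8 : ht P * ht P ≤ 4 * 4 := mul_self_le_mul_self (by linarith) (by linarith)
    have h9 : ‖base P‖ * ‖base P‖ ≤ 4 * 4 := mul_self_le_mul_self (norm_nonneg _) h5
    nlinarith [norm_nonneg P])
  exact this

/-- AM-GM for the trace of a positive semidefinite matrix -/
theorem det_le_trace_pow {B : Matrix (Fin n) (Fin n) ℝ} (hn : 1 ≤ n) (hB : B.PosSemidef) :
    B.det ≤ (B.trace / n) ^ n := by
  rw [tw_det hB.1, tw_trace hB.1]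
  exact tw_amgm hn _ hB.eigenvalues_nonneg

/-- relative AM-GM: `det B ≤ det H · (tr(H⁻¹ B)/n)ⁿ` -/
theorem det_le_det_mul_trace_pow {H B : Matrix (Fin n) (Fin n) ℝ} (hn : 1 ≤ n) (hH : H.PosDef)
    (hB : B.PosSemidef) : B.det ≤ H.det * ((∑ i, ∑ j, H⁻¹ i j * B i j) / n) ^ n := by
  obtain ⟨R, hR⟩ := tw_root hH.inv.posSemidef
  have h1 := det_le_trace_pow hn (tw_psd_conj hB R)
  have h2 : (R * B * R.transpose).trace = ∑ i, ∑ j, H⁻¹ i j * B i j := by
    rw [tw_pair (tw_symm hB.1), Matrix.trace_mul_cycle, hR]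
  have h3 : H.det * (R * B * R.transpose).det = B.det := by
    have h4 : H.det * (R.transpose.det * R.det) = 1 := by
      rw [← Matrix.det_mul, ← hR, Matrix.det_nonsing_inv, Ring.inverse_eq_inv',
        mul_inv_cancel₀ hH.det_pos.ne']
    rw [Matrix.det_mul, Matrix.det_mul]
    linear_combination B.det * h4
  rw [← h3, ← h2]
  exact mul_le_mul_of_nonneg_left h1 hH.det_pos.le

/-- `‖ζ‖² ≤ (ζᵀ H⁻¹ ζ) tr H` -/
theorem sum_sq_le_inv_mul_trace {H : Matrix (Fin n) (Fin n) ℝ} (hH : H.PosDef) (ζ : Fin n → ℝ) :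
    ∑ i, ζ i ^ 2 ≤ (∑ i, ∑ j, H⁻¹ i j * ζ i * ζ j) * H.trace := by
  rcases Nat.eq_zero_or_pos n with rfl | hn
  · simp
  have : Nonempty (Fin n) := ⟨⟨0, hn⟩⟩
  have hτ : 0 < H.trace := hH.trace_pos
  have hu : IsUnit H.det := (isUnit_iff_ne_zero).2 hH.det_pos.ne'
  have h1 := tw_quad_le hH.posSemidef ζ
  have h2 := hH.posSemidef.dotProduct_mulVec_nonneg (ζ - H.trace • H⁻¹.mulVec ζ)
  have h3 : H.mulVec (H⁻¹.mulVec ζ) = ζ := by
    rw [Matrix.mulVec_mulVec, Matrix.mul_nonsing_inv _ hu, Matrix.one_mulVec]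
  have h4 : dotProduct (H⁻¹.mulVec ζ) (H.mulVec ζ) = dotProduct ζ ζ := by
    rw [Matrix.dotProduct_mulVec, ← Matrix.mulVec_transpose, tw_symm hH.1, h3]
  simp only [star_trivial, Matrix.mulVec_sub, Matrix.mulVec_smul, h3, sub_dotProduct,
    dotProduct_sub, smul_dotProduct, dotProduct_smul, h4, smul_eq_mul,
    dotProduct_comm (H⁻¹.mulVec ζ) ζ] at h2
  rw [tw_quad, tw_sq] at h1 ⊢
  refine le_of_mul_le_mul_left ?_ hτ
  nlinarith

/-- `ξᵀ H ξ ≤ ‖ξ‖² tr H` -/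
theorem quad_le_trace {H : Matrix (Fin n) (Fin n) ℝ} (hH : H.PosSemidef) (ξ : Fin n → ℝ) :
    ∑ i, ∑ j, H i j * ξ i * ξ j ≤ (∑ i, ξ i ^ 2) * H.trace := by
  exact tw_quad_le hH ξ

/-- an upper bound for the form and a lower bound for the determinant give a lower bound -/
theorem quad_ge_of_det {H : Matrix (Fin n) (Fin n) ℝ} (hH : H.PosDef) {C : ℝ} (hC : 0 < C)
    (hle : ∀ ξ : Fin n → ℝ, ∑ i, ∑ j, H i j * ξ i * ξ j ≤ C * ∑ i, ξ i ^ 2) (ξ : Fin n → ℝ) :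
    H.det / C ^ (n - 1) * ∑ i, ξ i ^ 2 ≤ ∑ i, ∑ j, H i j * ξ i * ξ j := by
  obtain ⟨η, h1, h2⟩ := tw_form hH.1 ξ
  rw [h1, h2, Finset.mul_sum]
  refine Finset.sum_le_sum fun k _ => mul_le_mul_of_nonneg_right ?_ (sq_nonneg _)
  have h3 : ∀ j, hH.1.eigenvalues j ≤ C := fun j => by
    obtain ⟨v, h4, h5⟩ := tw_eig hH.1 j
    have := hle v
    rwa [h4, h5, mul_one] at this
  rw [div_le_iff₀ (by positivity), tw_det hH.1, ← Finset.mul_prod_erase _ _ (Finset.mem_univ k)]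
  refine mul_le_mul_of_nonneg_left ?_ (hH.eigenvalues_pos k).le
  refine (Finset.prod_le_prod (g := fun _ => C) (fun j _ => (hH.eigenvalues_pos j).le)
    fun j _ => h3 j).trans_eq ?_
  simp

/-- `H ⪯ B` with equal determinants forces equality -/
theorem eq_of_le_of_det_eq {H B : Matrix (Fin n) (Fin n) ℝ} (hH : H.PosDef)
    (hB : ∀ i j, B i j = B j i)
    (hle : ∀ ξ : Fin n → ℝ, ∑ i, ∑ j, H i j * ξ i * ξ j ≤ ∑ i, ∑ j, B i j * ξ i * ξ j)
    (hdet : B.det = H.det) : H = B := by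
  rcases Nat.eq_zero_or_pos n with rfl | hn
  · exact Subsingleton.elim _ _
  have hBh : B.IsHermitian := by
    ext i j
    simpa using hB j i
  have hD : (B - H).PosSemidef := Matrix.PosSemidef.of_dotProduct_mulVec_nonneg (hBh.sub hH.1)
    fun ξ => by
      have := hle ξ
      rw [tw_quad, tw_quad] at this
      rw [star_trivial, Matrix.sub_mulVec, dotProduct_sub]
      linarith
  have hBp : B.PosDef := by simpa using hH.add_posSemidef hD
  have hu : IsUnit B.det := (isUnit_iff_ne_zero).2 hBp.det_pos.ne'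
  have h1 := det_le_det_mul_trace_pow hn hBp hH.posSemidef
  rw [tw_pair (tw_symm hH.1), hdet] at h1
  obtain ⟨R, hR⟩ := tw_root hBp.inv.posSemidef
  have hn' : (0 : ℝ) < n := by exact_mod_cast hn
  have h2 : (n : ℝ) ≤ (B⁻¹ * H).trace := by
    have h3 : 1 ≤ ((B⁻¹ * H).trace / n) ^ n := by
      refine le_of_mul_le_mul_left ?_ hH.det_pos
      rwa [mul_one]
    have h4 : 0 ≤ (B⁻¹ * H).trace := by
      have := (tw_psd_conj hH.posSemidef R).trace_nonneg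
      rwa [Matrix.trace_mul_cycle, ← hR] at this
    have h5 := (one_le_pow_iff_of_nonneg (by positivity) hn.ne').1 h3
    rwa [le_div_iff₀ hn', one_mul] at h5
  have h3 := tw_psd_conj hD R
  have h4 : (R * (B - H) * R.transpose).trace = 0 := by
    refine le_antisymm ?_ h3.trace_nonneg
    rw [Matrix.trace_mul_cycle, ← hR, mul_sub, Matrix.trace_sub, Matrix.nonsing_inv_mul _ hu,
      Matrix.trace_one, Fintype.card_fin]
    linarith
  have h5 := h3.trace_eq_zero_iff.1 h4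
  have h6 : B⁻¹ * (B - H) * B⁻¹ = 0 := by
    calc B⁻¹ * (B - H) * B⁻¹ = R.transpose * (R * (B - H) * R.transpose) * R := by
          rw [hR]
          simp only [Matrix.mul_assoc]
      _ = 0 := by rw [h5, Matrix.mul_zero, Matrix.zero_mul]
  have h7 : B - H = B * (B⁻¹ * (B - H) * B⁻¹) * B := by
    rw [← Matrix.mul_assoc, ← Matrix.mul_assoc, Matrix.mul_nonsing_inv _ hu, Matrix.one_mul,
      Matrix.mul_assoc, Matrix.nonsing_inv_mul _ hu, Matrix.mul_one]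
  rw [h6, Matrix.mul_zero, Matrix.zero_mul, sub_eq_zero] at h7
  exact h7.symm

end Crest.Agent.R236
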